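import Crest.Agent.R331.Defs

/-!
Row 331: the one-mode beam-splitter amplitudes (task AMP).
With `c = √η`, `s = √(1-η)`, `P k l = (C c * X - C s)^k * (C s * X + C c)^l : ℝ[X]`, for `p + q = k + l`
`bsAmp η k l p q = √(p! q! / (k! l!)) * (P k l).coeff p` (`coeff_mul`, binomial theorem).
U1, U2: multiply `P k l` by one more factor.  L1: `derivative`.  L2: `(k+l) P - X P'`
(`q coeff_p P = -s k coeff_p (P (k-1) l) + c l coeff_p (P k (l-1))`).
Orthonormality: induction on `k + l` (for all `k' l'`): `√(k+1) ⟨u(k+1,l), u(k',l')⟩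
= ⟨u(k,l), (c a_p - s a_q) u(k',l')⟩ = √k' ⟨u(k,l), u(k'-1,l')⟩` by U1, shifting the sums, L1, L2 and
`c² + s² = 1`; it is easiest to work with sums over `Finset.antidiagonal m` or with `tsum`/`finsum`
over `ℕ × ℕ` first.
-/

set_option autoImplicit false
set_option linter.unusedSectionVars false

open Matrix Set Filter Topology Crest.Agent.R342 Crest.Agent.R332 Crest.MathPhysics.Bosonic
open scoped ComplexOrder Kronecker Matrix.Norms.Frobenius

namespace Crest.Agent.R331

lemma bsAmp_eq_zero (η : ℝ) {k l p q : ℕ} (h : p + q ≠ k + l) : bsAmp η k l p q = 0 := by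
  unfold bsAmp; rw [if_neg h]

section aux
open Polynomial

lemma amp_coeff_pow (a b : ℝ) (k i : ℕ) :
    ((C a * X + C b) ^ k).coeff i = (k.choose i : ℝ) * (a ^ i * b ^ (k - i)) := by
  have h : ∀ m, (C a * X) ^ m * C b ^ (k - m) * (k.choose m : ℝ[X]) =
      C ((k.choose m : ℝ) * (a ^ m * b ^ (k - m))) * X ^ m := fun m => by
    simp only [map_mul, map_pow, map_natCast]
    ring
  rw [add_pow, finset_sum_coeff]
  simp only [h, coeff_C_mul, coeff_X_pow, mul_ite, mul_one, mul_zero, Finset.sum_ite_eq,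
    Finset.mem_range]
  split_ifs with hi
  · rfl
  · rw [Nat.choose_eq_zero_of_lt (by omega)]; simp

/-- the generating polynomial -/
noncomputable def ampP (η : ℝ) (k l : ℕ) : ℝ[X] :=
  (C √η * X + C (-√(1 - η))) ^ k * (C √(1 - η) * X + C √η) ^ l

/-- its homogeneous coefficients -/
noncomputable def ampG (η : ℝ) (k l p q : ℕ) : ℝ :=
  if p + q = k + l then (ampP η k l).coeff p else 0

/-- `√(n!)` -/
noncomputable def ampF (n : ℕ) : ℝ := √(n.factorial : ℝ)

lemma ampF_pos (n : ℕ) : 0 < ampF n := Real.sqrt_pos.2 (by exact_mod_cast n.factorial_pos)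

lemma ampF_succ (n : ℕ) : ampF (n + 1) = √((n : ℝ) + 1) * ampF n := by
  rw [ampF, ampF, Nat.factorial_succ, ← Real.sqrt_mul (by positivity)]
  push_cast; rfl

lemma amp_eq (η : ℝ) (k l p q : ℕ) :
    bsAmp η k l p q = ampF p * ampF q / (ampF k * ampF l) * ampG η k l p q := by
  unfold bsAmp ampG
  split_ifs with h
  · congr 1
    · push_cast
      rw [Real.sqrt_div (by positivity), Real.sqrt_mul (by positivity),
        Real.sqrt_mul (by positivity)]
      rfl
    · rw [ampP, coeff_mul, Finset.Nat.sum_antidiagonal_eq_sum_range_succ_mk]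
      simp only [amp_coeff_pow]
      rw [← Finset.sum_filter]
      refine Finset.sum_subset_zero_on_sdiff (fun i hi => ?_) (fun i hi => ?_) fun i _ => ?_
      · simp only [Finset.mem_filter, Finset.mem_range] at hi ⊢
        omega
      · simp only [Finset.mem_sdiff, Finset.mem_filter, Finset.mem_range] at hi
        by_cases h1 : k < i
        · rw [Nat.choose_eq_zero_of_lt h1]; simp
        · rw [Nat.choose_eq_zero_of_lt (show l < p - i by omega)]; simp
      · push_cast; ring
  · simp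

lemma ampP_coeff_zero (η : ℝ) {k l p : ℕ} (h : k + l < p) : (ampP η k l).coeff p = 0 := by
  refine coeff_eq_zero_of_natDegree_lt (lt_of_le_of_lt ?_ h)
  refine natDegree_mul_le.trans (add_le_add ?_ ?_) <;>
    exact natDegree_pow_le.trans ((Nat.mul_le_mul_left _ natDegree_linear_le).trans (by simp))

lemma amp_gU (η a b : ℝ) (k l p q : ℕ) :
    (if p + q = k + l + 1 then ((C a * X + C b) * ampP η k l).coeff p else 0) =
      a * (if p = 0 then 0 else ampG η k l (p - 1) q) +
        b * (if q = 0 then 0 else ampG η k l p (q - 1)) := by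
  unfold ampG
  rw [add_mul, mul_assoc, coeff_add, coeff_C_mul, coeff_C_mul]
  rcases p with _ | p <;> rcases q with _ | q
  · simp
  · simp
  · simp only [add_zero, Nat.add_right_cancel_iff, coeff_X_mul, Nat.add_eq_zero_iff, one_ne_zero,
      and_false, if_false, if_true, Nat.add_sub_cancel, mul_zero]
    split_ifs with h
    · rw [ampP_coeff_zero η (p := p + 1) (by omega)]; simp
    · simp
  · simp only [coeff_X_mul, Nat.add_eq_zero_iff, one_ne_zero, and_false, if_false,
      Nat.add_sub_cancel]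
    by_cases h : p + 1 + (q + 1) = k + l + 1
    · rw [if_pos h, if_pos (by omega), if_pos (by omega)]
    · rw [if_neg h, if_neg (by omega), if_neg (by omega)]; simp

lemma amp_gU1 (η : ℝ) (k l p q : ℕ) : ampG η (k + 1) l p q =
    √η * (if p = 0 then 0 else ampG η k l (p - 1) q) +
      -√(1 - η) * (if q = 0 then 0 else ampG η k l p (q - 1)) := by
  rw [← amp_gU, ampG, add_right_comm]
  congr 2
  simp only [ampP]; ring

lemma amp_gU2 (η : ℝ) (k l p q : ℕ) : ampG η k (l + 1) p q =
    √(1 - η) * (if p = 0 then 0 else ampG η k l (p - 1) q) +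
      √η * (if q = 0 then 0 else ampG η k l p (q - 1)) := by
  rw [← amp_gU, ampG, ← add_assoc]
  congr 2
  simp only [ampP]; ring

lemma amp_gk (η : ℝ) (k l p q : ℕ) : (k : ℝ) * ampG η (k - 1) l p q =
    if p + q + 1 = k + l then k * (ampP η (k - 1) l).coeff p else 0 := by
  rcases k with _ | k
  · simp
  · unfold ampG
    by_cases h : p + q = k + l
    · rw [if_pos (by omega), if_pos (by omega)]
    · rw [if_neg (by omega), if_neg (by omega), mul_zero]

lemma amp_gl (η : ℝ) (k l p q : ℕ) : (l : ℝ) * ampG η k (l - 1) p q =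
    if p + q + 1 = k + l then l * (ampP η k (l - 1)).coeff p else 0 := by
  rcases l with _ | l
  · simp
  · unfold ampG
    by_cases h : p + q = k + l
    · rw [if_pos (by omega), if_pos (by omega)]
    · rw [if_neg (by omega), if_neg (by omega), mul_zero]

lemma ampP_deriv (η : ℝ) (k l : ℕ) : derivative (ampP η k l) =
    C (√η * k) * ampP η (k - 1) l + C (√(1 - η) * l) * ampP η k (l - 1) := by
  simp only [ampP, derivative_mul, derivative_pow, derivative_add, derivative_C, derivative_X,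
    map_mul]
  ring

lemma ampP_euler (η : ℝ) (k l : ℕ) : C ((k : ℝ) + l) * ampP η k l - X * derivative (ampP η k l) =
    C (-√(1 - η) * k) * ampP η (k - 1) l + C (√η * l) * ampP η k (l - 1) := by
  rw [ampP_deriv]
  rcases k with _ | k <;> rcases l with _ | l <;>
    simp only [ampP, Nat.add_sub_cancel, map_mul, map_add, map_neg, Nat.cast_zero, map_zero] <;>
    ring

lemma amp_gL1 (η : ℝ) (k l p q : ℕ) : ((p : ℝ) + 1) * ampG η k l (p + 1) q =
    √η * (k * ampG η (k - 1) l p q) + √(1 - η) * (l * ampG η k (l - 1) p q) := by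
  rw [amp_gk, amp_gl, ampG, add_right_comm p 1 q]
  split_ifs
  · have := congrArg (fun P => Polynomial.coeff P p) (ampP_deriv η k l)
    simp only [coeff_derivative, coeff_add, coeff_C_mul] at this
    linarith
  · simp

lemma amp_gL2 (η : ℝ) (k l p q : ℕ) : ((q : ℝ) + 1) * ampG η k l p (q + 1) =
    -√(1 - η) * (k * ampG η (k - 1) l p q) + √η * (l * ampG η k (l - 1) p q) := by
  rw [amp_gk, amp_gl, ampG, ← add_assoc p q 1]
  split_ifs with h
  · have := congrArg (fun P => Polynomial.coeff P p) (ampP_euler η k l)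
    have h2 : (X * derivative (ampP η k l)).coeff p = p * (ampP η k l).coeff p := by
      rcases p with _ | p
      · simp
      · rw [coeff_X_mul, coeff_derivative]; push_cast; ring
    simp only [coeff_sub, coeff_add, coeff_C_mul, h2] at this
    have h3 : (k : ℝ) + l = p + q + 1 := by exact_mod_cast h.symm
    rw [h3] at this
    linarith
  · simp

lemma amp_sq (n : ℕ) : (n : ℝ) + 1 = √((n : ℝ) + 1) * √((n : ℝ) + 1) :=
  (Real.mul_self_sqrt (by positivity)).symm

lemma amp_sqrt_pos (n : ℕ) : 0 < √((n : ℝ) + 1) := Real.sqrt_pos.2 (by positivity)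

lemma amp_up_p (η : ℝ) (k l p q : ℕ) : √((p : ℝ) + 1) * bsAmp η k l (p + 1) q =
    ampF p * ampF q / (ampF k * ampF l) * (((p : ℝ) + 1) * ampG η k l (p + 1) q) := by
  rw [amp_eq, ampF_succ]
  nth_rw 3 [amp_sq p]
  ring

lemma amp_up_q (η : ℝ) (k l p q : ℕ) : √((q : ℝ) + 1) * bsAmp η k l p (q + 1) =
    ampF p * ampF q / (ampF k * ampF l) * (((q : ℝ) + 1) * ampG η k l p (q + 1)) := by
  rw [amp_eq, ampF_succ]
  nth_rw 3 [amp_sq q]
  ring

lemma amp_up_k (η : ℝ) (k l p q : ℕ) : √((k : ℝ) + 1) * bsAmp η (k + 1) l p q =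
    ampF p * ampF q / (ampF k * ampF l) * ampG η (k + 1) l p q := by
  rw [amp_eq, ampF_succ]
  have := (amp_sqrt_pos k).ne'
  have := (ampF_pos k).ne'
  have := (ampF_pos l).ne'
  field_simp

lemma amp_up_l (η : ℝ) (k l p q : ℕ) : √((l : ℝ) + 1) * bsAmp η k (l + 1) p q =
    ampF p * ampF q / (ampF k * ampF l) * ampG η k (l + 1) p q := by
  rw [amp_eq, ampF_succ]
  have := (amp_sqrt_pos l).ne'
  have := (ampF_pos k).ne'
  have := (ampF_pos l).ne'
  field_simp

lemma amp_dn_p (η : ℝ) (k l p q : ℕ) : √(p : ℝ) * bsAmp η k l (p - 1) q =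
    ampF p * ampF q / (ampF k * ampF l) * (if p = 0 then 0 else ampG η k l (p - 1) q) := by
  rcases p with _ | p
  · simp
  · rw [amp_eq, ampF_succ, if_neg (by omega), Nat.add_sub_cancel]
    push_cast; ring

lemma amp_dn_q (η : ℝ) (k l p q : ℕ) : √(q : ℝ) * bsAmp η k l p (q - 1) =
    ampF p * ampF q / (ampF k * ampF l) * (if q = 0 then 0 else ampG η k l p (q - 1)) := by
  rcases q with _ | q
  · simp
  · rw [amp_eq, ampF_succ, if_neg (by omega), Nat.add_sub_cancel]
    push_cast; ring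

lemma amp_dn_k (η : ℝ) (k l p q : ℕ) : √(k : ℝ) * bsAmp η (k - 1) l p q =
    ampF p * ampF q / (ampF k * ampF l) * (k * ampG η (k - 1) l p q) := by
  rcases k with _ | k
  · simp
  · rw [amp_eq, ampF_succ, Nat.add_sub_cancel]
    push_cast
    nth_rw 3 [amp_sq k]
    have := (amp_sqrt_pos k).ne'
    have := (ampF_pos k).ne'
    have := (ampF_pos l).ne'
    field_simp

lemma amp_dn_l (η : ℝ) (k l p q : ℕ) : √(l : ℝ) * bsAmp η k (l - 1) p q =
    ampF p * ampF q / (ampF k * ampF l) * (l * ampG η k (l - 1) p q) := by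
  rcases l with _ | l
  · simp
  · rw [amp_eq, ampF_succ, Nat.add_sub_cancel]
    push_cast
    nth_rw 3 [amp_sq l]
    have := (amp_sqrt_pos l).ne'
    have := (ampF_pos k).ne'
    have := (ampF_pos l).ne'
    field_simp

end aux

lemma amp_L1 (η : ℝ) (k l p q : ℕ) :
    √((p : ℝ) + 1) * bsAmp η k l (p + 1) q =
      √η * √(k : ℝ) * bsAmp η (k - 1) l p q + √(1 - η) * √(l : ℝ) * bsAmp η k (l - 1) p q := by
  rw [amp_up_p, mul_assoc √η, amp_dn_k, mul_assoc √(1 - η), amp_dn_l, amp_gL1]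
  ring

lemma amp_L2 (η : ℝ) (k l p q : ℕ) :
    √((q : ℝ) + 1) * bsAmp η k l p (q + 1) =
      -√(1 - η) * √(k : ℝ) * bsAmp η (k - 1) l p q + √η * √(l : ℝ) * bsAmp η k (l - 1) p q := by
  rw [amp_up_q, mul_assoc (-√(1 - η)), amp_dn_k, mul_assoc √η, amp_dn_l, amp_gL2]
  ring

lemma amp_U1 (η : ℝ) (k l p q : ℕ) :
    √((k : ℝ) + 1) * bsAmp η (k + 1) l p q =
      √η * √(p : ℝ) * bsAmp η k l (p - 1) q - √(1 - η) * √(q : ℝ) * bsAmp η k l p (q - 1) := by
  rw [amp_up_k, mul_assoc √η, amp_dn_p, mul_assoc √(1 - η), amp_dn_q, amp_gU1]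
  ring

lemma amp_U2 (η : ℝ) (k l p q : ℕ) :
    √((l : ℝ) + 1) * bsAmp η k (l + 1) p q =
      √(1 - η) * √(p : ℝ) * bsAmp η k l (p - 1) q + √η * √(q : ℝ) * bsAmp η k l p (q - 1) := by
  rw [amp_up_l, mul_assoc √(1 - η), amp_dn_p, mul_assoc √η, amp_dn_q, amp_gU2]
  ring

/-- moving the raising operators to the other factor -/
lemma amp_shift (u v : ℕ → ℕ → ℝ) (a b : ℝ) (m : ℕ) :
    ∑ x ∈ Finset.HasAntidiagonal.antidiagonal (m + 1),
      (a * √(x.1 : ℝ) * u (x.1 - 1) x.2 + b * √(x.2 : ℝ) * u x.1 (x.2 - 1)) * v x.1 x.2 =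
    ∑ x ∈ Finset.HasAntidiagonal.antidiagonal m, u x.1 x.2 *
      (a * (√((x.1 : ℝ) + 1) * v (x.1 + 1) x.2) + b * (√((x.2 : ℝ) + 1) * v x.1 (x.2 + 1))) := by
  simp only [add_mul, mul_add, Finset.sum_add_distrib]
  rw [Finset.Nat.sum_antidiagonal_succ, Finset.Nat.sum_antidiagonal_succ']
  simp only [Nat.cast_zero, Real.sqrt_zero, mul_zero, zero_mul, zero_add, Nat.add_sub_cancel,
    Nat.cast_add, Nat.cast_one]
  congr 1 <;> exact Finset.sum_congr rfl fun x _ => by ring

lemma amp_orth_anti {η : ℝ} (h0 : 0 ≤ η) (h1 : η ≤ 1) (m : ℕ) : ∀ k l k' l' : ℕ, k + l = m →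
    ∑ x ∈ Finset.HasAntidiagonal.antidiagonal m, bsAmp η k l x.1 x.2 * bsAmp η k' l' x.1 x.2 =
      if k = k' ∧ l = l' then 1 else 0 := by
  have hc : √η * √η + √(1 - η) * √(1 - η) = 1 := by
    rw [Real.mul_self_sqrt h0, Real.mul_self_sqrt (by linarith)]; ring
  induction m with
  | zero =>
    intro k l k' l' h
    obtain ⟨rfl, rfl⟩ : k = 0 ∧ l = 0 := by omega
    rw [Finset.Nat.antidiagonal_zero, Finset.sum_singleton]
    split_ifs with h'
    · obtain ⟨rfl, rfl⟩ := h'
      simp [bsAmp]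
    · rw [bsAmp_eq_zero η (k := k') (l := l') (by simp only; omega), mul_zero]
  | succ m ih =>
    intro k l k' l' h
    rcases k with _ | k
    · obtain rfl : l = m + 1 := by omega
      refine mul_left_cancel₀ (amp_sqrt_pos m).ne' ?_
      rw [Finset.mul_sum]
      simp only [← mul_assoc, amp_U2]
      rw [amp_shift (bsAmp η 0 m) (bsAmp η k' l')]
      have e : ∀ x : ℕ × ℕ, bsAmp η 0 m x.1 x.2 *
          (√(1 - η) * (√((x.1 : ℝ) + 1) * bsAmp η k' l' (x.1 + 1) x.2) +
            √η * (√((x.2 : ℝ) + 1) * bsAmp η k' l' x.1 (x.2 + 1))) =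
          √(l' : ℝ) * (bsAmp η 0 m x.1 x.2 * bsAmp η k' (l' - 1) x.1 x.2) := fun x => by
        rw [amp_L1, amp_L2]
        linear_combination √(l' : ℝ) * (bsAmp η 0 m x.1 x.2 * bsAmp η k' (l' - 1) x.1 x.2) * hc
      simp only [e]
      rw [← Finset.mul_sum, ih 0 m k' (l' - 1) (by omega)]
      rcases l' with _ | l'
      · simp
      · simp only [Nat.add_sub_cancel, Nat.add_right_cancel_iff]
        split_ifs with h'
        · rw [h'.2]; push_cast; rfl
        · simp
    · refine mul_left_cancel₀ (amp_sqrt_pos k).ne' ?_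
      rw [Finset.mul_sum]
      simp only [← mul_assoc, amp_U1, sub_eq_add_neg (√η * _ * _), ← neg_mul]
      rw [amp_shift (bsAmp η k l) (bsAmp η k' l')]
      have e : ∀ x : ℕ × ℕ, bsAmp η k l x.1 x.2 *
          (√η * (√((x.1 : ℝ) + 1) * bsAmp η k' l' (x.1 + 1) x.2) +
            -√(1 - η) * (√((x.2 : ℝ) + 1) * bsAmp η k' l' x.1 (x.2 + 1))) =
          √(k' : ℝ) * (bsAmp η k l x.1 x.2 * bsAmp η (k' - 1) l' x.1 x.2) := fun x => by
        rw [amp_L1, amp_L2]
        linear_combination √(k' : ℝ) * (bsAmp η k l x.1 x.2 * bsAmp η (k' - 1) l' x.1 x.2) * hc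
      simp only [e]
      rw [← Finset.mul_sum, ih k l (k' - 1) l' (by omega)]
      rcases k' with _ | k'
      · simp
      · simp only [Nat.add_sub_cancel, Nat.add_right_cancel_iff]
        split_ifs with h'
        · rw [h'.1]; push_cast; rfl
        · simp

/-- orthonormality inside the sector of total photon number `m` -/
lemma amp_orth_sector {η : ℝ} (h0 : 0 ≤ η) (h1 : η ≤ 1) {k l k' l' m : ℕ} (h : k + l = m) :
    ∑ p ∈ Finset.range (m + 1), bsAmp η k l p (m - p) * bsAmp η k' l' p (m - p) =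
      if k = k' ∧ l = l' then 1 else 0 := by
  rw [← amp_orth_anti h0 h1 m k l k' l' h, Finset.Nat.sum_antidiagonal_eq_sum_range_succ_mk]

lemma amp_orth {η : ℝ} (h0 : 0 ≤ η) (h1 : η ≤ 1) {k l k' l' L : ℕ} (h : k + l ≤ L) :
    ∑ p : Fin (L + 1), ∑ q : Fin (L + 1), bsAmp η k l p q * bsAmp η k' l' p q =
      if k = k' ∧ l = l' then 1 else 0 := by
  rw [← amp_orth_anti h0 h1 (k + l) k l k' l' rfl,
    Fin.sum_univ_eq_sum_range (fun p => ∑ q : Fin (L + 1), bsAmp η k l p q * bsAmp η k' l' p q)]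
  simp only [fun p => Fin.sum_univ_eq_sum_range (fun q => bsAmp η k l p q * bsAmp η k' l' p q)
    (L + 1)]
  rw [← Finset.sum_product']
  refine (Finset.sum_subset (fun x hx => ?_) fun x _ hx => ?_).symm
  · rw [Finset.HasAntidiagonal.mem_antidiagonal] at hx
    simp only [Finset.mem_product, Finset.mem_range]
    omega
  · rw [bsAmp_eq_zero η (by simpa using hx), zero_mul]

lemma continuous_bsAmp (k l p q : ℕ) : Continuous fun η : ℝ => bsAmp η k l p q := by
  unfold bsAmp
  split_ifs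
  · refine continuous_const.mul (continuous_finset_sum _ fun i _ => ?_)
    split_ifs <;> fun_prop
  · exact continuous_const

end Crest.Agent.R331
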