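import Crest.Agent.R331.Ent

/-! Row 331: truncated modes, thermal states, drift and Fisher-information bounds (task BOX). -/

set_option autoImplicit false
set_option linter.unusedSectionVars false

open Matrix Set Filter Topology Crest.Agent.R342 Crest.Agent.R332 Crest.MathPhysics.Bosonic
open scoped ComplexOrder Kronecker Matrix.Norms.Frobenius

namespace Crest.Agent.R331

variable {n K : ℕ}

lemma ex_eq_rtr (F : Box n K → ℝ) (ρ : Matrix (Box n K) (Box n K) ℂ) :
    ex F ρ = rtr (ρ * rdiag F) := by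
  rw [rtr_mul_comm, rtr_rdiag_mul]; rfl

lemma ex_mono {F G : Box n K → ℝ} (h : ∀ k, F k ≤ G k) {ρ : Matrix (Box n K) (Box n K) ℂ}
    (hρ : ρ.PosSemidef) : ex F ρ ≤ ex G ρ := by
  exact Finset.sum_le_sum fun k _ => mul_le_mul_of_nonneg_right (h k) (ent_diag_re_nonneg hρ k)

lemma ex_const (s : ℝ) {ρ : Matrix (Box n K) (Box n K) ℂ} (hρ : Dens ρ) :
    ex (fun _ => s) ρ = s := by
  have h : rtr ρ = 1 := by unfold rtr; rw [hρ.2]; simp
  unfold ex
  rw [← Finset.mul_sum, ← rtr_eq_sum, h, mul_one]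

lemma ex_mix (F : Box n K → ℝ) (s s' : ℝ) (ρ ω : Matrix (Box n K) (Box n K) ℂ) :
    ex F (s • ρ + s' • ω) = s * ex F ρ + s' * ex F ω := by
  rw [ex_eq_rtr, ex_eq_rtr, ex_eq_rtr, Matrix.add_mul, Matrix.smul_mul, Matrix.smul_mul, rtr_add,
    rtr_smul, rtr_smul]

lemma box_ex_add (F G : Box n K → ℝ) (ρ : Matrix (Box n K) (Box n K) ℂ) :
    ex (fun k => F k + G k) ρ = ex F ρ + ex G ρ := by
  unfold ex
  simp only [add_mul, Finset.sum_add_distrib]

lemma box_ex_sub (F G : Box n K → ℝ) (ρ : Matrix (Box n K) (Box n K) ℂ) :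
    ex (fun k => F k - G k) ρ = ex F ρ - ex G ρ := by
  unfold ex
  simp only [sub_mul, Finset.sum_sub_distrib]

lemma box_ex_mul (s : ℝ) (F : Box n K → ℝ) (ρ : Matrix (Box n K) (Box n K) ℂ) :
    ex (fun k => s * F k) ρ = s * ex F ρ := by
  unfold ex
  simp only [mul_assoc, Finset.mul_sum]

lemma box_ex_sum {J : Type} (s : Finset J) (F : J → Box n K → ℝ)
    (ρ : Matrix (Box n K) (Box n K) ℂ) :
    ex (fun k => ∑ i ∈ s, F i k) ρ = ∑ i ∈ s, ex (F i) ρ := by
  unfold ex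
  simp only [Finset.sum_mul]
  exact Finset.sum_comm

lemma box_ex_nonneg {F : Box n K → ℝ} (h : ∀ k, 0 ≤ F k) {ρ : Matrix (Box n K) (Box n K) ℂ}
    (hρ : ρ.PosSemidef) : 0 ≤ ex F ρ :=
  Finset.sum_nonneg fun k _ => mul_nonneg (h k) (ent_diag_re_nonneg hρ k)

lemma box_toOcc_inj {k l : Box n K} (h : toOcc k = toOcc l) : k = l :=
  funext fun j => Fin.ext (congrFun h j)

lemma box_ann_apply (j : Fin n) (k k' : Box n K) :
    ann K j k k' =
      if toOcc k' = toOcc k + Pi.single j 1 then ((√((k' j : ℕ) : ℝ) : ℝ) : ℂ) else 0 := by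
  unfold ann
  rw [Matrix.of_apply]
  refine if_congr ⟨fun h => funext fun i => ?_, fun h => ⟨?_, fun i hi => Fin.ext ?_⟩⟩ rfl rfl
  · by_cases hi : i = j
    · subst hi; simpa [toOcc] using h.1
    · simp [toOcc, hi, h.2 i hi]
  · simpa [toOcc] using congrFun h j
  · simpa [toOcc, hi] using congrFun h i

lemma box_tot_succ {j : Fin n} {k k' : Box n K} (h : toOcc k' = toOcc k + Pi.single j 1) :
    tot k' = tot k + 1 := by
  have h1 : ∑ i, toOcc k' i = ∑ i, (toOcc k + Pi.single j 1 : Occ n) i := by rw [h]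
  simpa [toOcc, tot, Finset.sum_add_distrib] using h1

/-- intertwining of diagonal matrices by the annihilation operator -/
lemma box_ann_diag (j : Fin n) {u v : Box n K → ℝ}
    (h : ∀ k k', toOcc k' = toOcc k + Pi.single j 1 → u k' = v k) :
    ann K j * rdiag u = rdiag v * ann K j := by
  ext k k'
  rw [rdiag, rdiag, mul_diagonal, diagonal_mul, box_ann_apply]
  split_ifs with hk
  · rw [h k k' hk, mul_comm]
  · simp

lemma box_ct_mul (j : Fin n) :
    (ann K j)ᴴ * ann K j = rdiag fun k : Box n K => ((k j : ℕ) : ℝ) := by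
  ext k' k''
  rw [Matrix.mul_apply, rdiag, diagonal_apply]
  simp only [conjTranspose_apply, box_ann_apply]
  split_ifs with hk
  · subst hk
    by_cases h0 : (k' j : ℕ) = 0
    · simp [h0]
    · have hlt : (k' j : ℕ) - 1 < K + 1 := lt_of_le_of_lt (Nat.sub_le _ _) (k' j).2
      have hk0 : toOcc k' = toOcc (Function.update k' j ⟨(k' j : ℕ) - 1, hlt⟩) + Pi.single j 1 := by
        funext i
        by_cases hi : i = j
        · subst hi; simp [toOcc]; omega
        · simp [toOcc, hi]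
      rw [Finset.sum_eq_single (Function.update k' j ⟨(k' j : ℕ) - 1, hlt⟩)]
      · rw [if_pos hk0, Complex.star_def, Complex.conj_ofReal, ← Complex.ofReal_mul,
          Real.mul_self_sqrt (Nat.cast_nonneg _)]
      · intro k _ hne
        rw [if_neg, mul_zero]
        intro h
        exact hne (box_toOcc_inj (add_right_cancel (h.symm.trans hk0)))
      · simp
  · refine Finset.sum_eq_zero fun k _ => ?_
    split_ifs with h1 h2
    · exact absurd (box_toOcc_inj (h1.trans h2.symm)) hk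
    all_goals simp

lemma box_mul_ct (j : Fin n) :
    ann K j * (ann K j)ᴴ =
      rdiag fun k : Box n K => if (k j : ℕ) = K then 0 else ((k j : ℕ) : ℝ) + 1 := by
  ext k l
  rw [Matrix.mul_apply, rdiag, diagonal_apply]
  simp only [conjTranspose_apply, box_ann_apply]
  by_cases hk : k = l
  · subst hk
    rw [if_pos rfl]
    by_cases h0 : (k j : ℕ) = K
    · rw [if_pos h0, Complex.ofReal_zero]
      refine Finset.sum_eq_zero fun k' _ => ?_
      rw [if_neg, zero_mul]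
      intro h
      have h1 := congrFun h j
      have h2 := (k' j).2
      simp [toOcc] at h1
      omega
    · have hlt : (k j : ℕ) + 1 < K + 1 := by have := (k j).2; omega
      have hk0 : toOcc (Function.update k j ⟨(k j : ℕ) + 1, hlt⟩) = toOcc k + Pi.single j 1 := by
        funext i
        by_cases hi : i = j
        · subst hi; simp [toOcc]
        · simp [toOcc, hi]
      rw [if_neg h0, Finset.sum_eq_single (Function.update k j ⟨(k j : ℕ) + 1, hlt⟩)]
      · rw [if_pos hk0, Complex.star_def, Complex.conj_ofReal, ← Complex.ofReal_mul,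
          Real.mul_self_sqrt (Nat.cast_nonneg _)]
        simp
      · intro k' _ hne
        rw [if_neg, zero_mul]
        intro h
        exact hne (box_toOcc_inj (h.trans hk0.symm))
      · simp
  · rw [if_neg hk]
    refine Finset.sum_eq_zero fun k' _ => ?_
    split_ifs with h1 h2
    · exact absurd (box_toOcc_inj (add_right_cancel (h1.symm.trans h2))) hk
    all_goals simp

lemma box_le_tot (k : Box n K) (j : Fin n) : ((k j : ℕ) : ℝ) ≤ tot k := by
  exact_mod_cast Finset.single_le_sum (f := fun i => (k i : ℕ)) (fun _ _ => Nat.zero_le _)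
    (Finset.mem_univ j)

lemma box_nat_le_sq (m : ℕ) : (m : ℝ) ≤ (m : ℝ) ^ 2 := by
  exact_mod_cast Nat.le_self_pow two_ne_zero m

/-- `a† F(N) a = N_j F(N - e_j)` -/
lemma ann_ct_diag_ann (j : Fin n) (F : Occ n → ℝ) :
    (ann K j)ᴴ * rdiag (fun k => F (toOcc k)) * ann K j =
      rdiag fun k : Box n K => ((k j : ℕ) : ℝ) * F (toOcc k - Pi.single j 1) := by
  rw [Matrix.mul_assoc, ← box_ann_diag j (u := fun k => F (toOcc k - Pi.single j 1))
    (fun k k' h => by rw [h, add_tsub_cancel_right]), ← Matrix.mul_assoc, box_ct_mul, rdiag_mul]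

/-- `a F(N) a† = 1[N_j < K] (N_j + 1) F(N + e_j)` -/
lemma ann_diag_ann_ct (j : Fin n) (F : Occ n → ℝ) :
    ann K j * rdiag (fun k => F (toOcc k)) * (ann K j)ᴴ =
      rdiag fun k : Box n K =>
        if (k j : ℕ) = K then 0 else (((k j : ℕ) : ℝ) + 1) * F (toOcc k + Pi.single j 1) := by
  rw [box_ann_diag j (v := fun k => F (toOcc k + Pi.single j 1)) (fun k k' h => by rw [h]),
    Matrix.mul_assoc, box_mul_ct, rdiag_mul]
  congr 1
  funext k
  split_ifs
  · simp
  · ring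

lemma ann_ct_mul (j : Fin n) :
    (ann K j)ᴴ * ann K j = rdiag fun k : Box n K => ((k j : ℕ) : ℝ) := by
  exact box_ct_mul j

lemma opLe_ann (j : Fin n) : OpLe (ann K j) (√(K : ℝ)) := by
  rw [opLe_iff_psd (Real.sqrt_nonneg _), Real.sq_sqrt (Nat.cast_nonneg _), box_ct_mul, ← rdiag_const,
    rdiag_sub, rdiag_psd_iff]
  intro k
  have h : (k j : ℕ) ≤ K := Nat.lt_succ_iff.1 (k j).2
  exact sub_nonneg.2 (by exact_mod_cast h)

lemma comm_ann_tot (j : Fin n) :
    comm (ann K j) (rdiag fun k : Box n K => (tot k : ℝ)) = ann K j := by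
  unfold R332.comm
  rw [box_ann_diag j (v := fun k => (tot k : ℝ) + 1) (fun k k' h => by
    rw [box_tot_succ h]; push_cast; ring), ← Matrix.sub_mul, rdiag_sub]
  simp only [add_sub_cancel_left]
  rw [rdiag_const, one_smul, Matrix.one_mul]

lemma topP_mul_ann (j : Fin n) : topP K j * ann K j = 0 := by
  ext k k'
  rw [topP, rdiag, diagonal_mul, box_ann_apply]
  split_ifs with h0 h
  · have h1 := congrFun h j
    have h2 := (k' j).2
    simp [toOcc] at h1
    omega
  all_goals simp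

lemma log_Zp {t : ℝ} (ht : 0 < t) (n L : ℕ) :
    0 < Zp n L t ∧ 0 ≤ Real.log (Zp n L t) ∧ Real.log (Zp n L t) ≤ n * Real.log (1 + t) := by
  have hq0 : 0 < t / (t + 1) := by positivity
  have hq1 : t / (t + 1) < 1 := by rw [div_lt_one (by positivity)]; linarith
  have e : Zp n L t = (∑ m ∈ Finset.range (L + 1), (t / (t + 1)) ^ m) ^ n := by
    rw [← Fin.sum_univ_eq_sum_range (fun m => (t / (t + 1)) ^ m), Finset.sum_pow',
      Fintype.piFinset_univ]
    unfold Zp tot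
    simp only [Finset.prod_pow_eq_pow_sum]
  have h1 : 1 ≤ ∑ m ∈ Finset.range (L + 1), (t / (t + 1)) ^ m := by
    have := Finset.single_le_sum (f := fun m => (t / (t + 1)) ^ m) (s := Finset.range (L + 1))
      (fun m _ => (pow_pos hq0 m).le) (Finset.mem_range.2 (Nat.succ_pos L))
    simpa using this
  have h2 : ∑ m ∈ Finset.range (L + 1), (t / (t + 1)) ^ m ≤ 1 + t := by
    have h := (summable_geometric_of_lt_one hq0.le hq1).sum_le_tsum (Finset.range (L + 1))
      (fun m _ => (pow_pos hq0 m).le)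
    rw [tsum_geometric_of_lt_one hq0.le hq1] at h
    refine h.trans (le_of_eq ?_)
    field_simp
    ring
  rw [e]
  refine ⟨by positivity, Real.log_nonneg (one_le_pow₀ h1), ?_⟩
  rw [Real.log_pow]
  exact mul_le_mul_of_nonneg_left (Real.log_le_log (by linarith) h2) (Nat.cast_nonneg _)

lemma fdens_therm {t : ℝ} (ht : 0 < t) (n L : ℕ) : FDens (therm n L t) := by
  have hZ := (log_Zp ht n L).1
  constructor
  · unfold therm rdiag
    rw [Matrix.posDef_diagonal_iff]
    intro k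
    exact Complex.zero_lt_real.2 (by positivity)
  · unfold therm rdiag
    rw [trace_diagonal, ← Complex.ofReal_sum, ← Finset.sum_div]
    change (((Zp n L t / Zp n L t : ℝ)) : ℂ) = 1
    rw [div_self hZ.ne', Complex.ofReal_one]

lemma del_therm {t : ℝ} (ht : 0 < t) (j : Fin n) : del t (therm n K t) (ann K j) = 0 := by
  unfold del therm
  rw [box_ann_diag j (v := fun k => (t / (t + 1)) ^ (tot k + 1) / Zp n K t) (fun k k' h => by
    rw [box_tot_succ h]), ← Matrix.smul_mul, ← Matrix.smul_mul, rdiag_smul, rdiag_smul, sub_eq_zero]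
  congr 2
  funext k
  rw [pow_succ]
  field_simp

lemma Hm_therm {t : ℝ} (ht : 0 < t) (n L : ℕ) :
    Hm (therm n L t) = rdiag fun k => bet t * tot k + Real.log (Zp n L t) := by
  have hZ := (log_Zp ht n L).1
  unfold Hm therm
  rw [fc_rdiag]
  congr 1
  funext k
  rw [Real.log_div (by positivity) hZ.ne', Real.log_pow, log_ratio ht]
  ring

/-- Gibbs variational bound (`ent_le_cross` with the thermal state) -/
lemma ent_le_gibbs {t : ℝ} (ht : 0 < t) {ρ : Matrix (Box n K) (Box n K) ℂ} (hρ : Dens ρ) :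
    ent ρ ≤ bet t * en ρ + n * Real.log (1 + t) := by
  have h := ent_le_cross hρ (fdens_therm ht n K)
  rw [Hm_therm ht, ← ex_eq_rtr, box_ex_add, box_ex_mul, ex_const _ hρ] at h
  have h2 := (log_Zp ht n K).2.2
  unfold en
  linarith

lemma box_ip_del (t : ℝ) (ρ : Matrix (Box n K) (Box n K) ℂ) (j : Fin n) {u v : Box n K → ℝ}
    (h : ∀ k k', toOcc k' = toOcc k + Pi.single j 1 → u k' = v k) :
    (ip (rdiag v * ann K j) (del t ρ (ann K j))).re =
      ex (fun k => (t + 1) * (((k j : ℕ) : ℝ) * u k) -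
        t * ((if (k j : ℕ) = K then 0 else ((k j : ℕ) : ℝ) + 1) * v k)) ρ := by
  rw [box_ex_sub, box_ex_mul, box_ex_mul, ex_eq_rtr, ex_eq_rtr, ← rdiag_mul, ← rdiag_mul,
    ← box_ct_mul, ← box_mul_ct, Matrix.mul_assoc _ (ann K j), box_ann_diag j h]
  change rtr ((rdiag v * ann K j)ᴴ * del t ρ (ann K j)) = _
  rw [del, conjTranspose_mul, rdiag_ct, Matrix.mul_sub, Matrix.mul_smul, Matrix.mul_smul, rtr_sub,
    rtr_smul, rtr_smul, ← Matrix.mul_assoc _ (ann K j) ρ, rtr_mul_comm _ ρ,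
    rtr_mul_comm _ (ρ * ann K j)]
  simp only [Matrix.mul_assoc]

/-- With `Y = [a, W]`, `Yᴴ a` and `a Yᴴ` are diagonal (`ann_ct_diag_ann`, `ann_diag_ann_ct`):
`Re ip Y δ = ∑_k ρ_kk [(t+1) k_j (W k_j - W (k_j - 1)) - t 1[k_j<K] (k_j+1)(W (k_j+1) - W k_j)]`;
use `drift` and `mono`. -/
lemma diss_ge {W : ℕ → ℝ} {T CW t : ℝ} (hW : GoodW W T CW) (ht0 : 0 ≤ t) (ht : t ≤ T)
    {ρ : Matrix (Box n K) (Box n K) ℂ} (hρ : Dens ρ) (j : Fin n) :
    ex (fun k => ((k j : ℕ) : ℝ) ^ 2) ρ - CW ≤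
      (ip (comm (ann K j) (rdiag (wsum W))) (del t ρ (ann K j))).re := by
  have e : comm (ann K j) (rdiag (wsum W)) =
      rdiag (fun k : Box n K => W (k j + 1) - W (k j)) * ann K j := by
    unfold R332.comm
    rw [box_ann_diag j (v := fun k => wsum W k + (W (k j + 1) - W (k j))) (fun k k' h => ?_),
      ← Matrix.sub_mul, rdiag_sub]
    · simp only [add_sub_cancel_left]
    · unfold wsum
      rw [← Finset.add_sum_erase _ _ (Finset.mem_univ j), ← Finset.add_sum_erase _ _ (Finset.mem_univ j)]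
      have h1 : (k' j : ℕ) = k j + 1 := by simpa [toOcc] using congrFun h j
      have h2 : ∑ i ∈ Finset.univ.erase j, W (k' i) = ∑ i ∈ Finset.univ.erase j, W (k i) :=
        Finset.sum_congr rfl fun i hi => by
          have h3 : (k' i : ℕ) = k i := by
            simpa [toOcc, Finset.ne_of_mem_erase hi] using congrFun h i
          rw [h3]
      rw [h1, h2]
      ring
  rw [e, box_ip_del t ρ j (u := fun k => W (k j) - W (k j - 1)) (fun k k' h => by
    have h1 : (k' j : ℕ) = k j + 1 := by simpa [toOcc] using congrFun h j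
    simp only [h1, Nat.add_sub_cancel]), ← ex_const CW hρ, ← box_ex_sub]
  refine ex_mono (fun k => ?_) hρ.1
  have h1 := hW.drift t ht0 ht (k j)
  have h2 : 0 ≤ W (k j + 1) - W (k j) := sub_nonneg.2 (hW.mono (Nat.le_succ _))
  have h3 : 0 ≤ t * (((k j : ℕ) : ℝ) + 1) * (W (k j + 1) - W (k j)) := by positivity
  split_ifs
  · linarith
  · linarith

/-- `diss_ge` with `δ = 0` -/
lemma therm_sq_le {W : ℕ → ℝ} {T CW t : ℝ} (hW : GoodW W T CW) (ht0 : 0 < t) (ht : t ≤ T)
    (j : Fin n) : ex (fun k => ((k j : ℕ) : ℝ) ^ 2) (therm n K t) ≤ CW := by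
  have h := diss_ge hW ht0.le ht (fdens_therm ht0 n K).dens j
  rw [del_therm ht0, ip, Matrix.mul_zero, trace_zero, Complex.zero_re] at h
  linarith

lemma top_le {W : ℕ → ℝ} {T CW : ℝ} (hW : GoodW W T CW) {ρ : Matrix (Box n K) (Box n K) ℂ}
    (hρ : ρ.PosSemidef) (j : Fin n) : rtr (ρ * topP K j) ≤ ex (wsum W) ρ / W K := by
  rw [topP, ← ex_eq_rtr, div_eq_inv_mul, ← box_ex_mul]
  refine ex_mono (fun k => ?_) hρ
  have h1 : W (k j) ≤ wsum W k :=
    Finset.single_le_sum (f := fun i => W (k i)) (fun _ _ => hW.nonneg _) (Finset.mem_univ j)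
  have hK := hW.pos K
  split_ifs with h
  · rw [h] at h1
    rw [← div_eq_inv_mul, le_div_iff₀ hK, one_mul]
    exact h1
  · exact mul_nonneg (inv_nonneg.2 hK.le) ((hW.nonneg _).trans h1)

lemma ex_tot_sq_le {ρ : Matrix (Box n K) (Box n K) ℂ} (hρ : ρ.PosSemidef) {m : ℝ}
    (h : ∀ j, ex (fun k => ((k j : ℕ) : ℝ) ^ 2) ρ ≤ m) :
    ex (fun k => (tot k : ℝ) ^ 2) ρ ≤ (n : ℝ) ^ 2 * m := by
  have h1 : ex (fun k => (tot k : ℝ) ^ 2) ρ ≤ ex (fun k => n * ∑ j, ((k j : ℕ) : ℝ) ^ 2) ρ := by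
    refine ex_mono (fun k => ?_) hρ
    have := sq_sum_le_card_mul_sum_sq (s := Finset.univ) (f := fun j => ((k j : ℕ) : ℝ))
    simpa [tot] using this
  rw [box_ex_mul, box_ex_sum] at h1
  have h2 : ∑ j, ex (fun k => ((k j : ℕ) : ℝ) ^ 2) ρ ≤ n * m := by
    simpa using Finset.sum_le_sum (s := Finset.univ) fun j _ => h j
  have h3 := mul_le_mul_of_nonneg_left h2 (Nat.cast_nonneg (α := ℝ) n)
  linarith

lemma en_le_of_sq {ρ : Matrix (Box n K) (Box n K) ℂ} (hρ : ρ.PosSemidef) {m : ℝ}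
    (h : ∀ j, ex (fun k => ((k j : ℕ) : ℝ) ^ 2) ρ ≤ m) : en ρ ≤ n * m := by
  have h1 : en ρ ≤ ex (fun k => ∑ j, ((k j : ℕ) : ℝ) ^ 2) ρ := by
    refine ex_mono (fun k => ?_) hρ
    rw [tot, Nat.cast_sum]
    exact Finset.sum_le_sum fun j _ => box_nat_le_sq _
  rw [box_ex_sum] at h1
  have h2 : ∑ j, ex (fun k => ((k j : ℕ) : ℝ) ^ 2) ρ ≤ n * m := by
    simpa using Finset.sum_le_sum (s := Finset.univ) fun j _ => h j
  linarith

lemma box_fis_eq {ι : Type} [Fintype ι] [DecidableEq ι] (t : ℝ) (ρ c : Matrix ι ι ℂ) :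
    fis t ρ c = (t + 1) * rtr (c * ρ * cᴴ * Hm ρ) + t * rtr (cᴴ * ρ * c * Hm ρ)
      - t * rtr (c * cᴴ * (Hm ρ * ρ)) - (t + 1) * rtr (cᴴ * c * (ρ * Hm ρ))
      + bet t * ((t + 1) * rtr (ρ * (cᴴ * c)) - t * rtr (cᴴ * ρ * c)) := by
  change -rtr ((zed t ρ c)ᴴ * del t ρ c) = _
  have hs : (bet t • c)ᴴ = bet t • cᴴ := by rw [conjTranspose_smul]; rfl
  rw [zed, del, R332.comm, conjTranspose_sub, conjTranspose_sub, conjTranspose_mul, conjTranspose_mul,
    (Hm_herm ρ).eq, hs]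
  have e1 : rtr (Hm ρ * cᴴ * (c * ρ)) = rtr (cᴴ * c * (ρ * Hm ρ)) := by
    rw [Matrix.mul_assoc, rtr_mul_comm]; simp only [Matrix.mul_assoc]
  have e2 : rtr (Hm ρ * cᴴ * (ρ * c)) = rtr (cᴴ * ρ * c * Hm ρ) := by
    rw [Matrix.mul_assoc, rtr_mul_comm]; simp only [Matrix.mul_assoc]
  have e3 : rtr (cᴴ * Hm ρ * (c * ρ)) = rtr (c * ρ * cᴴ * Hm ρ) := by
    rw [rtr_mul_comm]; simp only [Matrix.mul_assoc]
  have e4 : rtr (cᴴ * Hm ρ * (ρ * c)) = rtr (c * cᴴ * (Hm ρ * ρ)) := by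
    rw [← Matrix.mul_assoc, rtr_mul_comm]; simp only [Matrix.mul_assoc]
  have e5 : rtr (cᴴ * (c * ρ)) = rtr (ρ * (cᴴ * c)) := by
    rw [← Matrix.mul_assoc, rtr_mul_comm]
  have e6 : rtr (cᴴ * (ρ * c)) = rtr (cᴴ * ρ * c) := by rw [Matrix.mul_assoc]
  simp only [Matrix.sub_mul, Matrix.mul_sub, Matrix.smul_mul, Matrix.mul_smul, rtr_sub, rtr_smul,
    e1, e2, e3, e4, e5, e6]
  ring

/-- Expanding, `I = (t+1) tr(H cρc†) + t tr(H c†ρc) - t tr(cc† Hρ) - (t+1) tr(c†c ρH)
+ β((t+1) tr(c†cρ) - t tr(c†ρc))`.  Drop the three nonpositive terms (`mul_Hm_psd`), bound `H` by the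
diagonal matrix, and use `ann_ct_diag_ann`, `ann_diag_ann_ct`, `k_j ≤ tot k ≤ (tot k)²`. -/
lemma fis_le {t C0 : ℝ} (ht : 0 < t) (hC : 0 ≤ C0) {ρ : Matrix (Box n K) (Box n K) ℂ}
    (hρ : FDens ρ) (hH : ((rdiag fun k : Box n K => bet t * tot k + C0) - Hm ρ).PosSemidef)
    (j : Fin n) :
    fis t ρ (ann K j) ≤ (4 * t + 4) * (bet t + C0) * (1 + ex (fun k => (tot k : ℝ) ^ 2) ρ) := by
  have hβ := bet_pos ht
  obtain ⟨hp, hc⟩ := mul_Hm_psd hρ.dens
  have hρp := hρ.1.posSemidef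
  set E := ex (fun k => (tot k : ℝ) ^ 2) ρ with hE
  have hE0 : 0 ≤ E := box_ex_nonneg (fun _ => sq_nonneg _) hρp
  have p1 : (ann K j * ρ * (ann K j)ᴴ).PosSemidef := hρp.mul_mul_conjTranspose_same _
  have p2 : ((ann K j)ᴴ * ρ * ann K j).PosSemidef := hρp.conjTranspose_mul_mul_same _
  have n1 : 0 ≤ rtr (ann K j * (ann K j)ᴴ * (Hm ρ * ρ)) :=
    rtr_mul_nonneg (posSemidef_self_mul_conjTranspose _) (hc ▸ hp)
  have n2 : 0 ≤ rtr ((ann K j)ᴴ * ann K j * (ρ * Hm ρ)) :=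
    rtr_mul_nonneg (posSemidef_conjTranspose_mul_self _) hp
  have n3 := rtr_nonneg p2
  have b1 : rtr (ann K j * ρ * (ann K j)ᴴ * Hm ρ) ≤ (bet t + C0) * E := by
    refine (rtr_mul_mono p1 hH).trans ?_
    rw [Matrix.mul_assoc, Matrix.mul_assoc, rtr_mul_comm, Matrix.mul_assoc, Matrix.mul_assoc,
      ← box_ann_diag j (u := fun k => bet t * (tot k - 1) + C0) (fun k k' h => by
        rw [box_tot_succ h]; push_cast; ring), ← Matrix.mul_assoc (ann K j)ᴴ, box_ct_mul, rdiag_mul,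
      ← ex_eq_rtr, hE, ← box_ex_mul]
    refine ex_mono (fun k => ?_) hρp
    have h1 := box_le_tot k j
    have h2 := box_nat_le_sq (tot k)
    have h3 : (0 : ℝ) ≤ (k j : ℕ) := Nat.cast_nonneg _
    have h4 : ((k j : ℕ) : ℝ) * (tot k - 1) ≤ (tot k : ℝ) ^ 2 := by nlinarith
    have h5 := mul_le_mul_of_nonneg_left h4 hβ.le
    have h6 := mul_le_mul_of_nonneg_left (h1.trans h2) hC
    linarith
  have b2 : rtr ((ann K j)ᴴ * ρ * ann K j * Hm ρ) ≤ 2 * (bet t + C0) * (1 + E) := by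
    refine (rtr_mul_mono p2 hH).trans ?_
    rw [Matrix.mul_assoc, Matrix.mul_assoc, rtr_mul_comm, Matrix.mul_assoc,
      box_ann_diag j (v := fun k => bet t * (tot k + 1) + C0) (fun k k' h => by
        rw [box_tot_succ h]; push_cast; ring), Matrix.mul_assoc, box_mul_ct, rdiag_mul,
      ← ex_eq_rtr]
    have e : 2 * (bet t + C0) * (1 + E) =
        ex (fun k => 2 * (bet t + C0) * (1 + (tot k : ℝ) ^ 2)) ρ := by
      rw [box_ex_mul, box_ex_add, ex_const 1 hρ.dens]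
    rw [e]
    refine ex_mono (fun k => ?_) hρp
    have h1 := box_le_tot k j
    have h3 : (0 : ℝ) ≤ (k j : ℕ) := Nat.cast_nonneg _
    have h0 : (0 : ℝ) ≤ tot k := Nat.cast_nonneg _
    split_ifs
    · rw [mul_zero]; positivity
    · have h4 : ((tot k : ℝ) + 1) * (((k j : ℕ) : ℝ) + 1) ≤ 2 * (1 + (tot k : ℝ) ^ 2) := by
        nlinarith [sq_nonneg ((tot k : ℝ) - 1)]
      have h7 : ((k j : ℕ) : ℝ) + 1 ≤ 2 * (1 + (tot k : ℝ) ^ 2) := by
        nlinarith [sq_nonneg ((tot k : ℝ) - 1)]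
      have h5 := mul_le_mul_of_nonneg_left h4 hβ.le
      have h6 := mul_le_mul_of_nonneg_left h7 hC
      linarith
  have b3 : rtr (ρ * ((ann K j)ᴴ * ann K j)) ≤ E := by
    rw [box_ct_mul, ← ex_eq_rtr]
    exact ex_mono (fun k => (box_le_tot k j).trans (box_nat_le_sq _)) hρp
  rw [box_fis_eq]
  have c1 := mul_le_mul_of_nonneg_left b1 (show 0 ≤ t + 1 by linarith)
  have c2 := mul_le_mul_of_nonneg_left b2 ht.le
  have c3 := mul_le_mul_of_nonneg_left b3 (show 0 ≤ bet t * (t + 1) by positivity)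
  have d1 := mul_nonneg ht.le n1
  have d2 := mul_nonneg (show 0 ≤ t + 1 by linarith) n2
  have d3 := mul_nonneg (show 0 ≤ bet t * t by positivity) n3
  have f1 : 0 ≤ t * bet t := by positivity
  have f2 : 0 ≤ t * C0 := by positivity
  have f3 : 0 ≤ t * C0 * E := by positivity
  have f4 : 0 ≤ C0 * E := by positivity
  have f5 : 0 ≤ bet t * E := by positivity
  nlinarith

/-- `(1-γ) ρ + γ ω ≥ γ ω`, `Hm_anti`, `Hm_smul`, `Hm_therm`, `log_Zp` -/
lemma Hm_mix_le {t γ : ℝ} (ht : 0 < t) (h0 : 0 < γ) (h1 : γ < 1)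
    {ρ : Matrix (Box n K) (Box n K) ℂ} (hρ : Dens ρ) :
    ((rdiag fun k : Box n K => bet t * tot k + (n * Real.log (1 + t) - Real.log γ))
      - Hm ((1 - γ) • ρ + γ • therm n K t)).PosSemidef := by
  have hω := fdens_therm ht n K
  have h2 := Hm_anti (A := γ • therm n K t) (B := (1 - γ) • ρ + γ • therm n K t)
    (hω.1.smul h0) (by rw [add_sub_cancel_right]; exact psd_smul hρ.1 (by linarith))
  rw [Hm_smul hω.1 h0, Hm_therm ht, ← rdiag_const, rdiag_sub] at h2
  have h3 : (rdiag fun _ : Box n K => n * Real.log (1 + t) - Real.log (Zp n K t)).PosSemidef :=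
    (rdiag_psd_iff _).2 fun _ => sub_nonneg.2 (log_Zp ht n K).2.2
  have h4 := h3.add h2
  rw [← add_sub_assoc, rdiag_add] at h4
  convert h4 using 3
  funext k
  ring

lemma box_embJ_apply {K' : ℕ} (h : K ≤ K') (k' : Box n K') (k : Box n K) :
    embJ n K K' k' k = if k' = fun j => Fin.castLE (Nat.succ_le_succ h) (k j) then 1 else 0 := by
  unfold embJ
  rw [Matrix.of_apply]
  refine if_congr ⟨fun h => funext fun i => Fin.ext (h i), fun h j => by rw [h]; rfl⟩ rfl rfl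

lemma embJ_iso {K' : ℕ} (h : K ≤ K') : (embJ n K K')ᴴ * embJ n K K' = 1 := by
  ext k l
  rw [Matrix.mul_apply, Finset.sum_eq_single (fun j => Fin.castLE (Nat.succ_le_succ h) (k j))]
  · rw [conjTranspose_apply, box_embJ_apply h, box_embJ_apply h, if_pos rfl, star_one, one_mul,
      one_apply]
    refine if_congr ⟨fun h => funext fun j => Fin.ext ?_, fun h => by rw [h]⟩ rfl rfl
    exact (congrArg Fin.val (congrFun h j) :)
  · intro k' _ hne
    rw [conjTranspose_apply, box_embJ_apply h, if_neg hne, star_zero, zero_mul]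
  · simp

lemma dens_embed {K' : ℕ} (h : K ≤ K') {ρ : Matrix (Box n K) (Box n K) ℂ} (hρ : Dens ρ) :
    Dens (embJ n K K' * ρ * (embJ n K K')ᴴ) := by
  refine ⟨hρ.1.mul_mul_conjTranspose_same _, ?_⟩
  rw [trace_mul_cycle, embJ_iso h, Matrix.one_mul, hρ.2]

lemma ex_embed {K' : ℕ} (h : K ≤ K') (F : Occ n → ℝ) (ρ : Matrix (Box n K) (Box n K) ℂ) :
    ex (fun k => F (toOcc k)) (embJ n K K' * ρ * (embJ n K K')ᴴ) = ex (fun k => F (toOcc k)) ρ := by
  have e : rdiag (fun k : Box n K' => F (toOcc k)) * embJ n K K' =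
      embJ n K K' * rdiag (fun k : Box n K => F (toOcc k)) := by
    ext k' k
    rw [rdiag, rdiag, mul_diagonal, diagonal_mul, box_embJ_apply h]
    split_ifs with hk
    · rw [hk, mul_comm]; rfl
    · simp
  rw [ex_eq_rtr, ex_eq_rtr, Matrix.mul_assoc, Matrix.mul_assoc, rtr_mul_comm, Matrix.mul_assoc,
    Matrix.mul_assoc, e, ← Matrix.mul_assoc (embJ n K K')ᴴ, embJ_iso h, Matrix.one_mul]

end Crest.Agent.R331
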