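import Crest.Agent.R331.Kf

/-! Row 331: partial expectations, boundary estimates, Hoeffding decomposition (task HOEFF). -/

set_option autoImplicit false
set_option linter.unusedSectionVars false

open Matrix Set Filter Topology Crest.Agent.R342 Crest.Agent.R332 Crest.MathPhysics.Bosonic
open scoped ComplexOrder Kronecker Matrix.Norms.Frobenius

namespace Crest.Agent.R331

variable {ι ι' κ : Type} [Fintype ι] [DecidableEq ι] [Fintype ι'] [DecidableEq ι']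
  [Fintype κ] [DecidableEq κ]

lemma trace_pA (X : Matrix ι ι ℂ) (ρB : Matrix ι' ι' ℂ) (Y : Matrix (ι × ι') (ι × ι') ℂ) :
    trace (X * pA ρB Y) = trace ((X ⊗ₖ ρB) * Y) := by
  simp only [trace, diag_apply, mul_apply, pA, of_apply, kroneckerMap_apply, Fintype.sum_prod_type,
    Finset.mul_sum]
  refine Finset.sum_congr rfl fun k _ => ?_
  rw [Finset.sum_comm]
  refine Finset.sum_congr rfl fun l _ => Finset.sum_congr rfl fun k' _ =>
    Finset.sum_congr rfl fun l' _ => by ring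

lemma trace_pB (ρA : Matrix ι ι ℂ) (X : Matrix ι' ι' ℂ) (Y : Matrix (ι × ι') (ι × ι') ℂ) :
    trace (X * pB ρA Y) = trace ((ρA ⊗ₖ X) * Y) := by
  simp only [trace, diag_apply, mul_apply, pB, of_apply, kroneckerMap_apply, Fintype.sum_prod_type,
    Finset.mul_sum]
  conv_rhs => rw [Finset.sum_comm]
  refine Finset.sum_congr rfl fun l _ => ?_
  rw [Finset.sum_comm]
  refine Finset.sum_congr rfl fun k _ => ?_
  rw [Finset.sum_comm]
  refine Finset.sum_congr rfl fun k' _ => Finset.sum_congr rfl fun l' _ => by ring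

/-- `pA` as a linear map -/
noncomputable def pAL (ρB : Matrix ι' ι' ℂ) :
    Matrix (ι × ι') (ι × ι') ℂ →ₗ[ℂ] Matrix ι ι ℂ where
  toFun := pA ρB
  map_add' X Y := by
    ext k k'; simp [pA, mul_add, Finset.sum_add_distrib]
  map_smul' r X := by
    ext k k'; simp [pA, Finset.mul_sum, mul_left_comm]

/-- `pB` as a linear map -/
noncomputable def pBL (ρA : Matrix ι ι ℂ) :
    Matrix (ι × ι') (ι × ι') ℂ →ₗ[ℂ] Matrix ι' ι' ℂ where
  toFun := pB ρA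
  map_add' X Y := by
    ext k k'; simp [pB, mul_add, Finset.sum_add_distrib]
  map_smul' r X := by
    ext k k'; simp [pB, Finset.mul_sum, mul_left_comm]

@[simp] lemma pAL_apply (ρB : Matrix ι' ι' ℂ) (Y : Matrix (ι × ι') (ι × ι') ℂ) :
    pAL ρB Y = pA ρB Y := rfl

@[simp] lemma pBL_apply (ρA : Matrix ι ι ℂ) (Y : Matrix (ι × ι') (ι × ι') ℂ) :
    pBL ρA Y = pB ρA Y := rfl

lemma pA_kron (ρB b : Matrix ι' ι' ℂ) (X : Matrix ι ι ℂ) :
    pA ρB (X ⊗ₖ b) = trace (ρB * b) • X := by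
  refine ext_iff_trace_mul_left.2 fun W => ?_
  rw [trace_pA, ← mul_kronecker_mul, trace_kronecker, Matrix.mul_smul, trace_smul, smul_eq_mul,
    mul_comm]

lemma pB_kron (ρA a : Matrix ι ι ℂ) (X : Matrix ι' ι' ℂ) :
    pB ρA (a ⊗ₖ X) = trace (ρA * a) • X := by
  refine ext_iff_trace_mul_left.2 fun W => ?_
  rw [trace_pB, ← mul_kronecker_mul, trace_kronecker, Matrix.mul_smul, trace_smul, smul_eq_mul]

lemma pA_one {ρB : Matrix ι' ι' ℂ} (h : trace ρB = 1) :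
    pA ρB (1 : Matrix (ι × ι') (ι × ι') ℂ) = 1 := by
  rw [← one_kronecker_one, pA_kron, Matrix.mul_one, h, one_smul]

lemma pB_one {ρA : Matrix ι ι ℂ} (h : trace ρA = 1) :
    pB ρA (1 : Matrix (ι × ι') (ι × ι') ℂ) = 1 := by
  rw [← one_kronecker_one, pB_kron, Matrix.mul_one, h, one_smul]

lemma pA_ct {ρB : Matrix ι' ι' ℂ} (h : ρB.IsHermitian) (Y : Matrix (ι × ι') (ι × ι') ℂ) :
    pA ρB Yᴴ = (pA ρB Y)ᴴ := by
  ext k k'
  simp only [pA, of_apply, conjTranspose_apply, star_sum, star_mul', h.apply]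
  exact Finset.sum_comm

lemma pB_ct {ρA : Matrix ι ι ℂ} (h : ρA.IsHermitian) (Y : Matrix (ι × ι') (ι × ι') ℂ) :
    pB ρA Yᴴ = (pB ρA Y)ᴴ := by
  ext k k'
  simp only [pB, of_apply, conjTranspose_apply, star_sum, star_mul', h.apply]
  exact Finset.sum_comm

lemma pA_left (ρB : Matrix ι' ι' ℂ) (a : Matrix ι ι ℂ) (Y : Matrix (ι × ι') (ι × ι') ℂ) :
    pA ρB ((a ⊗ₖ (1 : Matrix ι' ι' ℂ)) * Y) = a * pA ρB Y := by
  refine ext_iff_trace_mul_left.2 fun W => ?_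
  rw [trace_pA, ← Matrix.mul_assoc, ← mul_kronecker_mul, Matrix.mul_one, ← Matrix.mul_assoc,
    trace_pA]

lemma pA_right (ρB : Matrix ι' ι' ℂ) (a : Matrix ι ι ℂ) (Y : Matrix (ι × ι') (ι × ι') ℂ) :
    pA ρB (Y * (a ⊗ₖ (1 : Matrix ι' ι' ℂ))) = pA ρB Y * a := by
  refine ext_iff_trace_mul_left.2 fun W => ?_
  rw [trace_pA, ← Matrix.mul_assoc, trace_mul_comm, ← Matrix.mul_assoc, ← mul_kronecker_mul,
    Matrix.one_mul, ← trace_pA, ← Matrix.mul_assoc, trace_mul_comm _ a, Matrix.mul_assoc]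

lemma pB_left (ρA : Matrix ι ι ℂ) (b : Matrix ι' ι' ℂ) (Y : Matrix (ι × ι') (ι × ι') ℂ) :
    pB ρA (((1 : Matrix ι ι ℂ) ⊗ₖ b) * Y) = b * pB ρA Y := by
  refine ext_iff_trace_mul_left.2 fun W => ?_
  rw [trace_pB, ← Matrix.mul_assoc, ← mul_kronecker_mul, Matrix.mul_one, ← Matrix.mul_assoc,
    trace_pB]

lemma pB_right (ρA : Matrix ι ι ℂ) (b : Matrix ι' ι' ℂ) (Y : Matrix (ι × ι') (ι × ι') ℂ) :
    pB ρA (Y * ((1 : Matrix ι ι ℂ) ⊗ₖ b)) = pB ρA Y * b := by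
  refine ext_iff_trace_mul_left.2 fun W => ?_
  rw [trace_pB, ← Matrix.mul_assoc, trace_mul_comm, ← Matrix.mul_assoc, ← mul_kronecker_mul,
    Matrix.one_mul, ← trace_pB, ← Matrix.mul_assoc, trace_mul_comm _ b, Matrix.mul_assoc]

lemma dens_kron {ρA : Matrix ι ι ℂ} {ρB : Matrix ι' ι' ℂ} (hA : Dens ρA) (hB : Dens ρB) :
    Dens (ρA ⊗ₖ ρB) := by
  refine ⟨hA.1.kronecker hB.1, ?_⟩
  rw [trace_kronecker, hA.2, hB.2, one_mul]

lemma opLe_kron_left {a : Matrix ι ι ℂ} {R : ℝ} (h : OpLe a R) :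
    OpLe (a ⊗ₖ (1 : Matrix ι' ι' ℂ)) R := by
  rw [opLe_iff_psd h.1]
  have h1 := ((opLe_iff_psd h.1).1 h).kronecker (PosSemidef.one (n := ι') (R := ℂ))
  refine Eq.subst (motive := Matrix.PosSemidef) (Eq.symm ?_) h1
  rw [conjTranspose_kronecker, ← mul_kronecker_mul, conjTranspose_one, Matrix.one_mul,
    ← one_kronecker_one]
  ext ⟨i, j⟩ ⟨k, l⟩
  simp only [Matrix.sub_apply, Matrix.smul_apply, kroneckerMap_apply, Complex.real_smul]
  ring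

lemma opLe_kron_right {b : Matrix ι' ι' ℂ} {R : ℝ} (h : OpLe b R) :
    OpLe ((1 : Matrix ι ι ℂ) ⊗ₖ b) R := by
  rw [opLe_iff_psd h.1]
  have h1 := (PosSemidef.one (n := ι) (R := ℂ)).kronecker ((opLe_iff_psd h.1).1 h)
  refine Eq.subst (motive := Matrix.PosSemidef) (Eq.symm ?_) h1
  rw [conjTranspose_kronecker, ← mul_kronecker_mul, conjTranspose_one, Matrix.one_mul,
    ← one_kronecker_one]
  ext ⟨i, j⟩ ⟨k, l⟩
  simp only [Matrix.sub_apply, Matrix.smul_apply, kroneckerMap_apply, Complex.real_smul]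
  ring

/-- `Θ` is positive: write the psd matrix as `Bᴴ * B` (`psd_factor`) and use `ks` -/
lemma Chan.psd {Θ : Matrix κ κ ℂ →ₗ[ℂ] Matrix (ι × ι') (ι × ι') ℂ} (h : Chan Θ)
    {Z : Matrix κ κ ℂ} (hZ : Z.PosSemidef) : (Θ Z).PosSemidef := by
  obtain ⟨B, rfl⟩ := psd_factor hZ
  simpa using (h.ks B).add (posSemidef_conjTranspose_mul_self (Θ B))

lemma Chan.opLe {Θ : Matrix κ κ ℂ →ₗ[ℂ] Matrix (ι × ι') (ι × ι') ℂ} (h : Chan Θ)
    {Z : Matrix κ κ ℂ} {r : ℝ} (hZ : OpLe Z r) : OpLe (Θ Z) r := by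
  rw [opLe_iff_psd hZ.1]
  have h1 := (h.psd ((opLe_iff_psd hZ.1).1 hZ)).add (h.ks Z)
  rw [map_sub, LinearMap.map_smul_of_tower, h.unital] at h1
  simpa using h1

/-- Cauchy–Schwarz (`rtr_sq_le_of_psd` with `K = F = σ`) -/
lemma bd_left {σ Q X : Matrix ι ι ℂ} (hσ : Dens σ) (hQ : Qᴴ = Q) (hQ2 : Q * Q = Q) {r : ℝ}
    (hX : OpLe X r) : ‖trace (σ * (Q * X))‖ ≤ √(rtr (σ * Q)) * r := by
  have h1 := rtr_sq_le_of_psd (K := σ) (F := σ) (by simpa using PosSemidef.zero) (hσ.1.add hσ.1)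
    Xᴴ Q
  have e1 : trace (Xᴴᴴ * σ * Q) = trace (σ * (Q * X)) := by
    rw [conjTranspose_conjTranspose, Matrix.mul_assoc, trace_mul_comm, Matrix.mul_assoc]
  have e2 : rtr (Qᴴ * σ * Q) = rtr (σ * Q) := by
    rw [hQ, Matrix.mul_assoc, rtr_mul_comm, Matrix.mul_assoc, hQ2]
  have e3 : rtr (Xᴴᴴ * σ * Xᴴ) ≤ r ^ 2 := by
    rw [conjTranspose_conjTranspose, Matrix.mul_assoc, rtr_mul_comm, Matrix.mul_assoc]
    refine (rtr_mul_mono hσ.1 ((opLe_iff_psd hX.1).1 hX)).trans_eq ?_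
    rw [Matrix.mul_smul, Matrix.mul_one, rtr_smul, rtr, hσ.2]
    simp
  have h0 : 0 ≤ rtr (σ * Q) := by
    rw [← e2]; exact rtr_nonneg (hσ.1.conjTranspose_mul_mul_same Q)
  rw [e1, e2] at h1
  apply le_of_sq_le_sq' _ (mul_nonneg (Real.sqrt_nonneg _) hX.1)
  rw [mul_pow, Real.sq_sqrt h0, mul_comm]
  exact h1.trans (mul_le_mul_of_nonneg_right e3 h0)

lemma bd_right {σ Q X : Matrix ι ι ℂ} (hσ : Dens σ) (hQ : Qᴴ = Q) (hQ2 : Q * Q = Q) {r : ℝ}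
    (hX : OpLe X r) : ‖trace (σ * (X * Q))‖ ≤ √(rtr (σ * Q)) * r := by
  have h1 := bd_left hσ hQ hQ2 hX.ct
  have e : trace (σ * (Q * Xᴴ)) = star (trace (σ * (X * Q))) := by
    rw [← trace_conjTranspose, conjTranspose_mul, conjTranspose_mul, hQ, hσ.1.1.eq,
      trace_mul_comm]
  rwa [e, norm_star] at h1

lemma norm_trace_dens_le {σ X : Matrix ι ι ℂ} (hσ : Dens σ) {r : ℝ} (hX : OpLe X r) :
    ‖trace (σ * X)‖ ≤ r := by
  have h1 := bd_left (Q := 1) hσ conjTranspose_one (Matrix.one_mul _) hX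
  rw [Matrix.one_mul, Matrix.mul_one, rtr, hσ.2] at h1
  simpa using h1

lemma hf_trace_ct {ρ : Matrix ι ι ℂ} (h : ρ.IsHermitian) (X : Matrix ι ι ℂ) :
    trace (ρ * Xᴴ) = star (trace (ρ * X)) := by
  rw [← trace_conjTranspose, conjTranspose_mul, h.eq, trace_mul_comm]

lemma hf_cen_ct {ρ : Matrix ι ι ℂ} (h : ρ.IsHermitian) (X : Matrix ι ι ℂ) :
    cen ρ Xᴴ = (cen ρ X)ᴴ := by
  rw [cen, cen, conjTranspose_sub, conjTranspose_smul, conjTranspose_one, hf_trace_ct h]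

/-- With `σ = ρA ⊗ ρB`, `Y = Θ Z`, `z = tr σ Y`: `tr ρC ZᴴZ = tr σ Θ(ZᴴZ) ≥ tr σ YᴴY`, and
`0 ≤ tr σ DᴴD` for `D = Y - z - ξA ⊗ 1 - 1 ⊗ ξB` expands (`trace_pA`, `trace_pB`, centring) to the
claim. -/
theorem hoeffding {Θ : Matrix κ κ ℂ →ₗ[ℂ] Matrix (ι × ι') (ι × ι') ℂ} (h : Chan Θ)
    {ρA : Matrix ι ι ℂ} {ρB : Matrix ι' ι' ℂ} {ρC : Matrix κ κ ℂ} (hA : Dens ρA) (hB : Dens ρB)
    (hC : ∀ Z, trace (ρC * Z) = trace ((ρA ⊗ₖ ρB) * Θ Z)) (Z : Matrix κ κ ℂ) :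
    ‖trace (ρC * Z)‖ ^ 2 + kf (fun _ y => y) ρA (cen ρA (pA ρB (Θ Z)))
      + kf (fun _ y => y) ρB (cen ρB (pB ρA (Θ Z))) ≤ rtr (ρC * (Zᴴ * Z)) := by
  set σ := ρA ⊗ₖ ρB with hσ
  set Y := Θ Z with hY
  set z := trace (σ * Y) with hz
  have dσ : Dens σ := dens_kron hA hB
  have zA : trace (ρA * pA ρB Y) = z := trace_pA _ _ _
  have zB : trace (ρB * pB ρA Y) = z := trace_pB _ _ _
  set ξA := cen ρA (pA ρB Y) with hξA
  set ξB := cen ρB (pB ρA Y) with hξB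
  have eA : pA ρB Y = ξA + z • 1 := by rw [hξA, cen, zA, sub_add_cancel]
  have eB : pB ρA Y = ξB + z • 1 := by rw [hξB, cen, zB, sub_add_cancel]
  have cA : trace (ρA * ξA) = 0 := by
    rw [hξA, cen, Matrix.mul_sub, trace_sub, Matrix.mul_smul, Matrix.mul_one, trace_smul, hA.2]
    simp
  have cB : trace (ρB * ξB) = 0 := by
    rw [hξB, cen, Matrix.mul_sub, trace_sub, Matrix.mul_smul, Matrix.mul_one, trace_smul, hB.2]
    simp
  have cA' : trace (ρA * ξAᴴ) = 0 := by rw [hf_trace_ct hA.1.1, cA, star_zero]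
  have cB' : trace (ρB * ξBᴴ) = 0 := by rw [hf_trace_ct hB.1.1, cB, star_zero]
  set E : Matrix (ι × ι') (ι × ι') ℂ :=
    z • 1 + ξA ⊗ₖ (1 : Matrix ι' ι' ℂ) + (1 : Matrix ι ι ℂ) ⊗ₖ ξB with hE
  have key : ∀ W, trace (σ * (Eᴴ * W)) = star z * trace (ρA * pA ρB W) +
      trace (ρA * ξAᴴ * pA ρB W) + trace (ρB * ξBᴴ * pB ρA W) := fun W => by
    rw [trace_pA, trace_pA, trace_pB, hE, conjTranspose_add, conjTranspose_add, conjTranspose_smul,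
      conjTranspose_one, conjTranspose_kronecker, conjTranspose_kronecker, conjTranspose_one,
      conjTranspose_one, ← Matrix.mul_assoc, Matrix.mul_add, Matrix.mul_add, hσ,
      ← mul_kronecker_mul, ← mul_kronecker_mul, Matrix.mul_smul, Matrix.mul_one, Matrix.mul_one,
      Matrix.mul_one, Matrix.add_mul, Matrix.add_mul, trace_add, trace_add, Matrix.smul_mul,
      trace_smul, smul_eq_mul]
  have EA : pA ρB E = pA ρB Y := by
    rw [eA, hE, ← pAL_apply, map_add, map_add, map_smul, pAL_apply, pAL_apply, pAL_apply,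
      pA_one hB.2, pA_kron, pA_kron, cB, Matrix.mul_one, hB.2, one_smul, zero_smul, add_zero,
      add_comm]
  have EB : pB ρA E = pB ρA Y := by
    rw [eB, hE, ← pBL_apply, map_add, map_add, map_smul, pBL_apply, pBL_apply, pBL_apply,
      pB_one hA.2, pB_kron, pB_kron, cA, Matrix.mul_one, hA.2, one_smul, zero_smul, add_zero,
      add_comm]
  have k1 : trace (σ * (Eᴴ * E)) = trace (σ * (Eᴴ * Y)) := by rw [key, key, EA, EB]
  have k2 : trace (σ * (Eᴴ * Y)) = star z * z + trace (ρA * (ξAᴴ * ξA)) +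
      trace (ρB * (ξBᴴ * ξB)) := by
    rw [key, zA, eA, eB, Matrix.mul_add, Matrix.mul_add, trace_add, trace_add, Matrix.mul_smul,
      Matrix.mul_smul, Matrix.mul_one, Matrix.mul_one, trace_smul, trace_smul, cA', cB',
      smul_zero, add_zero, add_zero, Matrix.mul_assoc, Matrix.mul_assoc]
  have k3 : rtr (σ * (Eᴴ * Y)) = ‖z‖ ^ 2 + rtr (ρA * (ξAᴴ * ξA)) + rtr (ρB * (ξBᴴ * ξB)) := by
    rw [rtr, k2, Complex.add_re, Complex.add_re, Complex.star_def, Complex.conj_mul',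
      ← Complex.ofReal_pow, Complex.ofReal_re]
    rfl
  have k4 : rtr (σ * (Yᴴ * E)) = rtr (σ * (Eᴴ * Y)) := by
    rw [← rtr_ct, conjTranspose_mul, conjTranspose_mul, conjTranspose_conjTranspose, dσ.1.1.eq,
      rtr_mul_comm]
  have k5 : rtr (σ * (Eᴴ * E)) = rtr (σ * (Eᴴ * Y)) := by rw [rtr, k1]; rfl
  have k6 := rtr_mul_nonneg dσ.1 (posSemidef_conjTranspose_mul_self (Y - E))
  rw [conjTranspose_sub, Matrix.sub_mul, Matrix.mul_sub, Matrix.mul_sub, Matrix.mul_sub,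
    Matrix.mul_sub, Matrix.mul_sub, rtr_sub, rtr_sub, rtr_sub, k4, k5] at k6
  have k7 := rtr_mul_mono dσ.1 (h.ks Z)
  have k8 : rtr (ρC * (Zᴴ * Z)) = rtr (σ * Θ (Zᴴ * Z)) := by rw [rtr, hC]; rfl
  rw [kf_snd hA.1.1, kf_snd hB.1.1, hC, k8]
  linarith

/-- apply `hoeffding` to `Zᴴ` -/
theorem hoeffding' {Θ : Matrix κ κ ℂ →ₗ[ℂ] Matrix (ι × ι') (ι × ι') ℂ} (h : Chan Θ)
    {ρA : Matrix ι ι ℂ} {ρB : Matrix ι' ι' ℂ} {ρC : Matrix κ κ ℂ} (hA : Dens ρA) (hB : Dens ρB)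
    (hC : ∀ Z, trace (ρC * Z) = trace ((ρA ⊗ₖ ρB) * Θ Z)) (Z : Matrix κ κ ℂ) :
    ‖trace (ρC * Z)‖ ^ 2 + kf (fun x _ => x) ρA (cen ρA (pA ρB (Θ Z)))
      + kf (fun x _ => x) ρB (cen ρB (pB ρA (Θ Z))) ≤ rtr (ρC * (Z * Zᴴ)) := by
  have h1 := hoeffding h hA hB hC Zᴴ
  rw [hC, h.star, hf_trace_ct (dens_kron hA hB).1.1, norm_star, ← hC, pA_ct hB.1.1, pB_ct hA.1.1,
    hf_cen_ct hA.1.1, hf_cen_ct hB.1.1, kf_snd hA.1.1, kf_snd hB.1.1,
    conjTranspose_conjTranspose, conjTranspose_conjTranspose, conjTranspose_conjTranspose] at h1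
  rwa [kf_fst hA.1.1, kf_fst hB.1.1]

end Crest.Agent.R331
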