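import Crest.Agent.R331.Amp
import Crest.Agent.R331.Box
import Crest.Agent.R331.Hoeff

/-! Row 331: the `n`-mode beam splitter on boxes (task BS). -/

set_option autoImplicit false
set_option linter.unusedSectionVars false

open Matrix Set Filter Topology Crest.Agent.R342 Crest.Agent.R332 Crest.MathPhysics.Bosonic
open scoped ComplexOrder Kronecker Matrix.Norms.Frobenius

namespace Crest.Agent.R331

variable {n K : ℕ}

/-- product over the modes of `amp_orth` (`Finset.prod_univ_sum` / `Fintype.prod_sum`) -/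
lemma Vbs_iso {η : ℝ} (h0 : 0 ≤ η) (h1 : η ≤ 1) : (Vbs n K η)ᴴ * Vbs n K η = 1 := by
  ext ⟨k, l⟩ ⟨k', l'⟩
  simp only [mul_apply, conjTranspose_apply, Vbs, of_apply, Fintype.sum_prod_type, bsAmpN]
  have e : ∀ p q : Box n (2 * K),
      star ((∏ j, bsAmp η (k j) (l j) (p j) (q j) : ℝ) : ℂ) *
        ((∏ j, bsAmp η (k' j) (l' j) (p j) (q j) : ℝ) : ℂ) =
      ((∏ j, (bsAmp η (k j) (l j) (p j) (q j) * bsAmp η (k' j) (l' j) (p j) (q j)) : ℝ) : ℂ) := by
    intro p q
    rw [Finset.prod_mul_distrib, Complex.ofReal_mul, Complex.star_def, Complex.conj_ofReal]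
  simp only [e]
  have e2 : ∑ p : Box n (2 * K), ∑ q : Box n (2 * K),
      ∏ j, (bsAmp η (k j) (l j) (p j) (q j) * bsAmp η (k' j) (l' j) (p j) (q j)) =
      ∏ j, ∑ p : Fin (2 * K + 1), ∑ q : Fin (2 * K + 1),
        bsAmp η (k j) (l j) p q * bsAmp η (k' j) (l' j) p q := by
    rw [Fintype.prod_sum]
    refine Finset.sum_congr rfl fun p _ => ?_
    rw [Fintype.prod_sum]
  have e3 : ∀ j, ∑ p : Fin (2 * K + 1), ∑ q : Fin (2 * K + 1),
        bsAmp η (k j) (l j) p q * bsAmp η (k' j) (l' j) p q =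
      if (k j : ℕ) = k' j ∧ (l j : ℕ) = l' j then 1 else 0 := by
    intro j
    refine amp_orth h0 h1 ?_
    have := (k j).2
    have := (l j).2
    omega
  simp only [← Complex.ofReal_sum]
  rw [e2]
  simp only [e3]
  rw [Finset.prod_boole, one_apply]
  have e4 : (∀ j ∈ Finset.univ, (k j : ℕ) = k' j ∧ (l j : ℕ) = l' j) ↔ (k, l) = (k', l') := by
    constructor
    · intro h
      refine Prod.ext (funext fun j => Fin.ext (h j (Finset.mem_univ j)).1)
        (funext fun j => Fin.ext (h j (Finset.mem_univ j)).2)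
    · intro h j _
      rw [Prod.mk.injEq] at h
      rw [h.1, h.2]
      exact ⟨rfl, rfl⟩
  by_cases h : (k, l) = (k', l')
  · rw [if_pos (e4.2 h), if_pos h, Complex.ofReal_one]
  · rw [if_neg (fun h' => h (e4.1 h')), if_neg h, Complex.ofReal_zero]

lemma bs_Th_apply (η : ℝ) (Z : Matrix (Box n (2 * K)) (Box n (2 * K)) ℂ) :
    Th n K η Z =
      (Vbs n K η)ᴴ * (Z ⊗ₖ (1 : Matrix (Box n (2 * K)) (Box n (2 * K)) ℂ)) * Vbs n K η := rfl

/-- `Θ(ZᴴZ) - Θ(Z)ᴴΘ(Z) = Xᴴ (1 - V Vᴴ) X` with `X = (Z ⊗ 1) V`, and `1 - V Vᴴ` is a projection -/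
lemma chan_Th {η : ℝ} (h0 : 0 ≤ η) (h1 : η ≤ 1) : Chan (Th n K η) := by
  have hV := Vbs_iso (n := n) (K := K) h0 h1
  refine ⟨?_, fun Z => ?_, fun Z => ?_⟩
  · rw [bs_Th_apply, one_kronecker_one, Matrix.mul_one, hV]
  · rw [bs_Th_apply, bs_Th_apply, conjTranspose_mul, conjTranspose_mul,
      conjTranspose_conjTranspose, conjTranspose_kronecker, conjTranspose_one, Matrix.mul_assoc]
  · set V := Vbs n K η with hVdef
    set X := (Z ⊗ₖ (1 : Matrix (Box n (2 * K)) (Box n (2 * K)) ℂ)) * V with hX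
    have e1 : Th n K η (Zᴴ * Z) = Xᴴ * X := by
      rw [bs_Th_apply, hX, conjTranspose_mul, conjTranspose_kronecker, conjTranspose_one,
        Matrix.mul_assoc, Matrix.mul_assoc, ← Matrix.mul_assoc (Zᴴ ⊗ₖ _), ← mul_kronecker_mul,
        Matrix.mul_one]
    have e2 : Th n K η Z = Vᴴ * X := by
      rw [bs_Th_apply, hX, Matrix.mul_assoc]
    have e3 : Th n K η (Zᴴ * Z) - (Th n K η Z)ᴴ * Th n K η Z =
        (X - V * (Vᴴ * X))ᴴ * (X - V * (Vᴴ * X)) := by
      rw [e1, e2]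
      simp only [conjTranspose_sub, conjTranspose_mul, conjTranspose_conjTranspose,
        Matrix.sub_mul, Matrix.mul_sub, Matrix.mul_assoc]
      rw [← Matrix.mul_assoc Vᴴ V, hV, Matrix.one_mul]
      abel
    rw [e3]
    exact posSemidef_conjTranspose_mul_self _

lemma bs_out_eq (η : ℝ) (ρA ρB : Matrix (Box n K) (Box n K) ℂ) :
    bsOutput η ρA ρB = pA (1 : Matrix (Box n (2 * K)) (Box n (2 * K)) ℂ)
      (Vbs n K η * (ρA ⊗ₖ ρB) * (Vbs n K η)ᴴ) := by
  ext p p'
  simp only [bsOutput, pA, of_apply, one_apply, ite_mul, one_mul, zero_mul, Finset.sum_ite_eq,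
    Finset.mem_univ, if_true]
  refine Finset.sum_congr rfl fun q _ => ?_
  rw [Matrix.mul_assoc]
  simp only [mul_apply, conjTranspose_apply, Vbs, of_apply, Fintype.sum_prod_type,
    kroneckerMap_apply, Finset.mul_sum, Complex.star_def, Complex.conj_ofReal]
  refine Finset.sum_congr rfl fun k _ => Finset.sum_congr rfl fun l _ =>
    Finset.sum_congr rfl fun k' _ => Finset.sum_congr rfl fun l' _ => ?_
  ring

lemma trace_out (η : ℝ) (ρA ρB : Matrix (Box n K) (Box n K) ℂ)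
    (Z : Matrix (Box n (2 * K)) (Box n (2 * K)) ℂ) :
    trace (bsOutput η ρA ρB * Z) = trace ((ρA ⊗ₖ ρB) * Th n K η Z) := by
  rw [trace_mul_comm, bs_out_eq, trace_pA, bs_Th_apply, ← Matrix.mul_assoc, trace_mul_comm,
    ← Matrix.mul_assoc, ← Matrix.mul_assoc, trace_mul_comm, Matrix.mul_assoc]

lemma dens_out {η : ℝ} (h0 : 0 ≤ η) (h1 : η ≤ 1) {ρA ρB : Matrix (Box n K) (Box n K) ℂ}
    (hA : Dens ρA) (hB : Dens ρB) : Dens (bsOutput η ρA ρB) := by
  constructor
  · have hW : (Vbs n K η * (ρA ⊗ₖ ρB) * (Vbs n K η)ᴴ).PosSemidef :=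
      (dens_kron hA hB).1.mul_mul_conjTranspose_same _
    have e : bsOutput η ρA ρB = ∑ q : Box n (2 * K),
        (Vbs n K η * (ρA ⊗ₖ ρB) * (Vbs n K η)ᴴ).submatrix (fun p => (p, q)) (fun p => (p, q)) := by
      rw [bs_out_eq]
      ext p p'
      simp only [pA, of_apply, one_apply, ite_mul, one_mul, zero_mul, Finset.sum_ite_eq,
        Finset.mem_univ, if_true, Matrix.sum_apply, submatrix_apply]
    rw [e]
    exact posSemidef_sum _ fun q _ => hW.submatrix _
  · have h := trace_out η ρA ρB 1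
    rw [(chan_Th h0 h1).unital, Matrix.mul_one, Matrix.mul_one] at h
    rw [h]
    exact (dens_kron hA hB).2

/-- the output as a linear function of the first input -/
noncomputable def outL (η : ℝ) (ρB : Matrix (Box n K) (Box n K) ℂ) :
    Matrix (Box n K) (Box n K) ℂ →ₗ[ℂ] Matrix (Box n (2 * K)) (Box n (2 * K)) ℂ where
  toFun τ := bsOutput η τ ρB
  map_add' X Y := by
    ext p p'; simp [bsOutput, mul_add, add_mul, Finset.sum_add_distrib]
  map_smul' r X := by
    ext p p'; simp [bsOutput, Finset.mul_sum, mul_left_comm, mul_assoc]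

/-- the output as a linear function of the second input -/
noncomputable def outR (η : ℝ) (ρA : Matrix (Box n K) (Box n K) ℂ) :
    Matrix (Box n K) (Box n K) ℂ →ₗ[ℂ] Matrix (Box n (2 * K)) (Box n (2 * K)) ℂ where
  toFun τ := bsOutput η ρA τ
  map_add' X Y := by
    ext p p'; simp [bsOutput, mul_add, add_mul, Finset.sum_add_distrib]
  map_smul' r X := by
    ext p p'; simp [bsOutput, Finset.mul_sum, mul_left_comm, mul_assoc]

lemma continuous_out :
    Continuous fun x : ℝ × Matrix (Box n K) (Box n K) ℂ × Matrix (Box n K) (Box n K) ℂ =>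
      bsOutput x.1 x.2.1 x.2.2 := by
  refine continuous_matrix fun p p' => ?_
  simp only [bsOutput, of_apply, bsAmpN]
  have hb : ∀ (k l : Box n K) (p q : Box n (2 * K)),
      Continuous fun x : ℝ × Matrix (Box n K) (Box n K) ℂ × Matrix (Box n K) (Box n K) ℂ =>
        ((∏ j, bsAmp x.1 (k j) (l j) (p j) (q j) : ℝ) : ℂ) := by
    intro k l p q
    refine Complex.continuous_ofReal.comp (continuous_finsetProd _ fun j _ => ?_)
    exact (continuous_bsAmp _ _ _ _).comp continuous_fst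
  refine continuous_finsetSum _ fun q _ => continuous_finsetSum _ fun k _ =>
    continuous_finsetSum _ fun l _ => continuous_finsetSum _ fun k' _ =>
    continuous_finsetSum _ fun l' _ => ?_
  refine (((hb k l p q).mul ?_).mul ?_).mul (hb k' l' p' q)
  · exact (continuous_fst.comp continuous_snd).matrix_elem k k'
  · exact (continuous_snd.comp continuous_snd).matrix_elem l l'

lemma bs_Vbs_eq_zero (η : ℝ) {k l : Box n K} {p q : Box n (2 * K)}
    (h : toOcc p + toOcc q ≠ toOcc k + toOcc l) : Vbs n K η (p, q) (k, l) = 0 := by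
  obtain ⟨j, hj⟩ := Function.ne_iff.1 h
  simp only [Vbs, of_apply, bsAmpN]
  rw [Finset.prod_eq_zero (Finset.mem_univ j) (bsAmp_eq_zero η hj), Complex.ofReal_zero]

lemma bs_rdiag_Vbs (η : ℝ) (G : Occ n → ℝ) :
    rdiag (fun pq : Box n (2 * K) × Box n (2 * K) => G (toOcc pq.1 + toOcc pq.2)) * Vbs n K η =
      Vbs n K η * rdiag (fun kl : Box n K × Box n K => G (toOcc kl.1 + toOcc kl.2)) := by
  ext ⟨p, q⟩ ⟨k, l⟩
  simp only [rdiag, diagonal_mul, mul_diagonal]
  by_cases h : toOcc p + toOcc q = toOcc k + toOcc l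
  · rw [h, mul_comm]
  · rw [bs_Vbs_eq_zero η h, mul_zero, zero_mul]

lemma bs_diag_nonneg {ι : Type} [Fintype ι] [DecidableEq ι] {ρ : Matrix ι ι ℂ} (h : Dens ρ)
    (k : ι) : 0 ≤ (ρ k k).re := (Complex.nonneg_iff.1 (h.1.diag_nonneg (i := k))).1

lemma bs_diag_im {ι : Type} [Fintype ι] [DecidableEq ι] {ρ : Matrix ι ι ℂ} (h : Dens ρ)
    (k : ι) : (ρ k k).im = 0 := (Complex.nonneg_iff.1 (h.1.diag_nonneg (i := k))).2.symm

lemma bs_diag_sum {ι : Type} [Fintype ι] [DecidableEq ι] {ρ : Matrix ι ι ℂ} (h : Dens ρ) :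
    ∑ k, (ρ k k).re = 1 := by
  rw [← rtr_eq_sum, rtr, h.2, Complex.one_re]

lemma bs_sum_split {ρA ρB : Matrix (Box n K) (Box n K) ℂ} (hA : Dens ρA) (hB : Dens ρB)
    (F G : Box n K → ℝ) :
    ∑ k, ∑ l, (F k + G l) * ((ρA k k).re * (ρB l l).re) = ex F ρA + ex G ρB := by
  have e1 : ∑ k, ∑ l, F k * ((ρA k k).re * (ρB l l).re) = ex F ρA := by
    unfold ex
    refine Finset.sum_congr rfl fun k _ => ?_
    rw [← Finset.mul_sum, ← Finset.mul_sum, bs_diag_sum hB, mul_one]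
  have e2 : ∑ k, ∑ l, G l * ((ρA k k).re * (ρB l l).re) = ex G ρB := by
    unfold ex
    rw [Finset.sum_comm]
    refine Finset.sum_congr rfl fun l _ => ?_
    rw [← Finset.mul_sum, ← Finset.sum_mul, bs_diag_sum hA, one_mul]
  rw [← e1, ← e2, ← Finset.sum_add_distrib]
  refine Finset.sum_congr rfl fun k _ => ?_
  rw [← Finset.sum_add_distrib]
  refine Finset.sum_congr rfl fun l _ => ?_
  ring

/-- photon-number conservation: `rdiag (G (p+q)) * V = V * rdiag (G (k+l))` (`bsAmp_eq_zero`), so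
`Θ (rdiag F) ≤ rdiag (G (k + l))`. -/
lemma ex_out_le {η : ℝ} (h0 : 0 ≤ η) (h1 : η ≤ 1) {ρA ρB : Matrix (Box n K) (Box n K) ℂ}
    (hA : Dens ρA) (hB : Dens ρB) {F : Box n (2 * K) → ℝ} {G : Occ n → ℝ}
    (h : ∀ p q : Box n (2 * K), F p ≤ G (toOcc p + toOcc q)) :
    ex F (bsOutput η ρA ρB) ≤
      ∑ k, ∑ l, G (toOcc k + toOcc l) * ((ρA k k).re * (ρB l l).re) := by
  have hV := Vbs_iso (n := n) (K := K) h0 h1
  have e1 : ex F (bsOutput η ρA ρB) = rtr ((ρA ⊗ₖ ρB) * Th n K η (rdiag F)) := by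
    rw [rtr, ← trace_out, trace_mul_comm, ← rtr, rtr_rdiag_mul]
    rfl
  have e2 : (rdiag F ⊗ₖ (1 : Matrix (Box n (2 * K)) (Box n (2 * K)) ℂ)) =
      rdiag fun pq : Box n (2 * K) × Box n (2 * K) => F pq.1 := by
    rw [rdiag, ← diagonal_one, diagonal_kronecker_diagonal]
    simp [rdiag]
  have h2 : (rdiag (fun kl : Box n K × Box n K => G (toOcc kl.1 + toOcc kl.2)) -
      Th n K η (rdiag F)).PosSemidef := by
    have h3 : (rdiag (fun pq : Box n (2 * K) × Box n (2 * K) => G (toOcc pq.1 + toOcc pq.2)) -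
        rdiag fun pq : Box n (2 * K) × Box n (2 * K) => F pq.1).PosSemidef := by
      rw [rdiag_sub, rdiag_psd_iff]
      intro pq
      exact sub_nonneg.2 (h pq.1 pq.2)
    have h4 := h3.conjTranspose_mul_mul_same (Vbs n K η)
    rw [Matrix.mul_sub, Matrix.sub_mul, Matrix.mul_assoc, bs_rdiag_Vbs, ← Matrix.mul_assoc, hV,
      Matrix.one_mul, ← e2] at h4
    exact h4
  rw [e1]
  refine (rtr_mul_mono (dens_kron hA hB).1 h2).trans_eq ?_
  rw [rtr_mul_comm, rtr_rdiag_mul, Fintype.sum_prod_type]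
  refine Finset.sum_congr rfl fun k _ => Finset.sum_congr rfl fun l _ => ?_
  rw [kroneckerMap_apply, Complex.mul_re, bs_diag_im hA, zero_mul, sub_zero]

lemma en_out_le {η : ℝ} (h0 : 0 ≤ η) (h1 : η ≤ 1) {ρA ρB : Matrix (Box n K) (Box n K) ℂ}
    (hA : Dens ρA) (hB : Dens ρB) : en (bsOutput η ρA ρB) ≤ en ρA + en ρB := by
  have h := ex_out_le h0 h1 hA hB (F := fun p => (tot p : ℝ))
    (G := fun m => ((∑ j, m j : ℕ) : ℝ)) (fun p q => by
      refine Nat.cast_le.2 (Finset.sum_le_sum fun j _ => ?_)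
      simp [toOcc])
  refine h.trans_eq ?_
  rw [en, en, ← bs_sum_split hA hB]
  refine Finset.sum_congr rfl fun k _ => Finset.sum_congr rfl fun l _ => ?_
  congr 1
  simp [toOcc, tot, Finset.sum_add_distrib]

lemma sq_out_le {η : ℝ} (h0 : 0 ≤ η) (h1 : η ≤ 1) {ρA ρB : Matrix (Box n K) (Box n K) ℂ}
    (hA : Dens ρA) (hB : Dens ρB) (j : Fin n) :
    ex (fun p => ((p j : ℕ) : ℝ) ^ 2) (bsOutput η ρA ρB) ≤
      2 * (ex (fun k => ((k j : ℕ) : ℝ) ^ 2) ρA + ex (fun k => ((k j : ℕ) : ℝ) ^ 2) ρB) := by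
  have h := ex_out_le h0 h1 hA hB (F := fun p => ((p j : ℕ) : ℝ) ^ 2)
    (G := fun m => ((m j : ℕ) : ℝ) ^ 2) (fun p q => by
      refine pow_le_pow_left₀ (Nat.cast_nonneg _) (Nat.cast_le.2 ?_) 2
      simp [toOcc])
  refine h.trans ?_
  rw [← bs_sum_split hA hB, Finset.mul_sum]
  refine Finset.sum_le_sum fun k _ => ?_
  rw [Finset.mul_sum]
  refine Finset.sum_le_sum fun l _ => ?_
  rw [← mul_assoc 2]
  refine mul_le_mul_of_nonneg_right ?_ (mul_nonneg (bs_diag_nonneg hA k) (bs_diag_nonneg hB l))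
  simp only [toOcc, Pi.add_apply, Nat.cast_add]
  nlinarith [sq_nonneg (((k j : ℕ) : ℝ) - ((l j : ℕ) : ℝ))]

/-- the inclusion of a smaller box -/
def bsUp {K' : ℕ} (h : K ≤ K') (k : Box n K) : Box n K' :=
  fun j => Fin.castLE (Nat.succ_le_succ h) (k j)

lemma bs_embJ_apply {K' : ℕ} (h : K ≤ K') (k' : Box n K') (k : Box n K) :
    embJ n K K' k' k = if k' = bsUp h k then 1 else 0 := by
  simp only [embJ, of_apply]
  congr 1
  refine propext ⟨fun hj => funext fun j => Fin.ext (hj j), fun hj j => ?_⟩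
  rw [hj]; rfl

lemma bsUp_inj {K' : ℕ} (h : K ≤ K') {k l : Box n K} (e : bsUp h k = bsUp h l) : k = l :=
  funext fun j => Fin.castLE_injective _ (congrFun e j)

lemma bs_embJ_iso {K' : ℕ} (h : K ≤ K') : (embJ n K K')ᴴ * embJ n K K' = 1 := by
  ext k l
  simp only [mul_apply, conjTranspose_apply, bs_embJ_apply h, mul_ite, mul_one, mul_zero,
    Finset.sum_ite_eq', Finset.mem_univ, if_true, one_apply]
  by_cases e : k = l
  · simp [e]
  · rw [if_neg (fun e' => e (bsUp_inj h e').symm), if_neg e, star_zero]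

lemma bs_Vbs_embed (η : ℝ) {K' : ℕ} (h : K ≤ K') :
    Vbs n K' η * (embJ n K K' ⊗ₖ embJ n K K') =
      (embJ n (2 * K) (2 * K') ⊗ₖ embJ n (2 * K) (2 * K')) * Vbs n K η := by
  have h2 : 2 * K ≤ 2 * K' := by omega
  ext ⟨p', q'⟩ ⟨k, l⟩
  have e1 : (Vbs n K' η * (embJ n K K' ⊗ₖ embJ n K K')) (p', q') (k, l) =
      Vbs n K' η (p', q') (bsUp h k, bsUp h l) := by
    simp only [mul_apply, kroneckerMap_apply, Fintype.sum_prod_type, bs_embJ_apply h, mul_ite,
      mul_one, mul_zero, Finset.sum_ite_eq', Finset.mem_univ, if_true]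
  rw [e1, mul_apply]
  by_cases hs : toOcc p' + toOcc q' = toOcc k + toOcc l
  · have hj : ∀ j, (p' j : ℕ) + q' j < 2 * K + 1 := by
      intro j
      have h3 := congrFun hs j
      simp only [toOcc, Pi.add_apply] at h3
      have := (k j).2
      have := (l j).2
      omega
    let p : Box n (2 * K) := fun j => ⟨p' j, by have := hj j; omega⟩
    let q : Box n (2 * K) := fun j => ⟨q' j, by have := hj j; omega⟩
    have hp : p' = bsUp h2 p := funext fun j => Fin.ext rfl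
    have hq : q' = bsUp h2 q := funext fun j => Fin.ext rfl
    rw [Finset.sum_eq_single (p, q)]
    · rw [kroneckerMap_apply, bs_embJ_apply h2, bs_embJ_apply h2, if_pos hp, if_pos hq, one_mul,
        one_mul]
      rfl
    · rintro ⟨a, b⟩ _ hab
      rw [kroneckerMap_apply, bs_embJ_apply h2, bs_embJ_apply h2]
      by_cases ha : p' = bsUp h2 a
      · have hb : q' ≠ bsUp h2 b := by
          intro hb
          exact hab (Prod.ext (bsUp_inj h2 (ha.symm.trans hp)) (bsUp_inj h2 (hb.symm.trans hq)))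
        simp only [if_neg hb, mul_zero, zero_mul]
      · simp only [if_neg ha, zero_mul]
    · intro h3; exact absurd (Finset.mem_univ _) h3
  · rw [bs_Vbs_eq_zero η (k := bsUp h k) (l := bsUp h l) hs]
    refine (Finset.sum_eq_zero ?_).symm
    rintro ⟨a, b⟩ _
    rw [kroneckerMap_apply, bs_embJ_apply h2, bs_embJ_apply h2]
    by_cases ha : p' = bsUp h2 a
    · by_cases hb : q' = bsUp h2 b
      · rw [bs_Vbs_eq_zero η (p := a) (q := b), mul_zero]
        rw [ha, hb] at hs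
        exact hs
      · simp only [if_neg hb, mul_zero, zero_mul]
    · simp only [if_neg ha, zero_mul]

/-- only inputs in the small box contribute, and then amplitudes vanish unless the outputs are in the
box `2K` (`bsAmp_eq_zero`) -/
lemma out_embed (η : ℝ) {K' : ℕ} (h : K ≤ K') (ρA ρB : Matrix (Box n K) (Box n K) ℂ) :
    bsOutput η (embJ n K K' * ρA * (embJ n K K')ᴴ) (embJ n K K' * ρB * (embJ n K K')ᴴ) =
      embJ n (2 * K) (2 * K') * bsOutput η ρA ρB * (embJ n (2 * K) (2 * K'))ᴴ := by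
  have h2 : 2 * K ≤ 2 * K' := by omega
  set J := embJ n K K' with hJ
  set L := embJ n (2 * K) (2 * K') with hL
  have e1 : Vbs n K' η * ((J * ρA * Jᴴ) ⊗ₖ (J * ρB * Jᴴ)) * (Vbs n K' η)ᴴ =
      (L ⊗ₖ L) * (Vbs n K η * (ρA ⊗ₖ ρB) * (Vbs n K η)ᴴ) * (L ⊗ₖ L)ᴴ := by
    have e2 : Vbs n K' η * (J ⊗ₖ J) = (L ⊗ₖ L) * Vbs n K η := bs_Vbs_embed η h
    have e3 : (J ⊗ₖ J)ᴴ * (Vbs n K' η)ᴴ = (Vbs n K η)ᴴ * (L ⊗ₖ L)ᴴ := by
      rw [← conjTranspose_mul, e2, conjTranspose_mul]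
    rw [mul_kronecker_mul, mul_kronecker_mul, ← conjTranspose_kronecker, ← Matrix.mul_assoc,
      ← Matrix.mul_assoc, e2, Matrix.mul_assoc, e3]
    simp only [Matrix.mul_assoc]
  rw [bs_out_eq, bs_out_eq, e1]
  refine ext_iff_trace_mul_left.2 fun X => ?_
  have e4 : (L ⊗ₖ L)ᴴ * (X ⊗ₖ (1 : Matrix (Box n (2 * K')) (Box n (2 * K')) ℂ)) * (L ⊗ₖ L) =
      (Lᴴ * X * L) ⊗ₖ (1 : Matrix (Box n (2 * K)) (Box n (2 * K)) ℂ) := by
    rw [conjTranspose_kronecker, ← mul_kronecker_mul, ← mul_kronecker_mul, Matrix.mul_one,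
      bs_embJ_iso h2]
  rw [trace_pA, ← Matrix.mul_assoc, trace_mul_comm, ← Matrix.mul_assoc, ← Matrix.mul_assoc,
    e4, ← trace_pA, ← Matrix.mul_assoc X, trace_mul_comm _ Lᴴ]
  simp only [Matrix.mul_assoc]

end Crest.Agent.R331
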