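import Crest.Agent.R331.BS

/-!
Row 331: the mode relations of the beam splitter (task BSMODE).
Let `V = Vbs n K η`, `c = ann (2K) j ⊗ 1`, `d = 1 ⊗ ann (2K) j`, `a = ann K j ⊗ 1`, `b = 1 ⊗ ann K j`,
`â = √η c - √(1-η) d`, `b̂ = √(1-η) c + √η d`.  Entrywise (only mode `j` changes; a sum against `ann`
has at most one nonzero term, `Function.update`):
(1) `c V = V (√η a + √(1-η) b)` (`amp_L1`; at the top level `p_j = 2K` both sides vanish by
`bsAmp_eq_zero`), (2) `d V = V (-√(1-η) a + √η b)` (`amp_L2`), hence `â V = V a`, `b̂ V = V b`;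
(3) `âᴴ V (1 - Qa) = V aᴴ` (`amp_U1`; `aᴴ Qa = 0`), (4) `b̂ᴴ V (1 - Qb) = V bᴴ` (`amp_U2`).
Then `h1` is (1); `a Vᴴ = (1 - Qa) Vᴴ â`, so `(1 - Qa)[a, ΘZ] = (1 - Qa) Vᴴ [â, Z ⊗ 1] V
= √η (1 - Qa) Θ[c,Z]` because `d` commutes with `Z ⊗ 1`.
-/

set_option autoImplicit false
set_option linter.unusedSectionVars false

open Matrix Set Filter Topology Crest.Agent.R342 Crest.Agent.R332 Crest.MathPhysics.Bosonic
open scoped ComplexOrder Kronecker Matrix.Norms.Frobenius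

namespace Crest.Agent.R331

variable {n K : ℕ}

lemma bsm_star_ann (j : Fin n) (k k' : Box n K) : star (ann K j k k') = ann K j k k' := by
  simp only [ann, of_apply]
  split_ifs <;> simp

lemma bsm_sum_up (j : Fin n) (k : Box n K) (F : Occ n → ℂ) :
    ∑ k' : Box n K, ann K j k k' * F (toOcc k') =
      if (k j : ℕ) = K then 0 else
        ((√(((k j : ℕ) : ℝ) + 1) : ℝ) : ℂ) * F (Function.update (toOcc k) j (k j + 1)) := by
  split_ifs with h
  · refine Finset.sum_eq_zero fun k' _ => ?_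
    have := (k' j).isLt
    simp only [ann, of_apply]
    rw [if_neg (by omega), zero_mul]
  · have hk := (k j).isLt
    have hlt : (k j : ℕ) + 1 < K + 1 := by omega
    rw [Finset.sum_eq_single (Function.update k j ⟨k j + 1, hlt⟩)]
    · have e1 : toOcc (Function.update k j ⟨k j + 1, hlt⟩) = Function.update (toOcc k) j (k j + 1) := by
        funext i
        by_cases hi : i = j
        · subst hi; simp [toOcc]
        · simp [toOcc, Function.update_of_ne hi]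
      rw [e1]
      simp only [ann, of_apply]
      rw [if_pos ⟨by simp, fun i hi => by simp [Function.update_of_ne hi]⟩]
      simp
    · intro k' _ hne
      simp only [ann, of_apply]
      rw [if_neg, zero_mul]
      rintro ⟨h1, h2⟩
      apply hne
      funext i
      by_cases hi : i = j
      · subst hi; simp only [Function.update_self]; exact Fin.ext h1
      · rw [Function.update_of_ne hi]; exact h2 i hi
    · intro h; exact absurd (Finset.mem_univ _) h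

lemma bsm_sum_down (j : Fin n) (k' : Box n K) (F : Occ n → ℂ) :
    ∑ k : Box n K, ann K j k k' * F (toOcc k) =
      ((√((k' j : ℕ) : ℝ) : ℝ) : ℂ) * F (Function.update (toOcc k') j (k' j - 1)) := by
  by_cases h : (k' j : ℕ) = 0
  · rw [h]
    simp only [Nat.cast_zero, Real.sqrt_zero, Complex.ofReal_zero, zero_mul]
    refine Finset.sum_eq_zero fun k _ => ?_
    simp only [ann, of_apply]
    rw [if_neg (by omega), zero_mul]
  · have hk := (k' j).isLt
    have hlt : (k' j : ℕ) - 1 < K + 1 := by omega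
    rw [Finset.sum_eq_single (Function.update k' j ⟨k' j - 1, hlt⟩)]
    · have e1 : toOcc (Function.update k' j ⟨k' j - 1, hlt⟩) =
          Function.update (toOcc k') j (k' j - 1) := by
        funext i
        by_cases hi : i = j
        · subst hi; simp [toOcc]
        · simp [toOcc, Function.update_of_ne hi]
      rw [e1]
      simp only [ann, of_apply]
      rw [if_pos ⟨by simp; omega, fun i hi => by simp [Function.update_of_ne hi]⟩]
    · intro k _ hne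
      simp only [ann, of_apply]
      rw [if_neg, zero_mul]
      rintro ⟨h1, h2⟩
      apply hne
      funext i
      by_cases hi : i = j
      · subst hi; simp only [Function.update_self]; exact Fin.ext (by simp; omega)
      · rw [Function.update_of_ne hi]; exact (h2 i hi).symm
    · intro h; exact absurd (Finset.mem_univ _) h

/-- the amplitude of the modes other than `j` -/
noncomputable def bsmRest (η : ℝ) (j : Fin n) (k l p q : Occ n) : ℝ :=
  ∏ i ∈ Finset.univ.erase j, bsAmp η (k i) (l i) (p i) (q i)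

lemma bsm_amp (η : ℝ) (j : Fin n) (k l p q k' l' p' q' : Occ n) (hk : ∀ i, i ≠ j → k' i = k i)
    (hl : ∀ i, i ≠ j → l' i = l i) (hp : ∀ i, i ≠ j → p' i = p i) (hq : ∀ i, i ≠ j → q' i = q i) :
    ampOcc η k' l' p' q' = bsAmp η (k' j) (l' j) (p' j) (q' j) * bsmRest η j k l p q := by
  unfold ampOcc bsmRest
  rw [← Finset.mul_prod_erase Finset.univ _ (Finset.mem_univ j)]
  congr 1
  refine Finset.prod_congr rfl fun i hi => ?_
  have hij := Finset.ne_of_mem_erase hi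
  rw [hk i hij, hl i hij, hp i hij, hq i hij]

lemma bsm_amp_k (η : ℝ) (j : Fin n) (k l p q : Occ n) (v : ℕ) :
    ampOcc η (Function.update k j v) l p q = bsAmp η v (l j) (p j) (q j) * bsmRest η j k l p q := by
  rw [bsm_amp η j k l p q _ _ _ _ (fun i hi => Function.update_of_ne hi _ _) (fun _ _ => rfl)
    (fun _ _ => rfl) (fun _ _ => rfl), Function.update_self]

lemma bsm_amp_l (η : ℝ) (j : Fin n) (k l p q : Occ n) (v : ℕ) :
    ampOcc η k (Function.update l j v) p q = bsAmp η (k j) v (p j) (q j) * bsmRest η j k l p q := by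
  rw [bsm_amp η j k l p q _ _ _ _ (fun _ _ => rfl) (fun i hi => Function.update_of_ne hi _ _)
    (fun _ _ => rfl) (fun _ _ => rfl), Function.update_self]

lemma bsm_amp_p (η : ℝ) (j : Fin n) (k l p q : Occ n) (v : ℕ) :
    ampOcc η k l (Function.update p j v) q = bsAmp η (k j) (l j) v (q j) * bsmRest η j k l p q := by
  rw [bsm_amp η j k l p q _ _ _ _ (fun _ _ => rfl) (fun _ _ => rfl)
    (fun i hi => Function.update_of_ne hi _ _) (fun _ _ => rfl), Function.update_self]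

lemma bsm_amp_q (η : ℝ) (j : Fin n) (k l p q : Occ n) (v : ℕ) :
    ampOcc η k l p (Function.update q j v) = bsAmp η (k j) (l j) (p j) v * bsmRest η j k l p q := by
  rw [bsm_amp η j k l p q _ _ _ _ (fun _ _ => rfl) (fun _ _ => rfl) (fun _ _ => rfl)
    (fun i hi => Function.update_of_ne hi _ _), Function.update_self]

lemma bsm_V (η : ℝ) (p q : Box n (2 * K)) (k l : Box n K) :
    Vbs n K η (p, q) (k, l) = (ampOcc η (toOcc k) (toOcc l) (toOcc p) (toOcc q) : ℂ) := rfl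

section kron
variable {ι ι' κ : Type} [Fintype ι] [DecidableEq ι] [Fintype ι'] [DecidableEq ι']

lemma bsm_kl_mul (A : Matrix ι ι ℂ) (M : Matrix (ι × ι') κ ℂ) (p : ι) (q : ι') (x : κ) :
    ((A ⊗ₖ (1 : Matrix ι' ι' ℂ)) * M) (p, q) x = ∑ p', A p p' * M (p', q) x := by
  simp [Matrix.mul_apply, Fintype.sum_prod_type, Matrix.one_apply]

lemma bsm_kr_mul (A : Matrix ι' ι' ℂ) (M : Matrix (ι × ι') κ ℂ) (p : ι) (q : ι') (x : κ) :
    (((1 : Matrix ι ι ℂ) ⊗ₖ A) * M) (p, q) x = ∑ q', A q q' * M (p, q') x := by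
  simp [Matrix.mul_apply, Fintype.sum_prod_type, Matrix.one_apply]

lemma bsm_mul_kl (A : Matrix ι ι ℂ) (M : Matrix κ (ι × ι') ℂ) (p : ι) (q : ι') (x : κ) :
    (M * (A ⊗ₖ (1 : Matrix ι' ι' ℂ))) x (p, q) = ∑ p', A p' p * M x (p', q) := by
  simp [Matrix.mul_apply, Fintype.sum_prod_type, Matrix.one_apply, mul_comm]

lemma bsm_mul_kr (A : Matrix ι' ι' ℂ) (M : Matrix κ (ι × ι') ℂ) (p : ι) (q : ι') (x : κ) :
    (M * ((1 : Matrix ι ι ℂ) ⊗ₖ A)) x (p, q) = ∑ q', A q' q * M x (p, q') := by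
  simp [Matrix.mul_apply, Fintype.sum_prod_type, Matrix.one_apply, mul_comm]

end kron

lemma bsm_Va (η : ℝ) (j : Fin n) (x : Box n (2 * K) × Box n (2 * K)) (k l : Box n K) :
    (Vbs n K η * (ann K j ⊗ₖ (1 : Matrix (Box n K) (Box n K) ℂ))) x (k, l) =
      ((√((k j : ℕ) : ℝ) * (bsAmp η (k j - 1) (l j) (x.1 j) (x.2 j) *
        bsmRest η j (toOcc k) (toOcc l) (toOcc x.1) (toOcc x.2)) : ℝ) : ℂ) := by
  obtain ⟨p, q⟩ := x
  rw [bsm_mul_kl]
  simp only [bsm_V]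
  rw [bsm_sum_down j k fun k' => (ampOcc η k' (toOcc l) (toOcc p) (toOcc q) : ℂ), bsm_amp_k]
  push_cast
  rfl

lemma bsm_Vb (η : ℝ) (j : Fin n) (x : Box n (2 * K) × Box n (2 * K)) (k l : Box n K) :
    (Vbs n K η * ((1 : Matrix (Box n K) (Box n K) ℂ) ⊗ₖ ann K j)) x (k, l) =
      ((√((l j : ℕ) : ℝ) * (bsAmp η (k j) (l j - 1) (x.1 j) (x.2 j) *
        bsmRest η j (toOcc k) (toOcc l) (toOcc x.1) (toOcc x.2)) : ℝ) : ℂ) := by
  obtain ⟨p, q⟩ := x
  rw [bsm_mul_kr]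
  simp only [bsm_V]
  rw [bsm_sum_down j l fun l' => (ampOcc η (toOcc k) l' (toOcc p) (toOcc q) : ℂ), bsm_amp_l]
  push_cast
  rfl

lemma bsm_cV' (η : ℝ) (j : Fin n) (p q : Box n (2 * K)) (x : Box n K × Box n K) :
    ((ann (2 * K) j ⊗ₖ (1 : Matrix (Box n (2 * K)) (Box n (2 * K)) ℂ)) * Vbs n K η) (p, q) x =
      ((√(((p j : ℕ) : ℝ) + 1) * (bsAmp η (x.1 j) (x.2 j) (p j + 1) (q j) *
        bsmRest η j (toOcc x.1) (toOcc x.2) (toOcc p) (toOcc q)) : ℝ) : ℂ) := by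
  obtain ⟨k, l⟩ := x
  rw [bsm_kl_mul]
  simp only [bsm_V]
  rw [bsm_sum_up j p fun p' => (ampOcc η (toOcc k) (toOcc l) p' (toOcc q) : ℂ), bsm_amp_p]
  split_ifs with h
  · have h1 := (k j).isLt
    have h2 := (l j).isLt
    rw [bsAmp_eq_zero η (by omega)]
    simp
  · push_cast
    rfl

lemma bsm_dV' (η : ℝ) (j : Fin n) (p q : Box n (2 * K)) (x : Box n K × Box n K) :
    (((1 : Matrix (Box n (2 * K)) (Box n (2 * K)) ℂ) ⊗ₖ ann (2 * K) j) * Vbs n K η) (p, q) x =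
      ((√(((q j : ℕ) : ℝ) + 1) * (bsAmp η (x.1 j) (x.2 j) (p j) (q j + 1) *
        bsmRest η j (toOcc x.1) (toOcc x.2) (toOcc p) (toOcc q)) : ℝ) : ℂ) := by
  obtain ⟨k, l⟩ := x
  rw [bsm_kr_mul]
  simp only [bsm_V]
  rw [bsm_sum_up j q fun q' => (ampOcc η (toOcc k) (toOcc l) (toOcc p) q' : ℂ), bsm_amp_q]
  split_ifs with h
  · have h1 := (k j).isLt
    have h2 := (l j).isLt
    rw [bsAmp_eq_zero η (by omega)]
    simp
  · push_cast
    rfl

/-- (1) -/
lemma bsm_cV (η : ℝ) (j : Fin n) :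
    (ann (2 * K) j ⊗ₖ (1 : Matrix (Box n (2 * K)) (Box n (2 * K)) ℂ)) * Vbs n K η =
      √η • (Vbs n K η * (ann K j ⊗ₖ (1 : Matrix (Box n K) (Box n K) ℂ))) +
        √(1 - η) • (Vbs n K η * ((1 : Matrix (Box n K) (Box n K) ℂ) ⊗ₖ ann K j)) := by
  ext ⟨p, q⟩ ⟨k, l⟩
  rw [Matrix.add_apply, Matrix.smul_apply, Matrix.smul_apply, bsm_cV', bsm_Va, bsm_Vb,
    Complex.real_smul, Complex.real_smul]
  norm_cast
  have := amp_L1 η (k j) (l j) (p j) (q j)
  push_cast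
  linear_combination bsmRest η j (toOcc k) (toOcc l) (toOcc p) (toOcc q) * this

/-- (2) -/
lemma bsm_dV (η : ℝ) (j : Fin n) :
    ((1 : Matrix (Box n (2 * K)) (Box n (2 * K)) ℂ) ⊗ₖ ann (2 * K) j) * Vbs n K η =
      (-√(1 - η)) • (Vbs n K η * (ann K j ⊗ₖ (1 : Matrix (Box n K) (Box n K) ℂ))) +
        √η • (Vbs n K η * ((1 : Matrix (Box n K) (Box n K) ℂ) ⊗ₖ ann K j)) := by
  ext ⟨p, q⟩ ⟨k, l⟩
  rw [Matrix.add_apply, Matrix.smul_apply, Matrix.smul_apply, bsm_dV', bsm_Va, bsm_Vb,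
    Complex.real_smul, Complex.real_smul]
  norm_cast
  have := amp_L2 η (k j) (l j) (p j) (q j)
  push_cast
  linear_combination bsmRest η j (toOcc k) (toOcc l) (toOcc p) (toOcc q) * this

lemma bsm_Vct (η : ℝ) (p q : Box n (2 * K)) (k l : Box n K) :
    (Vbs n K η)ᴴ (k, l) (p, q) = (ampOcc η (toOcc k) (toOcc l) (toOcc p) (toOcc q) : ℂ) := by
  rw [conjTranspose_apply, bsm_V]
  simp

lemma bsm_Vc (η : ℝ) (j : Fin n) (x : Box n K × Box n K) (p q : Box n (2 * K)) :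
    ((Vbs n K η)ᴴ * (ann (2 * K) j ⊗ₖ (1 : Matrix (Box n (2 * K)) (Box n (2 * K)) ℂ))) x (p, q) =
      ((√((p j : ℕ) : ℝ) * (bsAmp η (x.1 j) (x.2 j) (p j - 1) (q j) *
        bsmRest η j (toOcc x.1) (toOcc x.2) (toOcc p) (toOcc q)) : ℝ) : ℂ) := by
  obtain ⟨k, l⟩ := x
  rw [bsm_mul_kl]
  simp only [bsm_Vct]
  rw [bsm_sum_down j p fun p' => (ampOcc η (toOcc k) (toOcc l) p' (toOcc q) : ℂ), bsm_amp_p]
  push_cast
  rfl

lemma bsm_Vd (η : ℝ) (j : Fin n) (x : Box n K × Box n K) (p q : Box n (2 * K)) :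
    ((Vbs n K η)ᴴ * ((1 : Matrix (Box n (2 * K)) (Box n (2 * K)) ℂ) ⊗ₖ ann (2 * K) j)) x (p, q) =
      ((√((q j : ℕ) : ℝ) * (bsAmp η (x.1 j) (x.2 j) (p j) (q j - 1) *
        bsmRest η j (toOcc x.1) (toOcc x.2) (toOcc p) (toOcc q)) : ℝ) : ℂ) := by
  obtain ⟨k, l⟩ := x
  rw [bsm_mul_kr]
  simp only [bsm_Vct]
  rw [bsm_sum_down j q fun q' => (ampOcc η (toOcc k) (toOcc l) (toOcc p) q' : ℂ), bsm_amp_q]
  push_cast
  rfl

lemma bsm_Qa_mul {κ : Type} (j : Fin n) (M : Matrix (Box n K × Box n K) κ ℂ) (k l : Box n K) (x : κ) :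
    ((1 - topP K j ⊗ₖ (1 : Matrix (Box n K) (Box n K) ℂ) :
      Matrix (Box n K × Box n K) (Box n K × Box n K) ℂ) * M) (k, l) x =
      if (k j : ℕ) = K then 0 else M (k, l) x := by
  rw [Matrix.sub_mul, Matrix.one_mul, Matrix.sub_apply, bsm_kl_mul]
  simp only [topP, rdiag, diagonal_apply, ite_mul, zero_mul, Finset.sum_ite_eq, Finset.mem_univ,
    if_true]
  split_ifs <;> simp

lemma bsm_Qb_mul {κ : Type} (j : Fin n) (M : Matrix (Box n K × Box n K) κ ℂ) (k l : Box n K) (x : κ) :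
    ((1 - (1 : Matrix (Box n K) (Box n K) ℂ) ⊗ₖ topP K j :
      Matrix (Box n K × Box n K) (Box n K × Box n K) ℂ) * M) (k, l) x =
      if (l j : ℕ) = K then 0 else M (k, l) x := by
  rw [Matrix.sub_mul, Matrix.one_mul, Matrix.sub_apply, bsm_kr_mul]
  simp only [topP, rdiag, diagonal_apply, ite_mul, zero_mul, Finset.sum_ite_eq, Finset.mem_univ,
    if_true]
  split_ifs <;> simp

/-- (3), transposed -/
lemma bsm_aV (η : ℝ) (j : Fin n) :
    (ann K j ⊗ₖ (1 : Matrix (Box n K) (Box n K) ℂ)) * (Vbs n K η)ᴴ =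
      (1 - topP K j ⊗ₖ (1 : Matrix (Box n K) (Box n K) ℂ)) *
        (√η • ((Vbs n K η)ᴴ * (ann (2 * K) j ⊗ₖ (1 : Matrix (Box n (2 * K)) (Box n (2 * K)) ℂ))) -
          √(1 - η) • ((Vbs n K η)ᴴ *
            ((1 : Matrix (Box n (2 * K)) (Box n (2 * K)) ℂ) ⊗ₖ ann (2 * K) j))) := by
  ext ⟨k, l⟩ ⟨p, q⟩
  rw [bsm_Qa_mul, bsm_kl_mul]
  simp only [bsm_Vct]
  rw [bsm_sum_up j k fun k' => (ampOcc η k' (toOcc l) (toOcc p) (toOcc q) : ℂ), bsm_amp_k]
  split_ifs with h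
  · rfl
  · rw [Matrix.sub_apply, Matrix.smul_apply, Matrix.smul_apply, bsm_Vc, bsm_Vd,
      Complex.real_smul, Complex.real_smul]
    norm_cast
    have := amp_U1 η (k j) (l j) (p j) (q j)
    push_cast
    simp only [toOcc]
    linear_combination bsmRest η j (toOcc k) (toOcc l) (toOcc p) (toOcc q) * this

/-- (4), transposed -/
lemma bsm_bV (η : ℝ) (j : Fin n) :
    ((1 : Matrix (Box n K) (Box n K) ℂ) ⊗ₖ ann K j) * (Vbs n K η)ᴴ =
      (1 - (1 : Matrix (Box n K) (Box n K) ℂ) ⊗ₖ topP K j) *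
        (√(1 - η) • ((Vbs n K η)ᴴ *
          (ann (2 * K) j ⊗ₖ (1 : Matrix (Box n (2 * K)) (Box n (2 * K)) ℂ))) +
          √η • ((Vbs n K η)ᴴ *
            ((1 : Matrix (Box n (2 * K)) (Box n (2 * K)) ℂ) ⊗ₖ ann (2 * K) j))) := by
  ext ⟨k, l⟩ ⟨p, q⟩
  rw [bsm_Qb_mul, bsm_kr_mul]
  simp only [bsm_Vct]
  rw [bsm_sum_up j l fun l' => (ampOcc η (toOcc k) l' (toOcc p) (toOcc q) : ℂ), bsm_amp_l]
  split_ifs with h
  · rfl
  · rw [Matrix.add_apply, Matrix.smul_apply, Matrix.smul_apply, bsm_Vc, bsm_Vd,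
      Complex.real_smul, Complex.real_smul]
    norm_cast
    have := amp_U2 η (k j) (l j) (p j) (q j)
    push_cast
    simp only [toOcc]
    linear_combination bsmRest η j (toOcc k) (toOcc l) (toOcc p) (toOcc q) * this

lemma bsm_topP_idem (j : Fin n) : topP K j * topP K j = topP K j := by
  unfold topP
  rw [rdiag_mul]
  congr 1
  funext k
  split_ifs <;> simp

/-- the abstract computation behind `h2a` and `h2b` -/
lemma bsm_h2 {α β : Type} [Fintype α] [DecidableEq α] [Fintype β] [DecidableEq β]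
    {V : Matrix β α ℂ} {a P : Matrix α α ℂ} {c d Z : Matrix β β ℂ} {u v : ℝ} (hP : P * P = P)
    (h1 : a * Vᴴ = P * (u • (Vᴴ * c) + v • (Vᴴ * d)))
    (h2 : V * a = u • (c * V) + v • (d * V)) (hd : d * Z = Z * d) :
    P * (comm a (Vᴴ * Z * V) - u • (Vᴴ * (comm c Z) * V)) = 0 := by
  have e1 : P * (a * (Vᴴ * Z * V)) = u • (P * (Vᴴ * (c * Z) * V)) + v • (P * (Vᴴ * (Z * d) * V)) := by
    rw [← hd, Matrix.mul_assoc Vᴴ Z V, ← Matrix.mul_assoc a, h1, ← Matrix.mul_assoc P,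
      ← Matrix.mul_assoc P, hP]
    simp only [Matrix.mul_add, Matrix.add_mul, Matrix.mul_smul, Matrix.smul_mul, Matrix.mul_assoc]
  have e2 : P * (Vᴴ * Z * V * a) = u • (P * (Vᴴ * (Z * c) * V)) + v • (P * (Vᴴ * (Z * d) * V)) := by
    rw [Matrix.mul_assoc (Vᴴ * Z) V a, h2]
    simp only [Matrix.mul_add, Matrix.mul_smul, Matrix.mul_assoc]
  unfold R332.comm
  rw [Matrix.mul_sub, Matrix.mul_sub, e1, e2]
  simp only [Matrix.mul_sub, Matrix.sub_mul, Matrix.mul_smul, smul_sub]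
  abel

lemma bsm_h1 (η : ℝ) (j : Fin n) (Z : Matrix (Box n (2 * K)) (Box n (2 * K)) ℂ) :
    Th n K η (Z * ann (2 * K) j) = Th n K η Z *
      (√η • (ann K j ⊗ₖ (1 : Matrix (Box n K) (Box n K) ℂ)) +
        √(1 - η) • ((1 : Matrix (Box n K) (Box n K) ℂ) ⊗ₖ ann K j)) := by
  have e : (Z * ann (2 * K) j) ⊗ₖ (1 : Matrix (Box n (2 * K)) (Box n (2 * K)) ℂ) =
      (Z ⊗ₖ (1 : Matrix (Box n (2 * K)) (Box n (2 * K)) ℂ)) *
        (ann (2 * K) j ⊗ₖ (1 : Matrix (Box n (2 * K)) (Box n (2 * K)) ℂ)) := by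
    rw [← mul_kronecker_mul, Matrix.one_mul]
  change (Vbs n K η)ᴴ * ((Z * ann (2 * K) j) ⊗ₖ (1 : Matrix (Box n (2 * K)) (Box n (2 * K)) ℂ)) *
      Vbs n K η = (Vbs n K η)ᴴ * (Z ⊗ₖ (1 : Matrix (Box n (2 * K)) (Box n (2 * K)) ℂ)) * Vbs n K η * _
  rw [e, ← Matrix.mul_assoc, Matrix.mul_assoc _ _ (Vbs n K η), bsm_cV]
  simp only [Matrix.mul_add, Matrix.mul_smul, Matrix.mul_assoc]

theorem mode_Th {η : ℝ} (h0 : 0 ≤ η) (h1 : η ≤ 1) (j : Fin n) :
    Mode η (Th n K η) (ann K j) (topP K j) (ann K j) (topP K j) (ann (2 * K) j) := by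
  have hu : √η * √η = η := Real.mul_self_sqrt h0
  have hv : √(1 - η) * √(1 - η) = 1 - η := Real.mul_self_sqrt (by linarith)
  have hd : ∀ Z : Matrix (Box n (2 * K)) (Box n (2 * K)) ℂ,
      ((1 : Matrix (Box n (2 * K)) (Box n (2 * K)) ℂ) ⊗ₖ ann (2 * K) j) *
        (Z ⊗ₖ (1 : Matrix (Box n (2 * K)) (Box n (2 * K)) ℂ)) =
      (Z ⊗ₖ (1 : Matrix (Box n (2 * K)) (Box n (2 * K)) ℂ)) *
        ((1 : Matrix (Box n (2 * K)) (Box n (2 * K)) ℂ) ⊗ₖ ann (2 * K) j) := by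
    intro Z
    rw [← mul_kronecker_mul, ← mul_kronecker_mul, Matrix.one_mul, Matrix.mul_one, Matrix.one_mul,
      Matrix.mul_one]
  have hc : ∀ Z : Matrix (Box n (2 * K)) (Box n (2 * K)) ℂ,
      (comm (ann (2 * K) j) Z) ⊗ₖ (1 : Matrix (Box n (2 * K)) (Box n (2 * K)) ℂ) =
      comm (ann (2 * K) j ⊗ₖ (1 : Matrix (Box n (2 * K)) (Box n (2 * K)) ℂ))
        (Z ⊗ₖ (1 : Matrix (Box n (2 * K)) (Box n (2 * K)) ℂ)) := by
    intro Z
    unfold R332.comm
    rw [← mul_kronecker_mul, ← mul_kronecker_mul, Matrix.one_mul]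
    ext ⟨p, q⟩ ⟨p', q'⟩
    simp only [kronecker_apply, Matrix.sub_apply]
    ring
  refine ⟨bsm_h1 η j, fun Z => ?_, fun Z => ?_, rdiag_ct _, bsm_topP_idem j, topP_mul_ann j,
    rdiag_ct _, bsm_topP_idem j, topP_mul_ann j⟩
  · change _ * (comm _ ((Vbs n K η)ᴴ * (Z ⊗ₖ (1 : Matrix (Box n (2 * K)) (Box n (2 * K)) ℂ)) *
      Vbs n K η) - √η • ((Vbs n K η)ᴴ * ((comm (ann (2 * K) j) Z) ⊗ₖ
        (1 : Matrix (Box n (2 * K)) (Box n (2 * K)) ℂ)) * Vbs n K η)) = 0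
    rw [hc]
    refine bsm_h2 (v := -√(1 - η)) ?_ ?_ ?_ (hd Z)
    · rw [Matrix.sub_mul, Matrix.mul_sub, Matrix.mul_sub, ← mul_kronecker_mul, bsm_topP_idem]
      simp
    · rw [bsm_aV, neg_smul, ← sub_eq_add_neg]
    · rw [bsm_cV, bsm_dV]
      simp only [smul_add, smul_smul]
      rw [add_add_add_comm, ← add_smul, ← add_smul]
      have e1 : √η * √η + -√(1 - η) * -√(1 - η) = 1 := by linear_combination hu + hv
      have e2 : √η * √(1 - η) + -√(1 - η) * √η = 0 := by ring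
      rw [e1, e2, one_smul, zero_smul, add_zero]
  · change _ * (comm _ ((Vbs n K η)ᴴ * (Z ⊗ₖ (1 : Matrix (Box n (2 * K)) (Box n (2 * K)) ℂ)) *
      Vbs n K η) - √(1 - η) • ((Vbs n K η)ᴴ * ((comm (ann (2 * K) j) Z) ⊗ₖ
        (1 : Matrix (Box n (2 * K)) (Box n (2 * K)) ℂ)) * Vbs n K η)) = 0
    rw [hc]
    refine bsm_h2 (v := √η) ?_ ?_ ?_ (hd Z)
    · rw [Matrix.sub_mul, Matrix.mul_sub, Matrix.mul_sub, ← mul_kronecker_mul, bsm_topP_idem]
      simp
    · rw [bsm_bV]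
    · rw [bsm_cV, bsm_dV]
      simp only [smul_add, smul_smul]
      rw [add_add_add_comm, ← add_smul, ← add_smul]
      have e1 : √(1 - η) * √η + √η * -√(1 - η) = 0 := by ring
      have e2 : √(1 - η) * √(1 - η) + √η * √η = 1 := by linear_combination hu + hv
      rw [e1, e2, one_smul, zero_smul, zero_add]

lemma bsm_en (ρ : Matrix (Box n K) (Box n K) ℂ) :
    en ρ = ∑ j, (trace (ρ * ((ann K j)ᴴ * ann K j))).re := by
  have : ∀ j, (trace (ρ * ((ann K j)ᴴ * ann K j))).re = ∑ k : Box n K, ((k j : ℕ) : ℝ) * (ρ k k).re := by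
    intro j
    rw [ann_ct_mul]
    exact (ex_eq_rtr (fun k : Box n K => ((k j : ℕ) : ℝ)) ρ).symm
  simp_rw [this]
  rw [Finset.sum_comm]
  unfold en ex tot
  refine Finset.sum_congr rfl fun k _ => ?_
  push_cast
  rw [Finset.sum_mul]

/-- `tr (out cᴴc) = tr σ Θ(cᴴ c) = tr σ ĉᴴ ĉ` (`h1`, `star`, `unital`), `ann_ct_mul` -/
lemma en_out {η : ℝ} (h0 : 0 ≤ η) (h1 : η ≤ 1) {ρA ρB : Matrix (Box n K) (Box n K) ℂ}
    (hA : Dens ρA) (hB : Dens ρB) :
    en (bsOutput η ρA ρB) = η * en ρA + (1 - η) * en ρB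
      + ∑ j, 2 * √η * √(1 - η) * (star (trace (ρA * ann K j)) * trace (ρB * ann K j)).re := by
  have hu : √η * √η = η := Real.mul_self_sqrt h0
  have hv : √(1 - η) * √(1 - η) = 1 - η := Real.mul_self_sqrt (by linarith)
  have hC := chan_Th (n := n) (K := K) h0 h1
  rw [bsm_en, bsm_en, bsm_en, Finset.mul_sum, Finset.mul_sum, ← Finset.sum_add_distrib,
    ← Finset.sum_add_distrib]
  refine Finset.sum_congr rfl fun j _ => ?_
  have e1 : Th n K η (ann (2 * K) j) = √η • (ann K j ⊗ₖ (1 : Matrix (Box n K) (Box n K) ℂ)) +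
      √(1 - η) • ((1 : Matrix (Box n K) (Box n K) ℂ) ⊗ₖ ann K j) := by
    have := bsm_h1 (K := K) η j 1
    rwa [Matrix.one_mul, hC.unital, Matrix.one_mul] at this
  have hs : ∀ ρ : Matrix (Box n K) (Box n K) ℂ, Dens ρ →
      trace (ρ * (ann K j)ᴴ) = star (trace (ρ * ann K j)) := by
    intro ρ hρ
    rw [← trace_conjTranspose, conjTranspose_mul, hρ.1.1.eq, trace_mul_comm]
  rw [trace_out, bsm_h1, hC.star, e1]
  simp only [conjTranspose_add, conjTranspose_smul, conjTranspose_kronecker, conjTranspose_one,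
    star_trivial, Matrix.add_mul, Matrix.mul_add, Matrix.smul_mul, Matrix.mul_smul,
    ← mul_kronecker_mul, trace_add, trace_smul, trace_kronecker,
    hA.2, hB.2, hs ρA hA, hs ρB hB, mul_one, one_mul]
  simp only [Complex.add_re, Complex.real_smul, Complex.mul_re, Complex.ofReal_re,
    Complex.ofReal_im, zero_mul, sub_zero, Complex.star_def, Complex.conj_re, Complex.conj_im]
  linear_combination (trace (ρA * ((ann K j)ᴴ * ann K j))).re * hu +
    (trace (ρB * ((ann K j)ᴴ * ann K j))).re * hv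

end Crest.Agent.R331
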