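import Mathlib

/-!
Row 331: calculus for the task CONV.  `cvP σ = σ coth σ`, `cvC σ = σ² / sinh² σ`.
-/

set_option autoImplicit false

open Set Filter Topology

namespace Crest.Agent.R331

/-- `sinh σ / σ` -/
noncomputable def cvS (σ : ℝ) : ℝ := dslope Real.sinh 0 σ

/-- `σ coth σ` -/
noncomputable def cvP (σ : ℝ) : ℝ := Real.cosh σ / cvS σ

/-- `σ² / sinh² σ` -/
noncomputable def cvC (σ : ℝ) : ℝ := 1 / cvS σ ^ 2

/-- `-ψ'/C'` -/
noncomputable def cvG (σ : ℝ) : ℝ := (cvP σ - cvC σ) / (2 * cvC σ * (cvP σ - 1))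

lemma cvS_zero : cvS 0 = 1 := by simp [cvS]

lemma cvS_of_ne {σ : ℝ} (h : σ ≠ 0) : cvS σ = Real.sinh σ / σ := by
  rw [cvS, dslope_of_ne _ h, slope_def_field]
  simp

lemma cvS_mul (σ : ℝ) : cvS σ * σ = Real.sinh σ := by
  by_cases h : σ = 0
  · simp [h]
  · rw [cvS_of_ne h]; field_simp

lemma cvS_neg (σ : ℝ) : cvS (-σ) = cvS σ := by
  by_cases h : σ = 0
  · simp [h]
  · rw [cvS_of_ne h, cvS_of_ne (neg_ne_zero.2 h), Real.sinh_neg, neg_div_neg_eq]

lemma cvS_abs (σ : ℝ) : cvS |σ| = cvS σ := by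
  rcases abs_choice σ with h | h <;> rw [h]
  exact cvS_neg σ

lemma one_lt_cvS {σ : ℝ} (h : 0 < σ) : 1 < cvS σ := by
  rw [cvS_of_ne h.ne', one_lt_div h]
  exact Real.self_lt_sinh_iff.2 h

lemma cvS_pos (σ : ℝ) : 0 < cvS σ := by
  rw [← cvS_abs]
  rcases (abs_nonneg σ).eq_or_lt with h | h
  · rw [← h, cvS_zero]; exact one_pos
  · exact one_pos.trans (one_lt_cvS h)

lemma continuous_cvS : Continuous cvS := by
  refine continuous_iff_continuousAt.2 fun σ => ?_
  by_cases h : σ = 0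
  · subst h
    exact continuousAt_dslope_same.2 Real.differentiable_sinh.differentiableAt
  · exact (continuousAt_dslope_of_ne h).2 Real.continuous_sinh.continuousAt

lemma continuous_cvP : Continuous cvP :=
  Real.continuous_cosh.div continuous_cvS fun σ => (cvS_pos σ).ne'

lemma continuous_cvC : Continuous cvC :=
  continuous_const.div (continuous_cvS.pow 2) fun σ => (pow_pos (cvS_pos σ) 2).ne'

lemma cvP_zero : cvP 0 = 1 := by simp [cvP, cvS_zero]

lemma cvC_zero : cvC 0 = 1 := by simp [cvC, cvS_zero]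

lemma cvP_abs (σ : ℝ) : cvP |σ| = cvP σ := by rw [cvP, cvP, cvS_abs, Real.cosh_abs]

lemma cvC_abs (σ : ℝ) : cvC |σ| = cvC σ := by rw [cvC, cvC, cvS_abs]

lemma cvC_pos (σ : ℝ) : 0 < cvC σ := one_div_pos.2 (pow_pos (cvS_pos σ) 2)

lemma cvP_pos (σ : ℝ) : 0 < cvP σ := div_pos (Real.cosh_pos σ) (cvS_pos σ)

lemma cvC_lt_one {σ : ℝ} (h : 0 < σ) : cvC σ < 1 := by
  have := one_lt_cvS h
  rw [cvC, div_lt_one (pow_pos (cvS_pos σ) 2)]
  nlinarith

lemma cv_sinh_lt {σ : ℝ} (h : 0 < σ) : Real.sinh σ < σ * Real.cosh σ := by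
  have hd : ∀ x : ℝ, HasDerivAt (fun x => x * Real.cosh x - Real.sinh x) (x * Real.sinh x) x := by
    intro x
    have := ((hasDerivAt_id x).mul (Real.hasDerivAt_cosh x)).sub (Real.hasDerivAt_sinh x)
    refine this.congr_deriv ?_
    simp
  have hm : StrictMonoOn (fun x => x * Real.cosh x - Real.sinh x) (Ici 0) := by
    refine strictMonoOn_of_deriv_pos (convex_Ici 0) (by fun_prop) fun x hx => ?_
    rw [interior_Ici] at hx
    rw [(hd x).deriv]
    exact mul_pos hx (Real.sinh_pos_iff.2 hx)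
  have := hm (le_refl (0 : ℝ)) h.le h
  simpa using this

lemma one_lt_cvP {σ : ℝ} (h : 0 < σ) : 1 < cvP σ := by
  rw [cvP, one_lt_div (cvS_pos σ), cvS_of_ne h.ne', div_lt_iff₀ h, mul_comm]
  exact cv_sinh_lt h

lemma cvC_eq (σ : ℝ) : cvC σ = cvP σ ^ 2 - σ ^ 2 := by
  have h1 := cvS_mul σ
  have h2 := Real.cosh_sq σ
  have h3 := (cvS_pos σ).ne'
  rw [cvC, cvP]
  field_simp
  rw [h2, ← h1]
  ring

lemma hasDerivAt_cvS {σ : ℝ} (h : 0 < σ) :
    HasDerivAt cvS (cvS σ * (cvP σ - 1) / σ) σ := by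
  have h1 : HasDerivAt (fun x => Real.sinh x / x)
      ((Real.cosh σ * σ - Real.sinh σ * 1) / σ ^ 2) σ :=
    (Real.hasDerivAt_sinh σ).div (hasDerivAt_id σ) h.ne'
  have h2 : cvS =ᶠ[𝓝 σ] fun x => Real.sinh x / x := by
    filter_upwards [lt_mem_nhds h] with x hx using cvS_of_ne hx.ne'
  have h3 := h1.congr_of_eventuallyEq h2
  refine h3.congr_deriv ?_
  have h4 := (cvS_pos σ).ne'
  rw [cvP, ← cvS_mul σ]
  field_simp

lemma hasDerivAt_cvP {σ : ℝ} (h : 0 < σ) : HasDerivAt cvP ((cvP σ - cvC σ) / σ) σ := by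
  have h1 := (Real.hasDerivAt_cosh σ).div (hasDerivAt_cvS h) (cvS_pos σ).ne'
  refine HasDerivAt.congr_deriv (f := cvP) h1 ?_
  have h4 := (cvS_pos σ).ne'
  have h5 : Real.cosh σ = cvP σ * cvS σ := by rw [cvP]; field_simp
  rw [cvC_eq, ← cvS_mul σ, h5]
  field_simp
  ring

lemma hasDerivAt_cvC {σ : ℝ} (h : 0 < σ) :
    HasDerivAt cvC (-(2 * cvC σ * (cvP σ - 1) / σ)) σ := by
  have h1 := (hasDerivAt_const σ (1 : ℝ)).div ((hasDerivAt_cvS h).pow 2)
    (pow_pos (cvS_pos σ) 2).ne'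
  refine HasDerivAt.congr_deriv (f := cvC) h1 ?_
  have h4 := (cvS_pos σ).ne'
  rw [cvC]
  simp only [Pi.pow_apply]
  field_simp
  ring

lemma cvC_strictAnti : StrictAntiOn cvC (Ici 0) := by
  refine strictAntiOn_of_deriv_neg (convex_Ici 0) continuous_cvC.continuousOn fun x hx => ?_
  rw [interior_Ici] at hx
  have hx' : 0 < x := hx
  rw [(hasDerivAt_cvC hx').deriv]
  have h1 := cvC_pos x
  have h2 := one_lt_cvP hx'
  have : 0 < 2 * cvC x * (cvP x - 1) / x := div_pos (mul_pos (by positivity) (by linarith)) hx'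
  linarith

/-- comparison of the derivatives gives comparison of the increments -/
lemma cv_compare {g : ℝ → ℝ} (hg : ContinuousOn g (Ioi 0)) {r s : ℝ}
    (h : ∀ σ, 0 < σ → s * g (cvC σ) ≤ r * cvG σ) {σ₁ σ₂ : ℝ} (h2 : 0 ≤ σ₂) (h12 : σ₂ ≤ σ₁) :
    s * ∫ u in cvC σ₁..cvC σ₂, g u ≤ r * (cvP σ₁ - cvP σ₂) := by
  have hint : ∀ a b : ℝ, 0 < a → 0 < b → IntervalIntegrable g MeasureTheory.volume a b := by
    intro a b ha hb
    refine (hg.mono fun u hu => ?_).intervalIntegrable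
    exact lt_of_lt_of_le (lt_min ha hb) hu.1
  have hΦ : ∀ c : ℝ, 0 < c → HasDerivAt (fun c => ∫ u in (1 : ℝ)..c, g u) (g c) c := by
    intro c hc
    refine intervalIntegral.integral_hasDerivAt_right (hint _ _ one_pos hc) ?_ ?_
    · exact hg.stronglyMeasurableAtFilter isOpen_Ioi c hc
    · exact hg.continuousAt (Ioi_mem_nhds hc)
  set F : ℝ → ℝ := fun σ => r * cvP σ + s * ∫ u in (1 : ℝ)..cvC σ, g u with hF
  have hFc : Continuous F := by
    refine continuous_iff_continuousAt.2 fun σ => ?_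
    refine (continuous_const.mul continuous_cvP).continuousAt.add (continuousAt_const.mul ?_)
    exact ContinuousAt.comp (f := cvC) (hΦ _ (cvC_pos σ)).continuousAt continuous_cvC.continuousAt
  have hFd : ∀ σ, 0 < σ → HasDerivAt F (r * ((cvP σ - cvC σ) / σ) +
      s * (g (cvC σ) * -(2 * cvC σ * (cvP σ - 1) / σ))) σ := by
    intro σ hσ
    exact ((hasDerivAt_cvP hσ).const_mul r).add
      (((hΦ _ (cvC_pos σ)).comp σ (hasDerivAt_cvC hσ)).const_mul s)
  have hm : MonotoneOn F (Ici 0) := by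
    refine monotoneOn_of_deriv_nonneg (convex_Ici 0) hFc.continuousOn ?_ fun x hx => ?_
    · rw [interior_Ici]
      exact fun x hx => (hFd x hx).differentiableAt.differentiableWithinAt
    · rw [interior_Ici] at hx
      have hx' : 0 < x := hx
      rw [(hFd x hx').deriv]
      have h1 := cvC_pos x
      have h2 := one_lt_cvP hx'
      have h3 : 0 < 2 * cvC x * (cvP x - 1) := mul_pos (by positivity) (by linarith)
      have h4 : r * ((cvP x - cvC x) / x) + s * (g (cvC x) * -(2 * cvC x * (cvP x - 1) / x)) =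
          (r * cvG x - s * g (cvC x)) * (2 * cvC x * (cvP x - 1) / x) := by
        have h5 : cvP x - 1 ≠ 0 := by linarith
        rw [cvG]
        field_simp
        ring
      rw [h4]
      exact mul_nonneg (sub_nonneg.2 (h x hx')) (div_pos h3 hx').le
  have h3 := hm h2 (h2.trans h12) h12
  have h4 := intervalIntegral.integral_add_adjacent_intervals
    (hint 1 (cvC σ₁) one_pos (cvC_pos _)) (hint (cvC σ₁) (cvC σ₂) (cvC_pos _) (cvC_pos _))
  simp only [hF] at h3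
  rw [← h4] at h3
  linarith

lemma cvG_eq {σ : ℝ} (h : 0 < σ) :
    cvG σ = (1 + (1 - cvC σ) / (cvP σ - 1)) / (2 * cvC σ) := by
  have h1 := (cvC_pos σ).ne'
  have h2 : cvP σ - 1 ≠ 0 := by linarith [one_lt_cvP h]
  rw [cvG]
  field_simp
  ring

lemma cvG_ge {σ : ℝ} (h : 0 < σ) : 1 / (2 * cvC σ) ≤ cvG σ := by
  rw [cvG_eq h]
  have h1 := cvC_pos σ
  have h2 := one_lt_cvP h
  have h3 := cvC_lt_one h
  have : 0 ≤ (1 - cvC σ) / (cvP σ - 1) := div_nonneg (by linarith) (by linarith)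
  gcongr
  linarith

lemma cvG_pos {σ : ℝ} (h : 0 < σ) : 0 < cvG σ :=
  lt_of_lt_of_le (by have := cvC_pos σ; positivity) (cvG_ge h)

lemma cv_half {σ₁ σ₂ : ℝ} (h2 : 0 ≤ σ₂) (h12 : σ₂ ≤ σ₁) :
    (cvC σ₂ - cvC σ₁) / 2 ≤ cvP σ₁ - cvP σ₂ := by
  have := cv_compare (g := fun _ => 1) continuousOn_const (r := 1) (s := 1 / 2)
    (fun σ hσ => by
      have h1 := cvC_pos σ
      have h3 := cvC_lt_one hσ
      have h4 : 1 / 2 ≤ 1 / (2 * cvC σ) := by
        apply one_div_le_one_div_of_le <;> linarith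
      have := cvG_ge hσ
      linarith) h2 h12
  simp only [intervalIntegral.integral_const, smul_eq_mul, mul_one] at this
  linarith

lemma cv_affine (g : ℝ → ℝ) {c₁ c₂ : ℝ} (h : c₁ ≠ c₂) :
    ∫ θ in (0 : ℝ)..1, g (θ * c₁ + (1 - θ) * c₂) = (∫ u in c₂..c₁, g u) / (c₁ - c₂) := by
  have h1 := intervalIntegral.integral_comp_mul_add (a := 0) (b := 1) g (sub_ne_zero.2 h) c₂
  simp only [mul_zero, zero_add, mul_one, sub_add_cancel, smul_eq_mul] at h1
  rw [div_eq_inv_mul, ← h1]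
  congr 1
  funext θ
  congr 1
  ring

end Crest.Agent.R331
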