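import Crest.Agent.R331.Mean
import Crest.Agent.R331.ConvAux

/-!
Row 331: the approximate networks converge to `Mk` (task CONV).

Notation for `σ ≥ 0`: `ψ(σ) = σ cosh σ / sinh σ`, `C(σ) = σ² / sinh² σ` (both `1` at `0`,
continuous on `[0,∞)`; for `σ > 0`: `ψ > 1`, `0 < C < 1`, `ψ' = (ψ - C)/σ`, `C' = -2C(ψ-1)/σ < 0`),
`G(σ) = (ψ - C) / (2 C (ψ - 1)) = -ψ'/C' = (1 + (1 - C)/(ψ - 1)) / (2C)` for `σ > 0`.
Let `Φ_m(c) = ∫ u in c..1, gseq m u`, so `∫ θ in 0..1, gseq m (1 - θ + θ c) = Φ_m(c)/(1 - c)`.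
Claim `P(m)` with `r_0 = 3`, `r_{m+1} = 1 + (2/3)(r_m - 1)`:
for all `σ > 0`, `gseq m (C σ) ≤ r_m G σ` and `G σ ≤ r_m gseq m (C σ)`.
* From `P(m)`: `σ ↦ r_m ψ - Φ_m ∘ C` and `r_m Φ_m ∘ C - ψ` have derivative `≥ 0` on `(0,∞)`
  (FTC, `gseq_pos_cont`), so they are monotone on `[0,∞)`: for `σ₁ > σ₂ ≥ 0`,
  `∫ u in C σ₁..C σ₂, gseq m u` is within the factor `r_m` of `ψ σ₁ - ψ σ₂`.  (*)
* `G ≥ 1/(2C)` gives, by the same monotonicity, `a := (ψ - 1)/(1 - C) ≥ 1/2`; likewise
  `gseq m c ≥ 1/(2c) ≥ 1/2` on `(0,1]` gives `a' := Φ_m(C)/(1 - C) ≥ 1/2`.  `P(0)`: `G ≤ 3/(2C)`.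
* step: if `a ≤ r a'`, `a ≥ 1/2`, `r ≥ 1` then `1 + 1/a' ≤ 1 + r/a ≤ (1 + (2/3)(r-1)) (1 + 1/a)`.
For `x, y > 0` put `σ = |log (x/y)|/2`, `L = LM x y`: `(x+y)/(2L) = ψ σ`, `x y / L² = C σ`; with
`τ = β/2`, `β (t + 1/2) = ψ τ`, `Cb t = C τ` (case `(x,y) = (t+1,t)`, `LM = 1/β`).
So `q_m := ∫ θ in 0..1, gseq m (θ C σ + (1-θ) C τ)` tends to `q = (ψ σ - ψ τ)/(C τ - C σ)` if
`σ ≠ τ` (by (*)) and to `q = G τ` if `σ = τ`; `q > 0`.  Finally the algebraic identity
`netv (x + β(t+1)L) (y + βtL) (L/q) = Mk t x y`: divide by `L`, let `s = log x - log y`,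
`x/L = ψ σ + s/2`, `y/L = ψ σ - s/2`, `C = ψ² - s²/4`, `S = ψ σ + ψ τ`; the left side is
`S/2 - ((s+β)/2)² / (2S + 2/q)`; the right side is `(β ψ σ - s ψ τ)/(β - s)` for `s ≠ β` and
`C τ` for `s = β` (for `s = -β` both sides are `ψ τ`).  (Checked numerically.)
-/

set_option autoImplicit false
set_option linter.unusedSectionVars false

open Matrix Set Filter Topology Crest.Agent.R342 Crest.Agent.R332 Crest.MathPhysics.Bosonic
open scoped ComplexOrder Kronecker Matrix.Norms.Frobenius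

namespace Crest.Agent.R331

/-- the contraction factors -/
noncomputable def cvr (m : ℕ) : ℝ := 1 + 2 * (2 / 3) ^ m

lemma one_le_cvr (m : ℕ) : 1 ≤ cvr m := by
  have : (0 : ℝ) ≤ 2 * (2 / 3) ^ m := by positivity
  rw [cvr]; linarith

lemma cvr_succ (m : ℕ) : cvr (m + 1) = 1 + 2 / 3 * (cvr m - 1) := by
  rw [cvr, cvr]; ring

lemma tendsto_cvr : Tendsto cvr atTop (𝓝 1) := by
  have h := (tendsto_pow_atTop_nhds_zero_of_lt_one (r := (2 / 3 : ℝ)) (by norm_num)
    (by norm_num)).const_mul 2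
  have h2 := h.const_add 1
  simp only [mul_zero, add_zero] at h2
  exact h2

lemma cv_squeeze {a : ℕ → ℝ} {A : ℝ} (h1 : ∀ m, a m ≤ cvr m * A) (h2 : ∀ m, A ≤ cvr m * a m) :
    Tendsto a atTop (𝓝 A) := by
  have hu : Tendsto (fun m => cvr m * A) atTop (𝓝 A) := by
    simpa using tendsto_cvr.mul_const A
  have hl : Tendsto (fun m => A / cvr m) atTop (𝓝 A) := by
    have := (tendsto_const_nhds (x := A)).div tendsto_cvr one_ne_zero
    rw [div_one] at this
    exact this
  refine tendsto_of_tendsto_of_tendsto_of_le_of_le hl hu (fun m => ?_) h1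
  have := one_le_cvr m
  rw [div_le_iff₀ (by linarith), mul_comm]
  exact h2 m

lemma cv_step {r b b' : ℝ} (hr : 1 ≤ r) (hb2 : b ≤ 2) (h1 : b' ≤ r * b) (h2 : b ≤ r * b') :
    1 + b' ≤ (1 + 2 / 3 * (r - 1)) * (1 + b) ∧ 1 + b ≤ (1 + 2 / 3 * (r - 1)) * (1 + b') := by
  have h3 : 0 ≤ (r - 1) * (2 - b) := mul_nonneg (by linarith) (by linarith)
  refine ⟨by nlinarith, ?_⟩
  have h4 : 0 ≤ (1 + 2 / 3 * (r - 1)) * (r * b' - b) := mul_nonneg (by linarith) (by linarith)
  have h5 : 0 ≤ (r - 1) * (r - 1) := mul_self_nonneg _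
  have h6 : r * (1 + b) ≤ r * ((1 + 2 / 3 * (r - 1)) * (1 + b')) := by nlinarith
  exact le_of_mul_le_mul_left h6 (by linarith)

lemma cv_incr {m : ℕ}
    (h : ∀ σ, 0 < σ → gseq m (cvC σ) ≤ cvr m * cvG σ ∧ cvG σ ≤ cvr m * gseq m (cvC σ))
    {σ₁ σ₂ : ℝ} (h2 : 0 ≤ σ₂) (h12 : σ₂ ≤ σ₁) :
    ∫ u in cvC σ₁..cvC σ₂, gseq m u ≤ cvr m * (cvP σ₁ - cvP σ₂) ∧
      cvP σ₁ - cvP σ₂ ≤ cvr m * ∫ u in cvC σ₁..cvC σ₂, gseq m u := by
  have a1 := cv_compare (gseq_pos_cont m).2 (r := cvr m) (s := 1)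
    (fun σ hσ => by simpa using (h σ hσ).1) h2 h12
  have a2 := cv_compare (gseq_pos_cont m).2 (r := -1) (s := -cvr m)
    (fun σ hσ => by simpa using (h σ hσ).2) h2 h12
  constructor <;> linarith

lemma cv_P (m : ℕ) :
    ∀ σ, 0 < σ → gseq m (cvC σ) ≤ cvr m * cvG σ ∧ cvG σ ≤ cvr m * gseq m (cvC σ) := by
  induction m with
  | zero =>
    intro σ hσ
    have h1 := cvC_pos σ
    have h2 := one_lt_cvP hσ
    have h3 := cv_half le_rfl hσ.le
    rw [cvC_zero, cvP_zero] at h3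
    have h4 := cvG_ge hσ
    have h5 := cvG_pos hσ
    have h6 : cvr 0 = 3 := by rw [cvr]; norm_num
    rw [h6]
    refine ⟨by simp only [gseq]; linarith, ?_⟩
    simp only [gseq]
    rw [cvG_eq hσ, mul_one_div]
    have : (1 - cvC σ) / (cvP σ - 1) ≤ 2 := by
      rw [div_le_iff₀ (by linarith)]; linarith
    gcongr
    linarith
  | succ m ih =>
    intro σ hσ
    have h1 := cvC_pos σ
    have h2 := one_lt_cvP hσ
    have h3 := cv_half le_rfl hσ.le
    have h4 := cvC_lt_one hσ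
    obtain ⟨a1, a2⟩ := cv_incr ih le_rfl hσ.le
    rw [cvC_zero, cvP_zero] at h3 a1 a2
    set Φ := ∫ u in cvC σ..1, gseq m u with hΦ
    have hr := one_le_cvr m
    have hΦ0 : 0 < Φ := by
      by_contra hc
      have : cvr m * Φ ≤ 0 := mul_nonpos_of_nonneg_of_nonpos (by linarith) (not_lt.1 hc)
      linarith
    have e1 : ∫ θ in (0 : ℝ)..1, gseq m (1 - θ + θ * cvC σ) = Φ / (1 - cvC σ) := by
      have := cv_affine (gseq m) h4.ne
      rw [intervalIntegral.integral_symm (cvC σ) 1, ← hΦ, ← neg_sub 1 (cvC σ), neg_div_neg_eq]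
        at this
      rw [← this]
      congr 1
      funext θ
      congr 1
      ring
    have e2 : gseq (m + 1) (cvC σ) = (1 + (1 - cvC σ) / Φ) / (2 * cvC σ) := by
      simp only [gseq]
      rw [e1, one_div_div]
    have hA : 0 < 1 - cvC σ := by linarith
    have hB : 0 < cvP σ - 1 := by linarith
    obtain ⟨b1, b2⟩ := cv_step (b := (1 - cvC σ) / (cvP σ - 1)) (b' := (1 - cvC σ) / Φ) hr
      (by rw [div_le_iff₀ hB]; linarith)
      (by
        rw [← mul_div_assoc, div_le_div_iff₀ hΦ0 hB]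
        nlinarith [mul_le_mul_of_nonneg_left a2 hA.le])
      (by
        rw [← mul_div_assoc, div_le_div_iff₀ hB hΦ0]
        nlinarith [mul_le_mul_of_nonneg_left a1 hA.le])
    rw [e2, cvG_eq hσ, cvr_succ, ← mul_div_assoc, ← mul_div_assoc]
    constructor <;> gcongr

lemma cv_tendsto_g {σ : ℝ} (hσ : 0 < σ) :
    Tendsto (fun m => gseq m (cvC σ)) atTop (𝓝 (cvG σ)) :=
  cv_squeeze (fun m => (cv_P m σ hσ).1) (fun m => (cv_P m σ hσ).2)

lemma cv_tendsto_int {σ₁ σ₂ : ℝ} (h1 : 0 ≤ σ₁) (h2 : 0 ≤ σ₂) :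
    Tendsto (fun m => ∫ u in cvC σ₁..cvC σ₂, gseq m u) atTop (𝓝 (cvP σ₁ - cvP σ₂)) := by
  rcases le_total σ₂ σ₁ with h | h
  · exact cv_squeeze (fun m => (cv_incr (cv_P m) h2 h).1) (fun m => (cv_incr (cv_P m) h2 h).2)
  · have := (cv_squeeze (fun m => (cv_incr (cv_P m) h1 h).1)
      (fun m => (cv_incr (cv_P m) h1 h).2)).neg
    rw [neg_sub] at this
    refine this.congr fun m => ?_
    rw [intervalIntegral.integral_symm, neg_neg]

lemma cv_LM {x y : ℝ} (hx : 0 < x) (hy : 0 < y) :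
    x + y = 2 * LM x y * cvP ((Real.log x - Real.log y) / 2) ∧
      x * y = LM x y ^ 2 * cvC ((Real.log x - Real.log y) / 2) := by
  obtain ⟨a, rfl⟩ : ∃ a, x = Real.exp (2 * a) := ⟨Real.log x / 2, by
    rw [mul_div_cancel₀ _ two_ne_zero, Real.exp_log hx]⟩
  obtain ⟨b, rfl⟩ : ∃ b, y = Real.exp (2 * b) := ⟨Real.log y / 2, by
    rw [mul_div_cancel₀ _ two_ne_zero, Real.exp_log hy]⟩
  have hs : (Real.log (Real.exp (2 * a)) - Real.log (Real.exp (2 * b))) / 2 = a - b := by
    rw [Real.log_exp, Real.log_exp]; ring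
  have hu := Real.exp_pos a
  have hv := Real.exp_pos b
  have ea : Real.exp (2 * a) = Real.exp a ^ 2 := by rw [← Real.exp_nat_mul]; norm_num
  have eb : Real.exp (2 * b) = Real.exp b ^ 2 := by rw [← Real.exp_nat_mul]; norm_num
  have hL : LM (Real.exp (2 * a)) (Real.exp (2 * b)) = Real.exp a * Real.exp b * cvS (a - b) := by
    by_cases hab : a = b
    · subst hab
      rw [LM_self, sub_self, cvS_zero, ea]; ring
    · have h1 := LM_mul_log hx hy
      rw [Real.log_exp, Real.log_exp] at h1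
      have h2 : a - b ≠ 0 := sub_ne_zero.2 hab
      rw [cvS_of_ne h2, Real.sinh_eq, Real.exp_neg, Real.exp_sub]
      have h3 : LM (Real.exp (2 * a)) (Real.exp (2 * b)) =
          (Real.exp (2 * a) - Real.exp (2 * b)) / (2 * (a - b)) := by
        rw [eq_div_iff (mul_ne_zero two_ne_zero h2), ← h1]; ring
      rw [h3, ea, eb]
      field_simp
  have hS := (cvS_pos (a - b)).ne'
  rw [hs, hL, cvP, cvC, Real.cosh_eq, Real.exp_neg, Real.exp_sub, ea, eb]
  constructor <;> field_simp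

lemma cv_bet {t : ℝ} (ht : 0 < t) : Real.log (t + 1) - Real.log t = bet t := by
  rw [bet, ← Real.log_div (by linarith) ht.ne']
  congr 1
  field_simp

lemma cv_thermal {t : ℝ} (ht : 0 < t) :
    bet t * (2 * t + 1) = 2 * cvP (bet t / 2) ∧ Cb t = cvC (bet t / 2) := by
  have h1 : 0 < t + 1 := by linarith
  obtain ⟨a1, a2⟩ := cv_LM h1 ht
  have a3 := LM_mul_log h1 ht
  rw [cv_bet ht] at a1 a2 a3
  have a4 : LM (t + 1) t * bet t = 1 := by linarith
  constructor
  · calc bet t * (2 * t + 1) = bet t * (t + 1 + t) := by ring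
      _ = 2 * (LM (t + 1) t * bet t) * cvP (bet t / 2) := by rw [a1]; ring
      _ = _ := by rw [a4]; ring
  · calc Cb t = bet t ^ 2 * ((t + 1) * t) := by rw [Cb]; ring
      _ = (LM (t + 1) t * bet t) ^ 2 * cvC (bet t / 2) := by rw [a2]; ring
      _ = _ := by rw [a4]; ring

lemma cv_netv_tendsto {D1 D2 L q : ℝ} {qm : ℕ → ℝ} (h1 : 0 < D1) (h2 : 0 < D2) (hL : 0 < L)
    (hq : 0 < q) (h : Tendsto qm atTop (𝓝 q)) :
    Tendsto (fun m => netv D1 D2 (L / qm m)) atTop (𝓝 (netv D1 D2 (L / q))) := by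
  have hk : Tendsto (fun m => L / qm m) atTop (𝓝 (L / q)) := tendsto_const_nhds.div h hq.ne'
  have hc : ContinuousAt (fun k => netv D1 D2 k) (L / q) := by
    unfold netv
    refine ContinuousAt.div (by fun_prop) (by fun_prop) ?_
    positivity
  exact hc.tendsto.comp hk

theorem tendsto_net {t x y : ℝ} (ht : 0 < t) (hx : 0 < x) (hy : 0 < y) :
    Tendsto (fun m => net m t x y) atTop (𝓝 (Mk t x y)) := by
  have hβ := bet_pos ht
  have hL := LM_pos hx hy
  have ht1 : 0 < t + 1 := by linarith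
  obtain ⟨a1, a2⟩ := cv_LM hx hy
  have a3 := LM_mul_log hx hy
  obtain ⟨b1, b2⟩ := cv_thermal ht
  have c1 := LM_mul_log (mul_pos ht hx) (mul_pos ht1 hy)
  have c2 : Real.log (t * x) - Real.log ((t + 1) * y) = Real.log x - Real.log y - bet t := by
    rw [Real.log_mul ht.ne' hx.ne', Real.log_mul ht1.ne' hy.ne', ← cv_bet ht]; ring
  rw [c2] at c1
  have hD1 : 0 < x + bet t * (t + 1) * LM x y := by positivity
  have hD2 : 0 < y + bet t * t * LM x y := by positivity
  set s := Real.log x - Real.log y with hs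
  set L := LM x y with hLdef
  set β := bet t with hβdef
  have a4 : x * y / L ^ 2 = cvC |s / 2| := by
    rw [cvC_abs, a2]; field_simp
  have hτ : 0 < β / 2 := by linarith
  have hnet : ∀ m, net m t x y = netv (x + β * (t + 1) * L) (y + β * t * L)
      (L / ∫ θ in (0 : ℝ)..1, gseq m (θ * cvC |s / 2| + (1 - θ) * cvC (β / 2))) := by
    intro m
    rw [net, kapg, ← hLdef, ← hβdef, a4, b2]
  simp only [hnet]
  have eP := cvP_abs (s / 2)
  have eC := cvC_abs (s / 2)
  have eC1 := cvC_eq (s / 2)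
  have eC2 := cvC_eq (β / 2)
  have hxe : x = L * (cvP (s / 2) + s / 2) := by linarith
  have hye : y = L * (cvP (s / 2) - s / 2) := by linarith
  have ht1e : β * (t + 1) = cvP (β / 2) + β / 2 := by linarith
  have ht0e : β * t = cvP (β / 2) - β / 2 := by linarith
  have hM : Mk t x y * (s - β) = L * (cvP (β / 2) * s - β * cvP (s / 2)) := by
    rw [Mk, ← hβdef, mul_assoc, c1]
    calc β * (t * x - (t + 1) * y) = β * t * x - β * (t + 1) * y := by ring
      _ = _ := by rw [ht0e, ht1e, hxe, hye]; ring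
  by_cases hστ : |s / 2| = β / 2
  · have hq := cvG_pos hτ
    have hlim : Tendsto (fun m => ∫ θ in (0 : ℝ)..1,
        gseq m (θ * cvC |s / 2| + (1 - θ) * cvC (β / 2))) atTop (𝓝 (cvG (β / 2))) := by
      refine (cv_tendsto_g hτ).congr fun m => ?_
      have : ∀ θ : ℝ, θ * cvC |s / 2| + (1 - θ) * cvC (β / 2) = cvC (β / 2) := fun θ => by
        rw [hστ]; ring
      simp [this]
    have hfin : netv (x + β * (t + 1) * L) (y + β * t * L) (L / cvG (β / 2)) = Mk t x y := by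
      have hden : 0 < x + β * (t + 1) * L + (y + β * t * L) + 2 * (L / cvG (β / 2)) := by
        positivity
      rw [netv, div_eq_iff hden.ne']
      rw [hστ] at eP
      rw [← eP] at hxe hye hM
      have hT := one_lt_cvP hτ
      have hC0 := cvC_pos (β / 2)
      have hC1 := cvC_lt_one hτ
      rcases abs_eq hτ.le |>.1 hστ with h | h
      · have hsβ : s = β := by linarith
        have h0 : t * x = (t + 1) * y := by
          rw [hsβ, sub_self, mul_zero] at c1
          linarith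
        have hMk : Mk t x y = L * cvC (β / 2) := by
          rw [Mk, ← h0, LM_self, ← hβdef, ← mul_assoc, ht0e, hxe, hsβ, eC2]; ring
        have hG : L / cvG (β / 2) = L * (2 * cvC (β / 2) * (cvP (β / 2) - 1)) /
            (cvP (β / 2) - cvC (β / 2)) := by
          rw [cvG, div_div_eq_mul_div]
        have hne : cvP (β / 2) - cvC (β / 2) ≠ 0 := by linarith
        have hβ2 : β ^ 2 = 4 * (cvP (β / 2) ^ 2 - cvC (β / 2)) := by rw [eC2]; ring
        rw [hMk, hG, ht0e, ht1e, hxe, hye, hsβ]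
        generalize cvP (β / 2) = T at *
        generalize cvC (β / 2) = C at *
        field_simp
        linear_combination (-4 * (T - C)) * hβ2
      · have hsβ : s = -β := by linarith
        have hMk : Mk t x y = L * cvP (β / 2) := by
          rw [hsβ] at hM
          have : (Mk t x y - L * cvP (β / 2)) * β = 0 := by linarith
          rcases mul_eq_zero.1 this with h' | h'
          · linarith
          · linarith
        rw [hMk, ht0e, ht1e, hxe, hye, hsβ]
        ring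
    rw [← hfin]
    exact cv_netv_tendsto hD1 hD2 hL hq hlim
  · have hσ0 : 0 ≤ |s / 2| := abs_nonneg _
    have hCne : cvC |s / 2| ≠ cvC (β / 2) := fun h =>
      hστ (cvC_strictAnti.injOn hσ0 hτ.le h)
    have hq : 0 < (cvP (β / 2) - cvP |s / 2|) / (cvC |s / 2| - cvC (β / 2)) := by
      rcases lt_or_gt_of_ne hστ with h | h
      · have h1 := cvC_strictAnti hσ0 hτ.le h
        have h2 := cv_half hσ0 h.le
        exact div_pos (by linarith) (by linarith)
      · have h1 := cvC_strictAnti hτ.le hσ0 h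
        have h2 := cv_half hτ.le h.le
        exact div_pos_of_neg_of_neg (by linarith) (by linarith)
    have hlim : Tendsto (fun m => ∫ θ in (0 : ℝ)..1,
        gseq m (θ * cvC |s / 2| + (1 - θ) * cvC (β / 2))) atTop
        (𝓝 ((cvP (β / 2) - cvP |s / 2|) / (cvC |s / 2| - cvC (β / 2)))) := by
      refine ((cv_tendsto_int hτ.le hσ0).div_const _).congr fun m => ?_
      rw [cv_affine _ hCne]
    have hfin : netv (x + β * (t + 1) * L) (y + β * t * L)
        (L / ((cvP (β / 2) - cvP |s / 2|) / (cvC |s / 2| - cvC (β / 2)))) = Mk t x y := by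
      have hden : 0 < x + β * (t + 1) * L + (y + β * t * L) +
          2 * (L / ((cvP (β / 2) - cvP |s / 2|) / (cvC |s / 2| - cvC (β / 2)))) := by
        positivity
      rw [netv, div_eq_iff hden.ne']
      have hPne : cvP (β / 2) - cvP |s / 2| ≠ 0 := fun h => by
        rw [h, zero_div] at hq
        exact lt_irrefl _ hq
      have hsβ : s - β ≠ 0 := fun h => hστ (by
        have : s = β := by linarith
        rw [this, abs_of_pos hτ])
      have hMk : Mk t x y = L * (cvP (β / 2) * s - β * cvP (s / 2)) / (s - β) := by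
        rw [eq_div_iff hsβ, hM]
      rw [eP] at hPne
      rw [hMk, div_div_eq_mul_div, eP, eC, eC1, eC2, ht0e, ht1e, hxe, hye]
      generalize cvP (β / 2) = T at *
      generalize cvP (s / 2) = P at *
      field_simp
      ring
    rw [← hfin]
    exact cv_netv_tendsto hD1 hD2 hL hq hlim

end Crest.Agent.R331
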