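import Crest.Agent.R331.KeyM

/-!
Row 331: the three one-mode estimates at a minimiser (task ONEMODE).
Notation: `β = bet tc`, `α = trace (ρA a)`, `b̄ = trace (ρB b)`, `c̄ = √η α + √(1-η) b̄`,
`|c̄|² = η|α|² + (1-η)|b̄|² + 2√η√(1-η) Re (conj α b̄) ≤ |α|² + |b̄|²`, `λ_X β_X = 2γβ + (1-γ) η_X β`.
By `fis_expand` and `fis_eq_del`,
(†) `I' = ∑ λ_X β_X M_X⁻¹[δ0_X] + 2γβ(|α|²+|b̄|²) + (1-γ) β |c̄|² + γ' diss + e₁`, `|e₁| ≤ (12+4β)R³(..)`.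
-/

set_option autoImplicit false
set_option linter.unusedSectionVars false

open Matrix Set Filter Topology Crest.Agent.R342 Crest.Agent.R332 Crest.MathPhysics.Bosonic
open scoped ComplexOrder Kronecker Matrix.Norms.Frobenius

namespace Crest.Agent.R331

variable {ι ι' κ : Type} [Fintype ι] [DecidableEq ι] [Fintype ι'] [DecidableEq ι']
  [Fintype κ] [DecidableEq κ]

variable {η tA tB γ γ' R : ℝ} {Θ : Matrix κ κ ℂ →ₗ[ℂ] Matrix (ι × ι') (ι × ι') ℂ}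
  {ρA a Qa YA : Matrix ι ι ℂ} {ρB b Qb YB : Matrix ι' ι' ℂ} {ρC ω ρ' c : Matrix κ κ ℂ}

lemma om_ip_smul (s : ℝ) (X Y : Matrix ι ι ℂ) : ip X (s • Y) = s * ip X Y := by
  simp [ip]

lemma om_ip_neg (X Y : Matrix ι ι ℂ) : ip (-X) Y = -ip X Y := by
  simp [ip]

lemma om_young {k : ℝ → ℝ → ℝ} {ρ : Matrix ι ι ℂ} (h : ∀ i j, 0 < k (ev ρ i) (ev ρ j)) (s : ℝ)
    (X Y : Matrix ι ι ℂ) :
    2 * s * (ip X Y).re ≤ kf k ρ X + s ^ 2 * kf (fun x y => 1 / k x y) ρ Y := by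
  have h1 := two_re_ip_le h X (s • Y)
  rw [om_ip_smul, kf_rsmul, Complex.re_ofReal_mul] at h1
  linarith

lemma om_re_le (u v : ℂ) : (star u * v).re ≤ ‖u‖ * ‖v‖ :=
  (Complex.re_le_norm _).trans (by rw [norm_mul, norm_star])

lemma om_cbar {η : ℝ} (h0 : 0 ≤ η) (h1 : η ≤ 1) (u v : ℂ) :
    ‖(√η : ℝ) * u + (√(1 - η) : ℝ) * v‖ ^ 2 =
      η * ‖u‖ ^ 2 + (1 - η) * ‖v‖ ^ 2 + 2 * √η * √(1 - η) * (star u * v).re := by
  have e1 := Real.sq_sqrt h0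
  have e2 := Real.sq_sqrt (sub_nonneg.2 h1)
  simp only [Complex.sq_norm, Complex.normSq_apply, Complex.add_re, Complex.add_im, Complex.re_ofReal_mul,
    Complex.im_ofReal_mul, Complex.mul_re, Complex.star_def, Complex.conj_re, Complex.conj_im,
    Complex.ofReal_re, Complex.ofReal_im]
  linear_combination (u.re * u.re + u.im * u.im) * e1 + (v.re * v.re + v.im * v.im) * e2

lemma om_cbar_le {η : ℝ} (h0 : 0 ≤ η) (h1 : η ≤ 1) (u v : ℂ) :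
    ‖(√η : ℝ) * u + (√(1 - η) : ℝ) * v‖ ^ 2 ≤ ‖u‖ ^ 2 + ‖v‖ ^ 2 := by
  have e1 := Real.sq_sqrt h0
  have e2 := Real.sq_sqrt (sub_nonneg.2 h1)
  have e3 := mul_le_mul_of_nonneg_left (om_re_le u v) (by positivity : 0 ≤ 2 * √η * √(1 - η))
  have e4 : (√(1 - η) * ‖u‖ - √η * ‖v‖) ^ 2 =
      (1 - η) * ‖u‖ ^ 2 + η * ‖v‖ ^ 2 - 2 * √η * √(1 - η) * (‖u‖ * ‖v‖) := by
    linear_combination ‖u‖ ^ 2 * e2 + ‖v‖ ^ 2 * e1
  rw [om_cbar h0 h1]
  nlinarith [sq_nonneg (√(1 - η) * ‖u‖ - √η * ‖v‖)]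

lemma om_lam {e t tc γ : ℝ} (ht : 0 < t) :
    lamr e t tc γ * bet t = 2 * γ * bet tc + (1 - γ) * e * bet tc :=
  div_mul_cancel₀ _ (bet_pos ht).ne'

lemma om_thr {e t tc γ : ℝ} (h0 : 0 ≤ e) (ht : 0 < t) (htc : 0 < tc) (hγ : 0 < γ) (hγ1 : γ < 1) :
    lamr e t tc γ * bet t * thr e t tc γ = (1 - γ) ^ 2 * e * bet tc := by
  have h1 := (lamr_pos h0 ht htc hγ hγ1).ne'
  have h2 := (bet_pos ht).ne'
  unfold thr lam0
  field_simp

lemma om_gapk (θ ν t : ℝ) (ρ Z : Matrix ι ι ℂ) : kf (gapk θ ν t) ρ Z =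
    kf (fun x y => 1 / Mk t x y) ρ Z - θ * kf (fun x y => 1 / (θ * Mk t x y + ν * hk x y)) ρ Z := by
  have h := kf_lin 1 (-θ) (fun x y => 1 / Mk t x y) (fun x y => 1 / (θ * Mk t x y + ν * hk x y)) ρ Z
  rw [one_mul, neg_mul, ← sub_eq_add_neg] at h
  rw [← h]
  exact kf_congr (fun i j => by unfold gapk; ring) Z

lemma Crit.om_tc (h : Crit η tA tB γ γ' R Θ ρA a Qa YA ρB b Qb YB ρC ω ρ' c) : 0 < tC η tA tB :=
  tC_pos h.η0.le h.η1.le h.tA0 h.tB0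

lemma Crit.om_bdry (h : Crit η tA tB γ γ' R Θ ρA a Qa YA ρB b Qb YB ρC ω ρ' c) :
    40 * (1 + bet (tC η tA tB)) * (R ^ 3 * (tA * √(rtr (ρA * Qa)) + tB * √(rtr (ρB * Qb)))) ≤
      bdry η tA tB R ρA Qa ρB Qb := by
  have := bet_pos h.om_tc
  have := h.tA0
  have := h.tB0
  have := h.R1
  have h1 : tA * √(rtr (ρA * Qa)) + tB * √(rtr (ρB * Qb)) ≤
      (tA + tB) * (√(rtr (ρA * Qa)) + √(rtr (ρB * Qb))) := by
    nlinarith [mul_nonneg h.tA0.le (Real.sqrt_nonneg (rtr (ρB * Qb))),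
      mul_nonneg h.tB0.le (Real.sqrt_nonneg (rtr (ρA * Qa)))]
  calc _ ≤ 40 * (1 + bet (tC η tA tB)) * (R ^ 3 * ((tA + tB) * (√(rtr (ρA * Qa)) + √(rtr (ρB * Qb))))) := by
        gcongr
    _ = _ := by unfold bdry; ring

/-- (†) -/
lemma Crit.om_dagger (h : Crit η tA tB γ γ' R Θ ρA a Qa YA ρB b Qb YB ρC ω ρ' c) :
    lamr η tA (tC η tA tB) γ * bet tA * kf (fun x y => 1 / Mk tA x y) ρA (del0 tA ρA a)
      + lamr (1 - η) tB (tC η tA tB) γ * bet tB * kf (fun x y => 1 / Mk tB x y) ρB (del0 tB ρB b)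
      + γ' * ((ip YA (del tA ρA a)).re + (ip YB (del tB ρB b)).re)
      + 2 * (γ * bet (tC η tA tB) * (‖trace (ρA * a)‖ ^ 2 + ‖trace (ρB * b)‖ ^ 2))
      + (1 - γ) * bet (tC η tA tB) *
        ‖(√η : ℝ) * trace (ρA * a) + (√(1 - η) : ℝ) * trace (ρB * b)‖ ^ 2
      ≤ fis (tC η tA tB) ρ' c + (12 + 4 * bet (tC η tA tB)) *
        (R ^ 3 * (tA * √(rtr (ρA * Qa)) + tB * √(rtr (ρB * Qb)))) := by
  have h1 := (abs_le.1 h.fis_expand).1
  rw [fis_eq_del h.tA0 h.dA, fis_eq_del h.tB0 h.dB, ← mul_assoc, ← mul_assoc, mul_add (_ * bet tA),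
    mul_add (_ * bet tB)] at h1
  have e1 := om_lam (e := η) (tc := tC η tA tB) (γ := γ) h.tA0
  have e2 := om_lam (e := 1 - η) (tc := tC η tA tB) (γ := γ) h.tB0
  rw [om_cbar h.η0.le h.η1.le]
  linear_combination h1 - ‖trace (ρA * a)‖ ^ 2 * e1 - ‖trace (ρB * b)‖ ^ 2 * e2

lemma Crit.om_pair (h : Crit η tA tB γ γ' R Θ ρA a Qa YA ρB b Qb YB ρC ω ρ' c) {Z : Matrix κ κ ℂ}
    {r : ℝ} (hZ : OpLe Z r) :
    (ip Z (del (tC η tA tB) ρ' c)).re ≤ (1 - γ) *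
      (√η * (ip (cen ρA (pA ρB (Θ Z))) (del0 tA ρA a)).re
      + √(1 - η) * (ip (cen ρB (pB ρA (Θ Z))) (del0 tB ρB b)).re
      + (star (trace (ρC * Z)) * ((√η : ℝ) * trace (ρA * a) + (√(1 - η) : ℝ) * trace (ρB * b))).re
      + 4 * R * r * (tA * √(rtr (ρA * Qa)) + tB * √(rtr (ρB * Qb)))) := by
  have h1 := (Complex.re_le_norm _).trans (pair_del h.η0.le h.η1.le h.tA0.le h.tB0.le h.chan h.mode
    h.dA.dens h.dB.dens h.out h.Ra h.Rb h.Rc hZ)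
  rw [ip_del_split h.dA.dens, ip_del_split h.dB.dens, trace_pA, trace_pB, ← h.out] at h1
  rw [h.del_mix, om_ip_smul, Complex.re_ofReal_mul]
  refine mul_le_mul_of_nonneg_left ?_ (sub_nonneg.2 h.γ1.le)
  rw [mul_add (star _), mul_left_comm (star _), mul_left_comm (star _)]
  simp only [mul_add, Complex.sub_re, Complex.add_re, Complex.re_ofReal_mul] at h1 ⊢
  linarith

/-- Let `Y = -(1/β) • zed tc ρ' c`.  By `fis_eq_zed`, `M'[Y] = I'/β = Re ip Y δ'`, so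
`I'/β = 2 Re ip Y δ' - M'[Y]`.  `del_mix`, `pair_del` (with `opLe_zed`) and `ip_del_split`
(`trace (ρA * pA ρB (ΘY)) = trace (ρC Y) =: y_C` by `trace_pA`) give
`ip Y δ' = (1-γ)(√η ip ξA δ0A + √(1-η) ip ξB δ0B + conj y_C c̄) + err`, `|err| ≤ 4(2+β)R³(..)/β`,
and `y_C = y' + γ φ` with `y' = trace (ρ' Y)`, `φ = y_C - trace (ω Y)`.  Insert `Crit.key` and use
Young (`two_re_ip_le`, scaled): `I'/β ≤ (1-γ)²|c̄|² + 2γ(1-γ)|c̄|² + ∑ (1-γ)² η_X k_X⁻¹[δ0_X] + 2|err|`,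
`k_X = θ_X M_X + ν_X h`, `(1-γ)² η_X β = λ_X β_X θ_X`.  Subtract from (†). -/
theorem Crit.gap (h : Crit η tA tB γ γ' R Θ ρA a Qa YA ρB b Qb YB ρC ω ρ' c) :
    lamr η tA (tC η tA tB) γ * bet tA *
        kf (gapk (thr η tA (tC η tA tB) γ) (1 - γ - thr η tA (tC η tA tB) γ) tA) ρA (del0 tA ρA a)
      + lamr (1 - η) tB (tC η tA tB) γ * bet tB *
        kf (gapk (thr (1 - η) tB (tC η tA tB) γ) (1 - γ - thr (1 - η) tB (tC η tA tB) γ) tB) ρB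
          (del0 tB ρB b)
      + γ * bet (tC η tA tB) * (‖trace (ρA * a)‖ ^ 2 + ‖trace (ρB * b)‖ ^ 2)
      + γ' * ((ip YA (del tA ρA a)).re + (ip YB (del tB ρB b)).re)
      ≤ bdry η tA tB R ρA Qa ρB Qb := by
  have htc := h.om_tc
  have hβ := bet_pos htc
  have hη' : 0 < 1 - η := sub_pos.2 h.η1
  have hγ' : 0 < 1 - γ := sub_pos.2 h.γ1
  have hγ := h.γ0
  have hR := h.R1
  have d1 := h.om_dagger
  have d2 := h.om_bdry
  have d3 := h.om_pair h.opLe_zed.neg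
  have d4 := h.key (-zed (tC η tA tB) ρ' c)
  have d5 : kf (Mk (tC η tA tB)) ρ' (-zed (tC η tA tB) ρ' c) =
      bet (tC η tA tB) * fis (tC η tA tB) ρ' c := by
    rw [(fis_eq_zed htc h.fdens.1 c).1, ← neg_one_smul ℝ, kf_rsmul]
    ring
  rw [om_ip_neg, Complex.neg_re, ← fis] at d3
  rw [d5] at d4
  have pos : ∀ {e t : ℝ} (_ : 0 < e) (_ : 0 < t) {x y : ℝ} (_ : 0 < x) (_ : 0 < y),
      0 < thr e t (tC η tA tB) γ * Mk t x y + (1 - γ - thr e t (tC η tA tB) γ) * hk x y :=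
    fun he ht _ _ hx hy => add_pos (mul_pos (thr_pos he ht htc hγ h.γ1) (Mk_pos ht hx hy))
      (mul_pos (sub_pos.2 (thr_lt he ht htc hγ h.γ1)) (hk_pos hx hy))
  have yA := om_young (k := fun x y => thr η tA (tC η tA tB) γ * Mk tA x y
      + (1 - γ - thr η tA (tC η tA tB) γ) * hk x y) (ρ := ρA)
    (fun i j => pos h.η0 h.tA0 (ev_pos h.dA.1 i) (ev_pos h.dA.1 j))
    (bet (tC η tA tB) * (1 - γ) * √η) (cen ρA (pA ρB (Θ (-zed (tC η tA tB) ρ' c)))) (del0 tA ρA a)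
  have yB := om_young (k := fun x y => thr (1 - η) tB (tC η tA tB) γ * Mk tB x y
      + (1 - γ - thr (1 - η) tB (tC η tA tB) γ) * hk x y) (ρ := ρB)
    (fun i j => pos hη' h.tB0 (ev_pos h.dB.1 i) (ev_pos h.dB.1 j))
    (bet (tC η tA tB) * (1 - γ) * √(1 - η)) (cen ρB (pB ρA (Θ (-zed (tC η tA tB) ρ' c))))
    (del0 tB ρB b)
  rw [mul_pow, Real.sq_sqrt h.η0.le] at yA
  rw [mul_pow, Real.sq_sqrt hη'.le] at yB
  have tA' := om_thr h.η0.le h.tA0 htc hγ h.γ1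
  have tB' := om_thr hη'.le h.tB0 htc hγ h.γ1
  have hcb := om_cbar_le h.η0.le h.η1.le (trace (ρA * a)) (trace (ρB * b))
  have hy : trace (ρC * -zed (tC η tA tB) ρ' c) = trace (ρ' * -zed (tC η tA tB) ρ' c) +
      (γ : ℂ) * (trace (ρC * -zed (tC η tA tB) ρ' c) - trace (ω * -zed (tC η tA tB) ρ' c)) := by
    generalize -zed (tC η tA tB) ρ' c = Z
    rw [h.mix, add_mul, smul_mul_assoc, smul_mul_assoc, trace_add, trace_smul, trace_smul,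
      Complex.real_smul, Complex.real_smul]
    push_cast
    ring
  rw [om_gapk, om_gapk, mul_sub, mul_sub, ← mul_assoc, ← mul_assoc, tA', tB']
  have hE : 0 ≤ R ^ 3 * (tA * √(rtr (ρA * Qa)) + tB * √(rtr (ρB * Qb))) := by
    have := h.tA0
    have := h.tB0
    positivity
  generalize trace (ρC * -zed (tC η tA tB) ρ' c) - trace (ω * -zed (tC η tA tB) ρ' c) = φ at hy d4
  rw [hy] at d3
  generalize trace (ρ' * -zed (tC η tA tB) ρ' c) = y' at d3 d4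
  generalize (√η : ℝ) * trace (ρA * a) + (√(1 - η) : ℝ) * trace (ρB * b) = cb at d1 d3 hcb
  have e1 : (star (y' + γ * φ) * cb).re ≤ ‖y'‖ * ‖cb‖ + γ * (‖φ‖ * ‖cb‖) := by
    rw [star_add, star_mul', add_mul, mul_assoc, Complex.add_re, Complex.star_def, Complex.conj_ofReal,
      Complex.re_ofReal_mul]
    exact add_le_add (om_re_le _ _) (mul_le_mul_of_nonneg_left (om_re_le _ _) hγ.le)
  set β := bet (tC η tA tB)
  set E := tA * √(rtr (ρA * Qa)) + tB * √(rtr (ρB * Qb))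
  set I := fis (tC η tA tB) ρ' c
  set nA := kf (fun x y => 1 / (thr η tA (tC η tA tB) γ * Mk tA x y
      + (1 - γ - thr η tA (tC η tA tB) γ) * hk x y)) ρA (del0 tA ρA a)
  set nB := kf (fun x y => 1 / (thr (1 - η) tB (tC η tA tB) γ * Mk tB x y
      + (1 - γ - thr (1 - η) tB (tC η tA tB) γ) * hk x y)) ρB (del0 tB ρB b)
  have e2 : β * I ≤ β * ((1 - γ) ^ 2 * η * β * nA + (1 - γ) ^ 2 * (1 - η) * β * nB
      + (1 - γ) * (1 + γ) * β * ‖cb‖ ^ 2 + (1 - γ) * (16 + 8 * β) * (R ^ 3 * E)) := by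
    have f1 := mul_le_mul_of_nonneg_left d3 (by positivity : 0 ≤ 2 * β)
    have f2 := mul_le_mul_of_nonneg_left e1 (by positivity : 0 ≤ 2 * β * (1 - γ))
    have f3 := sq_nonneg (‖y'‖ - β * (1 - γ) * ‖cb‖)
    have f4 := mul_nonneg (by positivity : 0 ≤ γ * (1 - γ) / 2) (sq_nonneg (‖φ‖ - 2 * β * ‖cb‖))
    linear_combination f1 + f2 + f3 + f4 + d4 + yA + yB
  have e3 := le_of_mul_le_mul_left e2 hβ
  have e4 := mul_le_mul_of_nonneg_left hcb (by positivity : 0 ≤ γ * β)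
  have e5 : 0 ≤ γ * γ * β * ‖cb‖ ^ 2 := by positivity
  have e6 : 0 ≤ γ * (16 + 8 * β) * (R ^ 3 * E) := by positivity
  have e7 : 0 ≤ (12 + 28 * β) * (R ^ 3 * E) := by positivity
  linear_combination d1 + d2 + e3 + e4 + e5 + e6 + e7

/-- immediate from (†) -/
theorem Crit.fis_bound (h : Crit η tA tB γ γ' R Θ ρA a Qa YA ρB b Qb YB ρC ω ρ' c) :
    lamr η tA (tC η tA tB) γ * bet tA * kf (fun x y => 1 / Mk tA x y) ρA (del0 tA ρA a)
      + lamr (1 - η) tB (tC η tA tB) γ * bet tB * kf (fun x y => 1 / Mk tB x y) ρB (del0 tB ρB b)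
      + γ' * ((ip YA (del tA ρA a)).re + (ip YB (del tB ρB b)).re)
      ≤ fis (tC η tA tB) ρ' c + bdry η tA tB R ρA Qa ρB Qb := by
  have hβ := bet_pos h.om_tc
  have hγ' : 0 < 1 - γ := sub_pos.2 h.γ1
  have hγ := h.γ0
  have hR := h.R1
  have := h.tA0
  have := h.tB0
  have e1 : 0 ≤ γ * bet (tC η tA tB) * (‖trace (ρA * a)‖ ^ 2 + ‖trace (ρB * b)‖ ^ 2) := by positivity
  have e2 : 0 ≤ (1 - γ) * bet (tC η tA tB) *
    ‖(√η : ℝ) * trace (ρA * a) + (√(1 - η) : ℝ) * trace (ρB * b)‖ ^ 2 := by positivity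
  have e3 : 0 ≤ (28 + 36 * bet (tC η tA tB)) *
    (R ^ 3 * (tA * √(rtr (ρA * Qa)) + tB * √(rtr (ρB * Qb)))) := by positivity
  linear_combination h.om_dagger + h.om_bdry + 2 * e1 + e2 + e3

lemma om_cs {ρ : Matrix ι ι ℂ} (hρ : ρ.PosDef) {X : Matrix ι ι ℂ} (Y : Matrix ι ι ℂ) {r e : ℝ} (hr : 0 ≤ r)
    (he : e ≤ 1) (h1 : kf (fun x _ => x) ρ X ≤ r * r) (h2 : kf (fun _ y => y) ρ X ≤ r * r) :
    √e * (ip X Y).re ≤ 2 * r * √(kf (fun x y => 1 / (x + y)) ρ Y) := by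
  have h3 := norm_ip_le (k := fun x y => x + y) (fun i j => add_pos (ev_pos hρ i) (ev_pos hρ j)) X Y
  have h4 := kf_lin 1 1 (fun x _ => x) (fun _ y => y) ρ X
  simp only [one_mul] at h4
  have h5 : √(kf (fun x y => x + y) ρ X) ≤ 2 * r :=
    Real.sqrt_le_iff.2 ⟨by positivity, by rw [h4]; nlinarith [mul_nonneg hr hr]⟩
  calc √e * (ip X Y).re ≤ √e * ‖ip X Y‖ := by gcongr; exact Complex.re_le_norm _
    _ ≤ ‖ip X Y‖ := mul_le_of_le_one_left (norm_nonneg _) (Real.sqrt_le_one.2 he)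
    _ ≤ _ := h3.trans (by gcongr)

/-- `Z = δ'`, `r = ‖δ'‖` (`opLe_norm`): `‖δ'‖² = ip δ' δ' = (1-γ) ip Z δC`; `pair_del`, `ip_del_split`,
`norm_ip_le` with `k = x + y`, `kf (x+y) ρA ξA ≤ rtr (ρC ZZᴴ) + rtr (ρC ZᴴZ) ≤ 2 r²` (`hoeffding`,
`hoeffding'`), `‖trace (ρC Z)‖ ≤ r`.  Divide by `r`. -/
theorem Crit.del_norm (h : Crit η tA tB γ γ' R Θ ρA a Qa YA ρB b Qb YB ρC ω ρ' c) :
    ‖del (tC η tA tB) ρ' c‖ ≤
      2 * (√(kf (fun x y => 1 / (x + y)) ρA (del0 tA ρA a))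
        + √(kf (fun x y => 1 / (x + y)) ρB (del0 tB ρB b)))
      + ‖trace (ρA * a)‖ + ‖trace (ρB * b)‖ + bdry η tA tB R ρA Qa ρB Qb := by
  have hβ := bet_pos h.om_tc
  have hR := h.R1
  have := h.tA0
  have := h.tB0
  have d2 := h.om_bdry
  set Z := del (tC η tA tB) ρ' c with hZ
  have hop := opLe_norm Z
  have d3 := h.om_pair hop
  have hr := norm_nonneg Z
  have e0 : (ip Z Z).re = ‖Z‖ ^ 2 := (norm_sq_eq_rtr Z).symm
  rw [← hZ, e0] at d3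
  have g1 := hoeffding h.chan h.dA.dens h.dB.dens h.out Z
  have g2 := hoeffding' h.chan h.dA.dens h.dB.dens h.out Z
  have g3 : rtr (ρC * (Zᴴ * Z)) ≤ ‖Z‖ * ‖Z‖ :=
    (Complex.re_le_norm _).trans (norm_trace_dens_le h.dC (hop.ct.mul hop))
  have g4 : rtr (ρC * (Z * Zᴴ)) ≤ ‖Z‖ * ‖Z‖ :=
    (Complex.re_le_norm _).trans (norm_trace_dens_le h.dC (hop.mul hop.ct))
  have g5 := sq_nonneg ‖trace (ρC * Z)‖
  have a1 := kf_nonneg (k := fun x _ => x) (fun i _ => (ev_pos h.dA.1 i).le) (cen ρA (pA ρB (Θ Z)))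
  have a2 := kf_nonneg (k := fun _ y => y) (fun _ i => (ev_pos h.dA.1 i).le) (cen ρA (pA ρB (Θ Z)))
  have b1 := kf_nonneg (k := fun x _ => x) (fun i _ => (ev_pos h.dB.1 i).le) (cen ρB (pB ρA (Θ Z)))
  have b2 := kf_nonneg (k := fun _ y => y) (fun _ i => (ev_pos h.dB.1 i).le) (cen ρB (pB ρA (Θ Z)))
  have cA := om_cs h.dA.1 (X := cen ρA (pA ρB (Θ Z))) (del0 tA ρA a) hr h.η1.le (by linarith) (by linarith)
  have cB := om_cs h.dB.1 (X := cen ρB (pB ρA (Θ Z))) (del0 tB ρB b) hr (sub_le_self 1 h.η0.le)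
    (by linarith) (by linarith)
  have c1 : ‖(√η : ℝ) * trace (ρA * a) + (√(1 - η) : ℝ) * trace (ρB * b)‖ ≤
      ‖trace (ρA * a)‖ + ‖trace (ρB * b)‖ :=
    le_of_sq_le_sq' ((om_cbar_le h.η0.le h.η1.le _ _).trans
      (by nlinarith [mul_nonneg (norm_nonneg (trace (ρA * a))) (norm_nonneg (trace (ρB * b)))]))
      (by positivity)
  have c2 := (om_re_le _ _).trans (mul_le_mul (norm_trace_dens_le h.dC hop) c1 (norm_nonneg _) hr)
  set E := tA * √(rtr (ρA * Qa)) + tB * √(rtr (ρB * Qb))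
  have hE : 0 ≤ E := by positivity
  have c3 : 4 * R * E ≤ bdry η tA tB R ρA Qa ρB Qb := by
    refine le_trans ?_ d2
    have e1 : R * E ≤ R ^ 3 * E := mul_le_mul_of_nonneg_right (le_self_pow₀ hR (by norm_num)) hE
    have e2 : 0 ≤ (36 + 40 * bet (tC η tA tB)) * (R ^ 3 * E) := by positivity
    linear_combination 4 * e1 + e2
  have c4 := mul_le_mul_of_nonneg_left c3 hr
  have c5 : 0 ≤ 4 * R * E := by positivity
  set B := 2 * (√(kf (fun x y => 1 / (x + y)) ρA (del0 tA ρA a))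
        + √(kf (fun x y => 1 / (x + y)) ρB (del0 tB ρB b)))
      + ‖trace (ρA * a)‖ + ‖trace (ρB * b)‖ + bdry η tA tB R ρA Qa ρB Qb with hB
  have hB0 : 0 ≤ B := by
    have := c5.trans c3
    positivity
  have c6 : ‖Z‖ ^ 2 ≤ (1 - γ) * (‖Z‖ * B) :=
    d3.trans (mul_le_mul_of_nonneg_left (by rw [hB]; linear_combination cA + cB + c2 + c4)
      (sub_nonneg.2 h.γ1.le))
  have c7 : ‖Z‖ * ‖Z‖ ≤ ‖Z‖ * B := by
    have := mul_nonneg h.γ0.le (mul_nonneg hr hB0)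
    linear_combination c6 + this
  rcases hr.eq_or_lt with h0 | h0
  · rw [← h0]
    exact hB0
  · exact le_of_mul_le_mul_left c7 h0

end Crest.Agent.R331
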