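import Crest.Agent.R331.Rel

/-!
Row 331: Euler–Lagrange equation and second variation at a minimiser (task VAR).

`ρ'(τ) = (1-γ) Ψ τ + γ ω`, `F(τ) = ent (ρ'(τ)) - λ ent τ + rtr (τ P)`, `H' = Hm (ρ'(ρ))`,
`G = (1-γ) E H' + P` (Hermitian).  For every density `τ`, writing `D(σ‖σ') = rtr (σ Hm σ') - ent σ`,
`F(τ) - F(ρ) = [rtr (τ G) - λ ent τ] - [rtr (ρ G) - λ ent ρ] - D(ρ'(τ)‖ρ'(ρ))`  (duality + `ent_eq_rtr`).
(i),(ii): take the Gibbs state `τ₀` of `G/λ` (`exists_gibbs`, `Hm τ₀ = G/λ + c`); then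
`rtr (σ G) - λ ent σ = λ D(σ‖τ₀) - λ c` for all densities `σ`, so `0 ≤ F(τ₀) - F(ρ) ≤ -λ D(ρ‖τ₀)`
and `ρ = τ₀` (`eq_of_cross_le`).  Hence `D(ρ'(τ)‖ρ') ≤ λ D(τ‖ρ)` for every density `τ`.
(iii): for Hermitian traceless `X`, `τ = ρ + s X` and `relent_limit` twice (`Ψ X` is Hermitian and
traceless by duality with `E 1 = 1`, `E Zᴴ = (E Z)ᴴ`) give `K'⁻¹[(1-γ) Ψ X] ≤ λ K⁻¹[X]`.
For Hermitian `Z`, `ξ = cen ρ (E Z)` is Hermitian with `trace (ρ ξ) = 0`; take `X` from `exists_kop`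
and `μ = (1-γ)/λ`: `2 (1-γ) μ K[ξ] = 2 Re ip Z ((1-γ) μ Ψ X) ≤ K'[Z] + λ μ² K[ξ]` (`two_re_ip_le`).
General `Z = Z₁ + i Z₂` by `kf_herm_split`.
-/

set_option autoImplicit false
set_option linter.unusedSectionVars false

open Matrix Set Filter Topology Crest.Agent.R342 Crest.Agent.R332 Crest.MathPhysics.Bosonic
open scoped ComplexOrder Kronecker Matrix.Norms.Frobenius

namespace Crest.Agent.R331

variable {ι ι' κ : Type} [Fintype ι] [DecidableEq ι] [Fintype ι'] [DecidableEq ι']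
  [Fintype κ] [DecidableEq κ]

lemma var_herm_rsmul {A : Matrix ι ι ℂ} (hA : A.IsHermitian) (s : ℝ) : (s • A).IsHermitian := by
  unfold Matrix.IsHermitian
  rw [conjTranspose_smul, hA.eq]
  rfl

lemma var_trace_real {A B : Matrix ι ι ℂ} (hA : A.IsHermitian) (hB : B.IsHermitian) :
    star (trace (A * B)) = trace (A * B) := by
  rw [← trace_conjTranspose, conjTranspose_mul, hA.eq, hB.eq, trace_mul_comm]

lemma var_cen_herm {ρ Y : Matrix ι ι ℂ} (hρ : ρ.IsHermitian) (hY : Y.IsHermitian) :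
    (cen ρ Y).IsHermitian := by
  unfold cen Matrix.IsHermitian
  rw [conjTranspose_sub, conjTranspose_smul, conjTranspose_one, hY.eq, var_trace_real hρ hY]

lemma var_trace_cen {ρ : Matrix ι ι ℂ} (hρ : Dens ρ) (Y : Matrix ι ι ℂ) :
    trace (ρ * cen ρ Y) = 0 := by
  unfold cen
  rw [Matrix.mul_sub, trace_sub, Matrix.mul_smul, Matrix.mul_one, trace_smul, hρ.2]
  simp

lemma var_cen_add (ρ X Y : Matrix ι ι ℂ) (c : ℂ) :
    cen ρ (X + c • Y) = cen ρ X + c • cen ρ Y := by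
  unfold cen
  rw [Matrix.mul_add, trace_add, Matrix.mul_smul, trace_smul, smul_sub, add_smul, smul_assoc]
  abel

lemma var_split (Z : Matrix κ κ ℂ) : ∃ X Y : Matrix κ κ ℂ, X.IsHermitian ∧ Y.IsHermitian ∧
    Z = X + Complex.I • Y := by
  refine ⟨(1 / 2 : ℂ) • (Z + Zᴴ), (-Complex.I / 2) • (Z - Zᴴ), ?_, ?_, ?_⟩
  · unfold Matrix.IsHermitian
    rw [conjTranspose_smul, conjTranspose_add, conjTranspose_conjTranspose, add_comm]
    simp
  · unfold Matrix.IsHermitian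
    rw [conjTranspose_smul, conjTranspose_sub, conjTranspose_conjTranspose, ← neg_sub Z, smul_neg,
      ← neg_smul]
    congr 1
    simp [neg_div]
  · rw [smul_smul]
    have e : Complex.I * (-Complex.I / 2) = 1 / 2 := by
      rw [← mul_div_assoc, mul_neg, Complex.I_mul_I, neg_neg]
    rw [e, ← smul_add]
    have e2 : Z + Zᴴ + (Z - Zᴴ) = (2 : ℂ) • Z := by rw [two_smul]; abel
    rw [e2, smul_smul]
    simp

lemma var_Psi_herm {Ψ : Matrix ι ι ℂ →ₗ[ℂ] Matrix κ κ ℂ} {E : Matrix κ κ ℂ →ₗ[ℂ] Matrix ι ι ℂ}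
    (hdual : ∀ X Z, trace (Ψ X * Z) = trace (X * E Z)) (hEs : ∀ Z, E Zᴴ = (E Z)ᴴ)
    {X : Matrix ι ι ℂ} (hX : X.IsHermitian) : (Ψ X).IsHermitian := by
  unfold Matrix.IsHermitian
  rw [Matrix.ext_iff_trace_mul_right]
  intro Z
  have e1 : trace ((Ψ X)ᴴ * Z) = star (trace (Ψ X * Zᴴ)) := by
    rw [← trace_conjTranspose, conjTranspose_mul, conjTranspose_conjTranspose, trace_mul_comm]
  rw [e1, hdual, hEs, ← trace_conjTranspose, conjTranspose_mul, conjTranspose_conjTranspose, hX.eq,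
    hdual, trace_mul_comm]

/-- second variation: from `D(ρ'(τ)‖ρ') ≤ λ D(τ‖ρ)` to the inverse quadratic forms -/
lemma var_second {Ψ : Matrix ι ι ℂ →ₗ[ℂ] Matrix κ κ ℂ} {ω : Matrix κ κ ℂ} {γ lam : ℝ}
    {ρ : Matrix ι ι ℂ} (hρ : FDens ρ) (hρ' : ((1 - γ) • Ψ ρ + γ • ω).PosDef)
    (hD : ∀ τ, Dens τ → rtr (((1 - γ) • Ψ τ + γ • ω) * Hm ((1 - γ) • Ψ ρ + γ • ω)) -
      ent ((1 - γ) • Ψ τ + γ • ω) ≤ lam * (rtr (τ * Hm ρ) - ent τ))
    {X : Matrix ι ι ℂ} (hX : X.IsHermitian) (h0 : trace X = 0) (hΨX : (Ψ X).IsHermitian)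
    (h0' : trace (Ψ X) = 0) :
    kf (fun x y => 1 / LM x y) ((1 - γ) • Ψ ρ + γ • ω) ((1 - γ) • Ψ X) ≤
      lam * kf (fun x y => 1 / LM x y) ρ X := by
  have h1 := relent_limit hρ.1 hX h0
  have h2 := relent_limit (X := (1 - γ) • Ψ X) hρ' (var_herm_rsmul hΨX _)
    (by rw [trace_smul, h0', smul_zero])
  have h3 := le_of_tendsto_of_tendsto h2 (h1.const_mul lam) ?_
  · linarith
  · have hp := (eventually_psd hρ.1 hX).filter_mono (nhdsWithin_le_nhds (s := {0}ᶜ))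
    filter_upwards [hp] with s hs
    have hd : Dens (ρ + s • X) := ⟨hs, by rw [trace_add, trace_smul, h0, hρ.2, smul_zero, add_zero]⟩
    have h4 := hD _ hd
    have e : (1 - γ) • Ψ (ρ + s • X) + γ • ω =
        (1 - γ) • Ψ ρ + γ • ω + s • (1 - γ) • Ψ X := by
      rw [map_add, LinearMap.map_smul_of_tower, smul_add, smul_comm s]
      abel
    rw [e] at h4
    rw [← mul_div_assoc]
    exact div_le_div_of_nonneg_right h4 (sq_nonneg s)

theorem variational {Ψ : Matrix ι ι ℂ →ₗ[ℂ] Matrix κ κ ℂ} {E : Matrix κ κ ℂ →ₗ[ℂ] Matrix ι ι ℂ}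
    (hdual : ∀ X Z, trace (Ψ X * Z) = trace (X * E Z)) (hE1 : E 1 = 1)
    (hEs : ∀ Z, E Zᴴ = (E Z)ᴴ) (hΨ : ∀ τ, Dens τ → Dens (Ψ τ))
    {ω : Matrix κ κ ℂ} (hω : FDens ω) {γ lam : ℝ} (hγ0 : 0 < γ) (hγ1 : γ < 1) (hlam : 0 < lam)
    {P : Matrix ι ι ℂ} (hP : P.IsHermitian) {ρ : Matrix ι ι ℂ} (hρ : Dens ρ)
    (hmin : ∀ τ, Dens τ → ent ((1 - γ) • Ψ ρ + γ • ω) - lam * ent ρ + rtr (ρ * P) ≤
      ent ((1 - γ) • Ψ τ + γ • ω) - lam * ent τ + rtr (τ * P)) :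
    FDens ρ ∧
    (∃ c : ℝ, lam • Hm ρ =
      (1 - γ) • E (Hm ((1 - γ) • Ψ ρ + γ • ω)) + P + c • (1 : Matrix ι ι ℂ)) ∧
    ∀ Z, (1 - γ) ^ 2 * kf LM ρ (cen ρ (E Z)) ≤ lam * kf LM ((1 - γ) • Ψ ρ + γ • ω) Z := by
  have hne : Nonempty ι := by
    by_contra h
    rw [not_nonempty_iff] at h
    have := hρ.2
    simp [Matrix.trace] at this
  set ρ' := (1 - γ) • Ψ ρ + γ • ω with hρ'def
  have hρ' : FDens ρ' := mix_fdens (hΨ ρ hρ) hω hγ0 hγ1
  have hEh : ∀ Z : Matrix κ κ ℂ, Z.IsHermitian → (E Z).IsHermitian := fun Z hZ => by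
    unfold Matrix.IsHermitian
    rw [← hEs, hZ.eq]
  set G := (1 - γ) • E (Hm ρ') + P with hG
  have hGh : G.IsHermitian := (var_herm_rsmul (hEh _ (Hm_herm _)) _).add hP
  have hkey : ∀ τ : Matrix ι ι ℂ, rtr (((1 - γ) • Ψ τ + γ • ω) * Hm ρ') + rtr (τ * P) =
      rtr (τ * G) + γ * rtr (ω * Hm ρ') := fun τ => by
    have e : rtr (Ψ τ * Hm ρ') = rtr (τ * E (Hm ρ')) := by unfold rtr; rw [hdual]
    rw [hG, Matrix.add_mul, Matrix.mul_add, Matrix.smul_mul, Matrix.smul_mul, Matrix.mul_smul,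
      rtr_add, rtr_add, rtr_smul, rtr_smul, rtr_smul, e]
    ring
  have hD : ∀ τ, Dens τ → rtr (((1 - γ) • Ψ τ + γ • ω) * Hm ρ') - ent ((1 - γ) • Ψ τ + γ • ω) ≤
      (rtr (τ * G) - lam * ent τ) - (rtr (ρ * G) - lam * ent ρ) := fun τ hτ => by
    have h1 := hmin τ hτ
    have h2 := hkey τ
    have h3 := hkey ρ
    have h4 := ent_eq_rtr hρ'.1.isHermitian
    rw [← hρ'def] at h3
    linarith
  obtain ⟨τ₀, c, hτ₀, hH⟩ := exists_gibbs (var_herm_rsmul hGh lam⁻¹)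
  have hGσ : ∀ σ, Dens σ → rtr (σ * G) = lam * (rtr (σ * Hm τ₀) - c) := fun σ hσ => by
    have e : rtr σ = 1 := by unfold rtr; rw [hσ.2]; simp
    rw [hH, Matrix.mul_add σ (lam⁻¹ • G), Matrix.mul_smul, Matrix.mul_smul, Matrix.mul_one, rtr_add,
      rtr_smul, rtr_smul, e]
    field_simp
    ring
  have heq : ρ = τ₀ := by
    refine eq_of_cross_le hρ hτ₀ ?_
    have h1 := hD τ₀ hτ₀.dens
    have h2 := ent_le_cross (mix_fdens (hΨ τ₀ hτ₀.dens) hω hγ0 hγ1).dens hρ'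
    rw [hGσ τ₀ hτ₀.dens, hGσ ρ hρ, ← ent_eq_rtr hτ₀.1.isHermitian] at h1
    have h3 : lam * (rtr (ρ * Hm τ₀) - ent ρ) ≤ 0 := by linarith
    have h4 := nonpos_of_mul_nonpos_right h3 hlam
    linarith
  subst heq
  have hD' : ∀ τ, Dens τ → rtr (((1 - γ) • Ψ τ + γ • ω) * Hm ρ') -
      ent ((1 - γ) • Ψ τ + γ • ω) ≤ lam * (rtr (τ * Hm ρ) - ent τ) := fun τ hτ => by
    have h1 := hD τ hτ
    rw [hGσ τ hτ, hGσ ρ hρ, ← ent_eq_rtr hτ₀.1.isHermitian] at h1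
    linarith
  refine ⟨hτ₀, ⟨lam * c, ?_⟩, ?_⟩
  · rw [hH, smul_add, smul_smul, smul_smul, mul_inv_cancel₀ hlam.ne', one_smul]
  have hLp : ∀ i j, 0 < LM (ev ρ i) (ev ρ j) := fun i j =>
    LM_pos (ev_pos hτ₀.1 i) (ev_pos hτ₀.1 j)
  have hLp' : ∀ i j, 0 < LM (ev ρ' i) (ev ρ' j) := fun i j =>
    LM_pos (ev_pos hρ'.1 i) (ev_pos hρ'.1 j)
  have hherm : ∀ Z : Matrix κ κ ℂ, Z.IsHermitian →
      (1 - γ) ^ 2 * kf LM ρ (cen ρ (E Z)) ≤ lam * kf LM ρ' Z := fun Z hZ => by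
    have hξ := var_cen_herm hρ.1.isHermitian (hEh Z hZ)
    obtain ⟨X, hX, hX0, hX1, hX2⟩ := exists_kop LM_symm hτ₀ hLp (fun i => LM_self _) hξ
    rw [var_trace_cen hρ] at hX0
    have h0' : trace (Ψ X) = 0 := by
      rw [← Matrix.mul_one (Ψ X), hdual, hE1, Matrix.mul_one, hX0]
    have h1 := var_second hτ₀ hρ'.1 hD' hX hX0 (var_Psi_herm hdual hEs hX) h0'
    have h2 := two_re_ip_le hLp' Z (((1 - γ) / lam) • (1 - γ) • Ψ X)
    have h3 : (ip Z (Ψ X)).re = kf LM ρ (cen ρ (E Z)) := by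
      have e : ip Z (Ψ X) = ip (cen ρ (E Z)) X := by
        unfold ip
        rw [hZ.eq, hξ.eq, trace_mul_comm, hdual, cen, Matrix.sub_mul, trace_sub, Matrix.smul_mul,
          Matrix.one_mul, trace_smul, hX0, smul_zero, sub_zero, trace_mul_comm]
      rw [e, hX1, Complex.ofReal_re]
    have h4 : (ip Z (((1 - γ) / lam) • (1 - γ) • Ψ X)).re =
        (1 - γ) / lam * ((1 - γ) * (ip Z (Ψ X)).re) := by
      unfold ip
      rw [Matrix.mul_smul, Matrix.mul_smul, trace_smul, trace_smul, Complex.smul_re,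
        Complex.smul_re, smul_eq_mul, smul_eq_mul]
    rw [h4, h3, kf_rsmul] at h2
    rw [hX2, ← hρ'def] at h1
    set K := kf LM ρ (cen ρ (E Z))
    set K' := kf (fun x y => 1 / LM x y) ρ' ((1 - γ) • Ψ X)
    have h5 : ((1 - γ) / lam) ^ 2 * K' ≤ ((1 - γ) / lam) ^ 2 * (lam * K) :=
      mul_le_mul_of_nonneg_left h1 (sq_nonneg _)
    have h6 : (1 - γ) ^ 2 * K / lam ≤ kf LM ρ' Z := by
      have e : (1 - γ) ^ 2 * K / lam =
          2 * ((1 - γ) / lam * ((1 - γ) * K)) - ((1 - γ) / lam) ^ 2 * (lam * K) := by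
        field_simp
        ring
      linarith
    rw [div_le_iff₀ hlam] at h6
    linarith
  intro Z
  obtain ⟨X, Y, hX, hY, rfl⟩ := var_split Z
  rw [map_add, map_smul, var_cen_add, kf_herm_split LM_symm ρ' hX hY,
    kf_herm_split LM_symm ρ (var_cen_herm hρ.1.isHermitian (hEh X hX))
      (var_cen_herm hρ.1.isHermitian (hEh Y hY))]
  have h1 := hherm X hX
  have h2 := hherm Y hY
  linarith

end Crest.Agent.R331
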