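import Crest.Agent.R331.BSMode
import Crest.Agent.R331.Var
import Crest.Agent.R331.OneMode

/-! Row 331: minimisers exist and are critical (task CRITBOX). -/

set_option autoImplicit false
set_option linter.unusedSectionVars false

open Matrix Set Filter Topology Crest.Agent.R342 Crest.Agent.R332 Crest.MathPhysics.Bosonic
open scoped ComplexOrder Kronecker Matrix.Norms.Frobenius

namespace Crest.Agent.R331

variable {n K : ℕ}

lemma cb_cont_ex (F : Box n K → ℝ) : Continuous fun ρ : Matrix (Box n K) (Box n K) ℂ => ex F ρ := by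
  unfold ex
  fun_prop

lemma cb_ex_nonneg {F : Box n K → ℝ} (h : ∀ k, 0 ≤ F k) {ρ : Matrix (Box n K) (Box n K) ℂ}
    (hρ : ρ.PosSemidef) : 0 ≤ ex F ρ :=
  Finset.sum_nonneg fun k _ => mul_nonneg (h k) (ent_diag_re_nonneg hρ k)

lemma cb_rtr_P (s s' : ℝ) (W : ℕ → ℝ) (τ : Matrix (Box n K) (Box n K) ℂ) :
    rtr (τ * (s • rdiag (fun k : Box n K => (tot k : ℝ)) + s' • rdiag (wsum W))) =
      s * en τ + s' * ex (wsum W) τ := by
  rw [Matrix.mul_add, Matrix.mul_smul, Matrix.mul_smul, rtr_add, rtr_smul, rtr_smul, en, ex_eq_rtr,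
    ex_eq_rtr]

lemma cb_comm {ι : Type} [Fintype ι] [DecidableEq ι] {a H Y N Wm : Matrix ι ι ℂ}
    {lam u s s' c : ℝ} (hN : comm a N = a)
    (h : lam • H = u • Y + (s • N + s' • Wm) + c • (1 : Matrix ι ι ℂ)) :
    lam • comm a H = u • comm a Y + s • a + s' • comm a Wm := by
  have e : lam • comm a H = comm a (lam • H) := by
    simp only [R332.comm, Matrix.mul_smul, Matrix.smul_mul, smul_sub]
  have e2 : comm a (u • Y + (s • N + s' • Wm) + c • (1 : Matrix ι ι ℂ)) =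
      u • comm a Y + s • comm a N + s' • comm a Wm := by
    simp only [R332.comm, Matrix.mul_add, Matrix.add_mul, Matrix.mul_smul, Matrix.smul_mul, smul_sub,
      Matrix.mul_one, Matrix.one_mul]
    abel
  rw [e, h, e2, hN]

lemma cb_tot_le (k : Box n K) : (tot k : ℝ) ≤ n * K := by
  have : tot k ≤ n * K := by
    unfold tot
    calc ∑ j, (k j : ℕ) ≤ ∑ _j : Fin n, K := Finset.sum_le_sum fun j _ => Nat.lt_succ_iff.1 (k j).2
      _ = n * K := by simp
  exact_mod_cast this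

/-- `isCompact_dens.prod`, `continuousOn_ent`, `continuous_out`, `IsCompact.exists_isMinOn` -/
theorem exists_minPair (n K : ℕ) {η tA tB γ : ℝ} (γ' : ℝ) (W : ℕ → ℝ) (h0 : 0 ≤ η) (h1 : η ≤ 1)
    (hA : 0 < tA) (hB : 0 < tB) (hγ0 : 0 < γ) (hγ1 : γ < 1) :
    ∃ ρA ρB : Matrix (Box n K) (Box n K) ℂ, IsMinPair η tA tB γ γ' W ρA ρB := by
  have htc := tC_pos h0 h1 hA hB
  have hc : IsCompact ({ρ : Matrix (Box n K) (Box n K) ℂ | Dens ρ} ×ˢ
      {ρ : Matrix (Box n K) (Box n K) ℂ | Dens ρ}) := isCompact_dens.prod isCompact_dens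
  have hd : Dens (therm n K tA) := (fdens_therm hA n K).dens
  have hcont : ContinuousOn (fun p : Matrix (Box n K) (Box n K) ℂ × Matrix (Box n K) (Box n K) ℂ =>
      Phi η tA tB γ γ' W p.1 p.2) ({ρ | Dens ρ} ×ˢ {ρ | Dens ρ}) := by
    have c0 : Continuous fun p : Matrix (Box n K) (Box n K) ℂ × Matrix (Box n K) (Box n K) ℂ =>
        mixo η γ (tC η tA tB) p.1 p.2 := by
      have := continuous_out.comp (f := fun p : Matrix (Box n K) (Box n K) ℂ ×
        Matrix (Box n K) (Box n K) ℂ => (η, p)) (by fun_prop)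
      exact (this.const_smul (1 - γ)).add continuous_const
    have c1 := continuousOn_ent (s := {ρ | Dens ρ} ×ˢ {ρ | Dens ρ}) c0.continuousOn fun p hp =>
      (mix_fdens (dens_out h0 h1 hp.1 hp.2) (fdens_therm htc n (2 * K)) hγ0 hγ1).1.1
    have c2 := continuousOn_ent (s := {ρ : Matrix (Box n K) (Box n K) ℂ | Dens ρ} ×ˢ
      {ρ : Matrix (Box n K) (Box n K) ℂ | Dens ρ}) continuousOn_fst fun p hp => hp.1.1.1
    have c3 := continuousOn_ent (s := {ρ : Matrix (Box n K) (Box n K) ℂ | Dens ρ} ×ˢ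
      {ρ : Matrix (Box n K) (Box n K) ℂ | Dens ρ}) continuousOn_snd fun p hp => hp.2.1.1
    have c4 : ∀ F : Box n K → ℝ, Continuous fun p : Matrix (Box n K) (Box n K) ℂ ×
        Matrix (Box n K) (Box n K) ℂ => ex F p.1 + ex F p.2 := fun F =>
      ((cb_cont_ex F).comp continuous_fst).add ((cb_cont_ex F).comp continuous_snd)
    exact (((c1.sub (continuousOn_const.mul c2)).sub (continuousOn_const.mul c3)).add
      (continuousOn_const.mul (c4 _).continuousOn)).add (continuousOn_const.mul (c4 _).continuousOn)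
  obtain ⟨p, hp, hmin⟩ := hc.exists_isMinOn ⟨(therm n K tA, therm n K tA), hd, hd⟩ hcont
  exact ⟨p.1, p.2, hp.1, hp.2, fun τA τB hτA hτB => hmin (a := (τA, τB)) ⟨hτA, hτB⟩⟩

/-- `variational` with `Ψ = outL η ρB`, `E = pAL ρB ∘ₗ Th n K η`,
`P = (2γβ) • rdiag tot + γ' • rdiag (wsum W)` (and the mirror image for `B`); take the commutator of
the Euler–Lagrange equation with `ann K j` (`comm_ann_tot`).  Operator bounds: `opLe_ann`,
`√(2K) ≤ K + 1`, `Hm_psd`, `Hm_mix_le`, `tot k ≤ 2 n K`, `opLe_of_psd`. -/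
theorem IsMinPair.crit {η tA tB γ γ' : ℝ} {W : ℕ → ℝ} {ρA ρB : Matrix (Box n K) (Box n K) ℂ}
    (h : IsMinPair η tA tB γ γ' W ρA ρB) (h0 : 0 < η) (h1 : η < 1) (hA : 0 < tA) (hB : 0 < tB)
    (hγ0 : 0 < γ) (hγ1 : γ < 1) (hγ' : 0 ≤ γ') (j : Fin n) :
    Crit η tA tB γ γ' (Rbd n K (tC η tA tB) γ) (Th n K η)
      ρA (ann K j) (topP K j) (comm (ann K j) (rdiag (wsum W)))
      ρB (ann K j) (topP K j) (comm (ann K j) (rdiag (wsum W)))
      (bsOutput η ρA ρB) (therm n (2 * K) (tC η tA tB)) (mixo η γ (tC η tA tB) ρA ρB)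
      (ann (2 * K) j) := by
  have htc := tC_pos h0.le h1.le hA hB
  have hβ := bet_pos htc
  have hω := fdens_therm htc n (2 * K)
  have hch : Chan (Th n K η) := chan_Th h0.le h1.le
  have hP : ((2 * γ * bet (tC η tA tB)) • rdiag (fun k : Box n K => (tot k : ℝ)) +
      γ' • rdiag (wsum W)).IsHermitian :=
    (var_herm_rsmul (rdiag_herm _) _).add (var_herm_rsmul (rdiag_herm _) _)
  obtain ⟨fA, ⟨cA, eA⟩, kA⟩ := variational (Ψ := outL η ρB) (E := pAL ρB ∘ₗ Th n K η)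
    (fun X Z => (trace_out η X ρB Z).trans (trace_pA X ρB _).symm)
    (by rw [LinearMap.comp_apply, hch.unital, pAL_apply, pA_one h.dB.2])
    (fun Z => by rw [LinearMap.comp_apply, LinearMap.comp_apply, hch.star, pAL_apply, pAL_apply,
      pA_ct h.dB.1.1])
    (fun τ hτ => dens_out h0.le h1.le hτ h.dB) hω hγ0 hγ1 (lamr_pos h0.le hA htc hγ0 hγ1) hP h.dA
    (fun τ hτ => by
      have := h.min τ ρB hτ h.dB
      rw [cb_rtr_P, cb_rtr_P]
      unfold Phi mixo at this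
      change ent ((1 - γ) • bsOutput η ρA ρB + _) - _ + _ ≤ ent ((1 - γ) • bsOutput η τ ρB + _) - _ + _
      linarith)
  obtain ⟨fB, ⟨cB, eB⟩, kB⟩ := variational (Ψ := outR η ρA) (E := pBL ρA ∘ₗ Th n K η)
    (fun X Z => (trace_out η ρA X Z).trans (trace_pB ρA X _).symm)
    (by rw [LinearMap.comp_apply, hch.unital, pBL_apply, pB_one h.dA.2])
    (fun Z => by rw [LinearMap.comp_apply, LinearMap.comp_apply, hch.star, pBL_apply, pBL_apply,
      pB_ct h.dA.1.1])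
    (fun τ hτ => dens_out h0.le h1.le h.dA hτ) hω hγ0 hγ1
    (lamr_pos (sub_pos.2 h1).le hB htc hγ0 hγ1) hP h.dB
    (fun τ hτ => by
      have := h.min ρA τ h.dA hτ
      rw [cb_rtr_P, cb_rtr_P]
      unfold Phi mixo at this
      change ent ((1 - γ) • bsOutput η ρA ρB + _) - _ + _ ≤ ent ((1 - γ) • bsOutput η ρA τ + _) - _ + _
      linarith)
  have dC := dens_out h0.le h1.le h.dA h.dB
  have l1 : 0 ≤ Real.log (1 + tC η tA tB) := Real.log_nonneg (by linarith)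
  have l2 : Real.log γ ≤ 0 := Real.log_nonpos hγ0.le hγ1.le
  have hK : (0:ℝ) ≤ K := K.cast_nonneg
  have hn : (0:ℝ) ≤ n := n.cast_nonneg
  have hr : 0 ≤ 2 * n * bet (tC η tA tB) + n * Real.log (1 + tC η tA tB) - Real.log γ := by
    have := mul_nonneg hn l1
    have := mul_nonneg hn hβ.le
    linarith
  have hR : (K:ℝ) + 1 ≤ Rbd n K (tC η tA tB) γ := by
    unfold Rbd
    nlinarith
  have hs : √((2 * K : ℕ) : ℝ) ≤ K + 1 := by
    refine Real.sqrt_le_iff.2 ⟨by positivity, ?_⟩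
    push_cast
    nlinarith
  have hs' : √(K : ℝ) ≤ K + 1 := Real.sqrt_le_iff.2 ⟨by positivity, by nlinarith⟩
  have hR0 : 0 ≤ Rbd n K (tC η tA tB) γ := by linarith
  refine ⟨h0, h1, hA, hB, hγ0, hγ1, hγ', hch, mode_Th h0.le h1.le j, fA, fB, dC, hω,
    trace_out η ρA ρB, rfl, del_therm htc j, cb_comm (comm_ann_tot j) eA,
    cb_comm (comm_ann_tot j) eB, kA, kB, by linarith, (opLe_ann j).mono (hs'.trans hR),
    (opLe_ann j).mono (hs'.trans hR), (opLe_ann j).mono (hs.trans hR), ?_⟩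
  refine opLe_of_psd (Hm_herm _) hR0 ?_
    ((psd_smul PosSemidef.one hR0).add (Hm_psd (mix_fdens dC hω hγ0 hγ1)))
  have h2 : (Rbd n K (tC η tA tB) γ • (1 : Matrix (Box n (2 * K)) (Box n (2 * K)) ℂ) -
      rdiag fun k : Box n (2 * K) => bet (tC η tA tB) * tot k +
        (n * Real.log (1 + tC η tA tB) - Real.log γ)).PosSemidef := by
    rw [← rdiag_const, rdiag_sub, rdiag_psd_iff]
    intro k
    have h3 := mul_le_mul_of_nonneg_left (cb_tot_le k) hβ.le
    have h4 := mul_nonneg hn l1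
    have h5 := mul_nonneg hn hβ.le
    push_cast at h3
    unfold Rbd
    nlinarith [mul_nonneg h4 hK, mul_nonneg (neg_nonneg.2 l2) hK]
  have h3 := h2.add (Hm_mix_le htc hγ0 hγ1 dC)
  rwa [sub_add_sub_cancel] at h3

/-- `ent_le_gibbs` for `A`, `B`; `λ_X β_X - 2γβ = (1-γ) η_X β`; `en mixo ≥ (1-γ) en out`; `en_out` with
`|2√η√(1-η) Re (conj α b)| ≤ |α|² + |b|²`. -/
theorem Phi_ge {η tA tB γ γ' μ : ℝ} {W : ℕ → ℝ} {ρA ρB : Matrix (Box n K) (Box n K) ℂ}
    (dA : Dens ρA) (dB : Dens ρB) (h0 : 0 < η) (h1 : η < 1) (hA : 0 < tA) (hB : 0 < tB)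
    (hγ0 : 0 < γ) (hγ1 : γ < 1) (hγ' : 0 ≤ γ') (hW : ∀ m, 0 ≤ W m)
    (hμ : ∀ j, ‖trace (ρA * ann K j)‖ ^ 2 + ‖trace (ρB * ann K j)‖ ^ 2 ≤ μ) :
    ent (mixo η γ (tC η tA tB) ρA ρB) - bet (tC η tA tB) * en (mixo η γ (tC η tA tB) ρA ρB)
      - n * (lamr η tA (tC η tA tB) γ * Real.log (1 + tA)
        + lamr (1 - η) tB (tC η tA tB) γ * Real.log (1 + tB))
      - bet (tC η tA tB) * (n * μ) ≤ Phi η tA tB γ γ' W ρA ρB := by
  have htc := tC_pos h0.le h1.le hA hB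
  have hβ := bet_pos htc
  have lA := lamr_pos h0.le hA htc hγ0 hγ1
  have lB := lamr_pos (sub_pos.2 h1).le hB htc hγ0 hγ1
  have gA := mul_le_mul_of_nonneg_left (ent_le_gibbs hA dA) lA.le
  have gB := mul_le_mul_of_nonneg_left (ent_le_gibbs hB dB) lB.le
  rw [mul_add, ← mul_assoc, om_lam hA] at gA
  rw [mul_add, ← mul_assoc, om_lam hB] at gB
  have hw : ∀ k : Box n K, 0 ≤ wsum W k := fun k => Finset.sum_nonneg fun j _ => hW _
  have wA := mul_nonneg hγ' (add_nonneg (cb_ex_nonneg hw dA.1) (cb_ex_nonneg hw dB.1))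
  have e1 : en (mixo η γ (tC η tA tB) ρA ρB) =
      (1 - γ) * en (bsOutput η ρA ρB) + γ * en (therm n (2 * K) (tC η tA tB)) := ex_mix _ _ _ _ _
  have e2 : 0 ≤ en (therm n (2 * K) (tC η tA tB)) :=
    cb_ex_nonneg (fun k => Nat.cast_nonneg _) (fdens_therm htc n (2 * K)).dens.1
  rw [en_out h0.le h1.le dA dB] at e1
  set S := ∑ j, (‖trace (ρA * ann K j)‖ ^ 2 + ‖trace (ρB * ann K j)‖ ^ 2) with hS
  have S0 : 0 ≤ S := Finset.sum_nonneg fun j _ => by positivity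
  have S1 : S ≤ n * μ := by
    calc S ≤ ∑ _j : Fin n, μ := Finset.sum_le_sum fun j _ => hμ j
      _ = n * μ := by simp
  have S2 : -S ≤ ∑ j, 2 * √η * √(1 - η) *
      (star (trace (ρA * ann K j)) * trace (ρB * ann K j)).re := by
    rw [hS, ← Finset.sum_neg_distrib]
    refine Finset.sum_le_sum fun j _ => ?_
    have h2 := om_cbar h0.le h1.le (trace (ρA * ann K j)) (trace (ρB * ann K j))
    have h3 := sq_nonneg ‖(√η : ℝ) * trace (ρA * ann K j) + (√(1 - η) : ℝ) * trace (ρB * ann K j)‖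
    have h4 := sq_nonneg ‖trace (ρA * ann K j)‖
    have h5 := sq_nonneg ‖trace (ρB * ann K j)‖
    nlinarith
  set X := ∑ j, 2 * √η * √(1 - η) * (star (trace (ρA * ann K j)) * trace (ρB * ann K j)).re
  have k1 : (1 - γ) * (η * en ρA + (1 - η) * en ρB) - n * μ ≤ en (mixo η γ (tC η tA tB) ρA ρB) := by
    have := mul_le_mul_of_nonneg_left S2 (sub_pos.2 hγ1).le
    have := mul_nonneg hγ0.le S0
    have := mul_nonneg hγ0.le e2
    rw [e1]
    linarith
  have k2 := mul_le_mul_of_nonneg_left k1 hβ.le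
  unfold Phi
  linarith

/-- With `ε = 2γβ`, pick `t'` with `λ β(t') = ε` (`exists_bet_eq`): `λ ent ρ - ε en ρ ≤ λ n log(1+t')`,
so `Phi ≤ V` gives `γ' ex (wsum W) ρ_X ≤ C₂`, `rtr (ρ_X topP) ≤ C₂/(γ' W K)` (`top_le`) and
`bdry ≤ C (K+1)³ √(C₂/(γ' W K)) → 0` (`growth` with `r = 6`). -/
theorem bdry_small (n : ℕ) {η tA tB γ γ' T CW : ℝ} {W : ℕ → ℝ} (V : ℝ) (h0 : 0 < η) (h1 : η < 1)
    (hA : 0 < tA) (hB : 0 < tB) (hγ0 : 0 < γ) (hγ1 : γ < 1) (hγ' : 0 < γ') (hW : GoodW W T CW) :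
    ∀ᶠ K : ℕ in atTop, ∀ ρA ρB : Matrix (Box n K) (Box n K) ℂ, Dens ρA → Dens ρB →
      Phi η tA tB γ γ' W ρA ρB ≤ V → ∀ j : Fin n,
        bdry η tA tB (Rbd n K (tC η tA tB) γ) ρA (topP K j) ρB (topP K j) ≤ γ' := by
  have htc := tC_pos h0.le h1.le hA hB
  have hβ := bet_pos htc
  have lA := lamr_pos h0.le hA htc hγ0 hγ1
  have lB := lamr_pos (sub_pos.2 h1).le hB htc hγ0 hγ1
  have hε : 0 < 2 * γ * bet (tC η tA tB) := by positivity
  obtain ⟨sA, hsA, eA⟩ := exists_bet_eq (div_pos hε lA)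
  obtain ⟨sB, hsB, eB⟩ := exists_bet_eq (div_pos hε lB)
  set C := |(V + lamr η tA (tC η tA tB) γ * (n * Real.log (1 + sA)) +
    lamr (1 - η) tB (tC η tA tB) γ * (n * Real.log (1 + sB))) / γ'| with hC
  set r := 2 + 2 * n * bet (tC η tA tB) + n * Real.log (1 + tC η tA tB) - Real.log γ with hr
  have r0 : 0 ≤ r := by
    have l1 : 0 ≤ Real.log (1 + tC η tA tB) := Real.log_nonneg (by linarith)
    have l2 : Real.log γ ≤ 0 := Real.log_nonpos hγ0.le hγ1.le
    have := mul_nonneg (n.cast_nonneg (α := ℝ)) l1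
    have := mul_nonneg (n.cast_nonneg (α := ℝ)) hβ.le
    linarith
  have hlim : Tendsto (fun K : ℕ => 80 * (1 + bet (tC η tA tB)) * (tA + tB) * r ^ 3 *
      √(C * (((K : ℝ) + 1) ^ 6 / W K))) atTop (𝓝 0) := by
    have := (((hW.growth 6).const_mul C).sqrt).const_mul
      (80 * (1 + bet (tC η tA tB)) * (tA + tB) * r ^ 3)
    simpa using this
  filter_upwards [hlim.eventually (gt_mem_nhds hγ')] with K hK ρA ρB dA dB hV j
  refine le_trans ?_ hK.le
  have gA := mul_le_mul_of_nonneg_left (ent_le_gibbs hsA dA) lA.le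
  have gB := mul_le_mul_of_nonneg_left (ent_le_gibbs hsB dB) lB.le
  rw [mul_add, ← mul_assoc, eA, mul_div_cancel₀ _ lA.ne'] at gA
  rw [mul_add, ← mul_assoc, eB, mul_div_cancel₀ _ lB.ne'] at gB
  have e0 : 0 ≤ ent (mixo η γ (tC η tA tB) ρA ρB) :=
    ent_nonneg (mix_fdens (dens_out h0.le h1.le dA dB) (fdens_therm htc n (2 * K)) hγ0 hγ1).dens
  have hw : ∀ k : Box n K, 0 ≤ wsum W k := fun k => Finset.sum_nonneg fun j _ => hW.nonneg _
  have wA := cb_ex_nonneg hw dA.1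
  have wB := cb_ex_nonneg hw dB.1
  have hsum : ex (wsum W) ρA + ex (wsum W) ρB ≤ C := by
    refine le_trans ?_ (le_abs_self _)
    rw [le_div_iff₀ hγ']
    unfold Phi at hV
    linarith
  have key : ∀ ρ : Matrix (Box n K) (Box n K) ℂ, Dens ρ → ex (wsum W) ρ ≤ C →
      ((K : ℝ) + 1) ^ 3 * √(rtr (ρ * topP K j)) ≤ √(C * (((K : ℝ) + 1) ^ 6 / W K)) := by
    intro ρ hρ hc
    have h2 : rtr (ρ * topP K j) ≤ C / W K :=
      (top_le hW hρ.1 j).trans (div_le_div_of_nonneg_right hc (hW.nonneg K))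
    rw [show C * (((K : ℝ) + 1) ^ 6 / W K) = (((K : ℝ) + 1) ^ 3) ^ 2 * (C / W K) by ring,
      Real.sqrt_mul (sq_nonneg _), Real.sqrt_sq (by positivity)]
    exact mul_le_mul_of_nonneg_left (Real.sqrt_le_sqrt h2) (by positivity)
  have kA := key ρA dA (by linarith)
  have kB := key ρB dB (by linarith)
  have hD : 0 ≤ 40 * (1 + bet (tC η tA tB)) * (tA + tB) * r ^ 3 := by positivity
  have := mul_le_mul_of_nonneg_left (add_le_add kA kB) hD
  unfold bdry Rbd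
  rw [← hr]
  linarith

end Crest.Agent.R331
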