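import Crest.Agent.R332.Mat
import Crest.Prelude.Def_FockState

/-!
Row 331 (entropy photon-number inequality): shared definitions.
The matrix toolkit (`fc`, `ev`, `eU`, `trf`, `rtr`, `rdiag`, `comm`, `OpLe`, Frobenius norms) is the
one of rows 342 / 332 (`Crest.Agent.R332.Mat`).  The plan of the whole proof is in `R331/Plan.lean`.
-/

set_option autoImplicit false

open Matrix Set Filter Topology Crest.Agent.R342 Crest.Agent.R332 Crest.MathPhysics.Bosonic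
open scoped ComplexOrder Kronecker Matrix.Norms.Frobenius

namespace Crest.Agent.R331

/-! ### scalar functions -/

/-- logarithmic mean -/
noncomputable def LM (u v : ℝ) : ℝ := if u = v then u else (u - v) / (Real.log u - Real.log v)

/-- inverse temperature of a thermal mode with mean photon number `t` -/
noncomputable def bet (t : ℝ) : ℝ := Real.log (1 + 1 / t)

/-- the kernel `M_t(x,y) = β L(t x, (t+1) y)` -/
noncomputable def Mk (t x y : ℝ) : ℝ := bet t * LM (t * x) ((t + 1) * y)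

/-- parallel sum -/
noncomputable def hk (x y : ℝ) : ℝ := x * y / (x + y)

/-- `C(β) = β² t (t+1)` -/
noncomputable def Cb (t : ℝ) : ℝ := bet t ^ 2 * (t * (t + 1))

/-- the iteration `g ↦ (1 + 1 / ḡ) / (2c)`, `ḡ(c) = ∫₀¹ g(1 - θ + θ c) dθ` -/
noncomputable def gseq : ℕ → ℝ → ℝ
  | 0 => fun c => 1 / (2 * c)
  | m + 1 => fun c => (1 + 1 / ∫ θ in (0 : ℝ)..1, gseq m (1 - θ + θ * c)) / (2 * c)

/-- the coupling conductance of the network -/
noncomputable def kapg (m : ℕ) (x y c : ℝ) : ℝ :=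
  LM x y / ∫ θ in (0 : ℝ)..1, gseq m (θ * (x * y / LM x y ^ 2) + (1 - θ) * c)

/-- `min_{U+V=1} D1 U² + D2 V² + (k/2)(U-V)²` -/
noncomputable def netv (D1 D2 k : ℝ) : ℝ := (D1 * D2 + k * (D1 + D2) / 2) / (D1 + D2 + 2 * k)

/-- value of the `m`-th approximate network; tends to `Mk t x y` -/
noncomputable def net (m : ℕ) (t x y : ℝ) : ℝ :=
  netv (x + bet t * (t + 1) * LM x y) (y + bet t * t * LM x y) (kapg m x y (Cb t))

/-- `t_C` -/
def tC (η tA tB : ℝ) : ℝ := η * tA + (1 - η) * tB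

/-- unregularised Lagrange multiplier `λ⁰ = e β_C / β_X` -/
noncomputable def lam0 (e tX tc : ℝ) : ℝ := e * bet tc / bet tX

/-- regularised Lagrange multiplier `λ = (2γβ_C + (1-γ) e β_C) / β_X` -/
noncomputable def lamr (e tX tc γ : ℝ) : ℝ := (2 * γ * bet tc + (1 - γ) * e * bet tc) / bet tX

/-- `θ = (1-γ)² λ⁰ / λ` -/
noncomputable def thr (e tX tc γ : ℝ) : ℝ := (1 - γ) ^ 2 * lam0 e tX tc / lamr e tX tc γ

/-- the gap kernel `1/M - θ/(θ M + ν h)` -/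
noncomputable def gapk (θ ν t x y : ℝ) : ℝ := 1 / Mk t x y - θ / (θ * Mk t x y + ν * hk x y)

/-- a penalty weight: nonnegative, monotone, superpolynomial, with a drift bound for all `t ≤ T` -/
structure GoodW (W : ℕ → ℝ) (T CW : ℝ) : Prop where
  nonneg : ∀ m, 0 ≤ W m
  mono : Monotone W
  growth : ∀ r : ℕ, Tendsto (fun K : ℕ => ((K : ℝ) + 1) ^ r / W K) atTop (𝓝 0)
  pos : ∀ m, 0 < W m
  cw : 0 ≤ CW
  drift : ∀ t : ℝ, 0 ≤ t → t ≤ T → ∀ m : ℕ,
    (m : ℝ) ^ 2 - CW ≤ (t + 1) * m * (W m - W (m - 1)) - t * (m + 1) * (W (m + 1) - W m)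

/-! ### weighted quadratic forms -/

/-- diagonal quadratic form -/
noncomputable def qf {I : Type} [Fintype I] (w : I → ℝ) (v : I → ℂ) : ℝ := ∑ i, w i * ‖v i‖ ^ 2

/-- `T† w' T ≤ w` -/
def Dom {I J : Type} [Fintype I] [Fintype J] (T : (I → ℂ) →ₗ[ℂ] (J → ℂ)) (w : I → ℝ)
    (w' : J → ℝ) : Prop := ∀ v, qf w' (T v) ≤ qf w v

/-! ### matrices -/

section mat
variable {ι ι' κ : Type} [Fintype ι] [DecidableEq ι] [Fintype ι'] [DecidableEq ι']
  [Fintype κ] [DecidableEq κ]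

/-- density matrix -/
def Dens (ρ : Matrix ι ι ℂ) : Prop := ρ.PosSemidef ∧ trace ρ = 1

/-- faithful density matrix -/
def FDens (ρ : Matrix ι ι ℂ) : Prop := ρ.PosDef ∧ trace ρ = 1

/-- von Neumann entropy -/
noncomputable def ent (A : Matrix ι ι ℂ) : ℝ := trf Real.negMulLog A

/-- `- log A` -/
noncomputable def Hm (A : Matrix ι ι ℂ) : Matrix ι ι ℂ := fc (fun x => -Real.log x) A

/-- coordinates of `Z` in the eigenbasis of `ρ` -/
noncomputable def co (ρ Z : Matrix ι ι ℂ) : Matrix ι ι ℂ := (eU ρ)ᴴ * Z * eU ρ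

/-- the quadratic form of the kernel `k(p_i, p_j)` -/
noncomputable def kf (k : ℝ → ℝ → ℝ) (ρ Z : Matrix ι ι ℂ) : ℝ :=
  ∑ i, ∑ j, k (ev ρ i) (ev ρ j) * ‖co ρ Z i j‖ ^ 2

/-- Hilbert–Schmidt inner product -/
noncomputable def ip (X Y : Matrix ι ι ℂ) : ℂ := trace (Xᴴ * Y)

/-- `δ = (t+1) x ρ - t ρ x` -/
noncomputable def del (t : ℝ) (ρ x : Matrix ι ι ℂ) : Matrix ι ι ℂ :=
  (t + 1) • (x * ρ) - t • (ρ * x)

/-- centred `δ` -/
noncomputable def del0 (t : ℝ) (ρ x : Matrix ι ι ℂ) : Matrix ι ι ℂ :=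
  del t ρ x - trace (ρ * x) • ρ

/-- `Z = [x, H] - β x` -/
noncomputable def zed (t : ℝ) (ρ x : Matrix ι ι ℂ) : Matrix ι ι ℂ :=
  comm x (Hm ρ) - bet t • x

/-- relative Fisher information `I = -⟨Z, δ⟩` -/
noncomputable def fis (t : ℝ) (ρ x : Matrix ι ι ℂ) : ℝ := -(ip (zed t ρ x) (del t ρ x)).re

/-- centring with respect to `ρ` -/
noncomputable def cen (ρ Z : Matrix ι ι ℂ) : Matrix ι ι ℂ :=
  Z - trace (ρ * Z) • (1 : Matrix ι ι ℂ)

/-- partial expectation over the second factor -/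
noncomputable def pA (ρB : Matrix ι' ι' ℂ) (Y : Matrix (ι × ι') (ι × ι') ℂ) : Matrix ι ι ℂ :=
  Matrix.of fun k k' => ∑ l, ∑ l', ρB l l' * Y (k, l') (k', l)

/-- partial expectation over the first factor -/
noncomputable def pB (ρA : Matrix ι ι ℂ) (Y : Matrix (ι × ι') (ι × ι') ℂ) : Matrix ι' ι' ℂ :=
  Matrix.of fun l l' => ∑ k, ∑ k', ρA k k' * Y (k', l) (k, l')

/-- a unital `*`-preserving Kadison–Schwarz map (Heisenberg picture of the channel) -/
structure Chan (Θ : Matrix κ κ ℂ →ₗ[ℂ] Matrix (ι × ι') (ι × ι') ℂ) : Prop where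
  unital : Θ 1 = 1
  star : ∀ Z, Θ Zᴴ = (Θ Z)ᴴ
  ks : ∀ Z, (Θ (Zᴴ * Z) - (Θ Z)ᴴ * Θ Z).PosSemidef

/-- the beam-splitter relations for one mode, with boundary projections `Qa`, `Qb` -/
structure Mode (η : ℝ) (Θ : Matrix κ κ ℂ →ₗ[ℂ] Matrix (ι × ι') (ι × ι') ℂ)
    (a Qa : Matrix ι ι ℂ) (b Qb : Matrix ι' ι' ℂ) (c : Matrix κ κ ℂ) : Prop where
  h1 : ∀ Z, Θ (Z * c) = Θ Z * (√η • (a ⊗ₖ (1 : Matrix ι' ι' ℂ)) +
    √(1 - η) • ((1 : Matrix ι ι ℂ) ⊗ₖ b))
  h2a : ∀ Z, (1 - Qa ⊗ₖ (1 : Matrix ι' ι' ℂ)) *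
    (comm (a ⊗ₖ (1 : Matrix ι' ι' ℂ)) (Θ Z) - √η • Θ (comm c Z)) = 0
  h2b : ∀ Z, (1 - (1 : Matrix ι ι ℂ) ⊗ₖ Qb) *
    (comm ((1 : Matrix ι ι ℂ) ⊗ₖ b) (Θ Z) - √(1 - η) • Θ (comm c Z)) = 0
  qa_herm : Qaᴴ = Qa
  qa_idem : Qa * Qa = Qa
  qa_mul : Qa * a = 0
  qb_herm : Qbᴴ = Qb
  qb_idem : Qb * Qb = Qb
  qb_mul : Qb * b = 0

/-- everything known at a minimiser, for one mode.  `ρ'` is the mixed output. -/
structure Crit (η tA tB γ γ' R : ℝ) (Θ : Matrix κ κ ℂ →ₗ[ℂ] Matrix (ι × ι') (ι × ι') ℂ)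
    (ρA a Qa YA : Matrix ι ι ℂ) (ρB b Qb YB : Matrix ι' ι' ℂ) (ρC ω ρ' c : Matrix κ κ ℂ) :
    Prop where
  η0 : 0 < η
  η1 : η < 1
  tA0 : 0 < tA
  tB0 : 0 < tB
  γ0 : 0 < γ
  γ1 : γ < 1
  γ'0 : 0 ≤ γ'
  chan : Chan Θ
  mode : Mode η Θ a Qa b Qb c
  dA : FDens ρA
  dB : FDens ρB
  dC : Dens ρC
  dω : FDens ω
  out : ∀ Z, trace (ρC * Z) = trace ((ρA ⊗ₖ ρB) * Θ Z)
  mix : ρ' = (1 - γ) • ρC + γ • ω
  delω : del (tC η tA tB) ω c = 0
  elA : lamr η tA (tC η tA tB) γ • comm a (Hm ρA) =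
    (1 - γ) • comm a (pA ρB (Θ (Hm ρ'))) + (2 * γ * bet (tC η tA tB)) • a + γ' • YA
  elB : lamr (1 - η) tB (tC η tA tB) γ • comm b (Hm ρB) =
    (1 - γ) • comm b (pB ρA (Θ (Hm ρ'))) + (2 * γ * bet (tC η tA tB)) • b + γ' • YB
  kA : ∀ Z, (1 - γ) ^ 2 * kf LM ρA (cen ρA (pA ρB (Θ Z))) ≤ lamr η tA (tC η tA tB) γ * kf LM ρ' Z
  kB : ∀ Z, (1 - γ) ^ 2 * kf LM ρB (cen ρB (pB ρA (Θ Z))) ≤
    lamr (1 - η) tB (tC η tA tB) γ * kf LM ρ' Z
  R1 : 1 ≤ R
  Ra : OpLe a R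
  Rb : OpLe b R
  Rc : OpLe c R
  RH : OpLe (Hm ρ') R

/-- the boundary error -/
noncomputable def bdry (η tA tB R : ℝ) (ρA Qa : Matrix ι ι ℂ) (ρB Qb : Matrix ι' ι' ℂ) : ℝ :=
  40 * (1 + bet (tC η tA tB)) * (tA + tB) * R ^ 3 * (√(rtr (ρA * Qa)) + √(rtr (ρB * Qb)))

end mat

/-! ### boxes of occupation numbers -/

/-- occupation tuples with at most `K` photons per mode -/
abbrev Box (n K : ℕ) : Type := Fin n → Fin (K + 1)

section box
variable {n K : ℕ}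

/-- total photon number -/
def tot (k : Box n K) : ℕ := ∑ j, (k j : ℕ)

/-- truncated annihilation operator of mode `j` -/
noncomputable def ann (K : ℕ) (j : Fin n) : Matrix (Box n K) (Box n K) ℂ :=
  Matrix.of fun k k' =>
    if (k' j : ℕ) = k j + 1 ∧ ∀ i, i ≠ j → k' i = k i then ((√((k' j : ℕ) : ℝ) : ℝ) : ℂ) else 0

/-- projection onto the top level of mode `j` -/
noncomputable def topP (K : ℕ) (j : Fin n) : Matrix (Box n K) (Box n K) ℂ :=
  rdiag fun k => if (k j : ℕ) = K then 1 else 0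

/-- expectation of a diagonal observable -/
noncomputable def ex (F : Box n K → ℝ) (ρ : Matrix (Box n K) (Box n K) ℂ) : ℝ :=
  ∑ k, F k * (ρ k k).re

/-- mean total photon number -/
noncomputable def en (ρ : Matrix (Box n K) (Box n K) ℂ) : ℝ := ex (fun k => (tot k : ℝ)) ρ

/-- the penalty observable -/
noncomputable def wsum (W : ℕ → ℝ) (k : Box n K) : ℝ := ∑ j, W (k j)

/-- the beam-splitter isometry -/
noncomputable def Vbs (n K : ℕ) (η : ℝ) :
    Matrix (Box n (2 * K) × Box n (2 * K)) (Box n K × Box n K) ℂ :=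
  Matrix.of fun pq kl => (bsAmpN η kl.1 kl.2 pq.1 pq.2 : ℂ)

/-- the Heisenberg map `Z ↦ V† (Z ⊗ 1) V` -/
noncomputable def Th (n K : ℕ) (η : ℝ) :
    Matrix (Box n (2 * K)) (Box n (2 * K)) ℂ →ₗ[ℂ]
      Matrix (Box n K × Box n K) (Box n K × Box n K) ℂ where
  toFun Z := (Vbs n K η)ᴴ * (Z ⊗ₖ (1 : Matrix (Box n (2 * K)) (Box n (2 * K)) ℂ)) * Vbs n K η
  map_add' X Y := by rw [add_kronecker, Matrix.mul_add, Matrix.add_mul]
  map_smul' r X := by rw [smul_kronecker, Matrix.mul_smul, Matrix.smul_mul]; rfl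

/-- truncated partition function -/
noncomputable def Zp (n L : ℕ) (t : ℝ) : ℝ := ∑ k : Box n L, (t / (t + 1)) ^ tot k

/-- truncated thermal state -/
noncomputable def therm (n L : ℕ) (t : ℝ) : Matrix (Box n L) (Box n L) ℂ :=
  rdiag fun k => (t / (t + 1)) ^ tot k / Zp n L t

/-- the mixed output -/
noncomputable def mixo (η γ tc : ℝ) (ρA ρB : Matrix (Box n K) (Box n K) ℂ) :
    Matrix (Box n (2 * K)) (Box n (2 * K)) ℂ :=
  (1 - γ) • bsOutput η ρA ρB + γ • therm n (2 * K) tc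

/-- the regularised functional -/
noncomputable def Phi (η tA tB γ γ' : ℝ) (W : ℕ → ℝ) (ρA ρB : Matrix (Box n K) (Box n K) ℂ) : ℝ :=
  ent (mixo η γ (tC η tA tB) ρA ρB) - lamr η tA (tC η tA tB) γ * ent ρA
    - lamr (1 - η) tB (tC η tA tB) γ * ent ρB + 2 * γ * bet (tC η tA tB) * (en ρA + en ρB)
    + γ' * (ex (wsum W) ρA + ex (wsum W) ρB)

/-- the thermal value of the regularised functional -/
noncomputable def Vgam (n : ℕ) (η tA tB γ : ℝ) : ℝ :=
  n * (Real.log (1 + tC η tA tB) - lamr η tA (tC η tA tB) γ * Real.log (1 + tA)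
    - lamr (1 - η) tB (tC η tA tB) γ * Real.log (1 + tB))

/-- a global minimiser of `Phi` over pairs of density matrices -/
structure IsMinPair (η tA tB γ γ' : ℝ) (W : ℕ → ℝ) (ρA ρB : Matrix (Box n K) (Box n K) ℂ) :
    Prop where
  dA : Dens ρA
  dB : Dens ρB
  min : ∀ τA τB : Matrix (Box n K) (Box n K) ℂ, Dens τA → Dens τB →
    Phi η tA tB γ γ' W ρA ρB ≤ Phi η tA tB γ γ' W τA τB

/-- the common operator bound used for box `K` -/
noncomputable def Rbd (n K : ℕ) (tc γ : ℝ) : ℝ :=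
  (2 + 2 * n * bet tc + n * Real.log (1 + tc) - Real.log γ) * (K + 1)

/-- isometric embedding of a smaller box -/
noncomputable def embJ (n K K' : ℕ) : Matrix (Box n K') (Box n K) ℂ :=
  Matrix.of fun k' k => if ∀ j, (k' j : ℕ) = k j then 1 else 0

/-! ### the infinite-dimensional side -/

/-- a box element as an occupation tuple -/
def toOcc (k : Box n K) : Occ n := fun j => k j

/-- extension by zero of a box matrix -/
noncomputable def ext0 (M : Matrix (Box n K) (Box n K) ℂ) (k l : Occ n) : ℂ :=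
  if h : (∀ j, k j < K + 1) ∧ (∀ j, l j < K + 1) then
    M (fun j => ⟨k j, h.1 j⟩) (fun j => ⟨l j, h.2 j⟩) else 0

/-- normalised truncation of a state to a box -/
noncomputable def trunc (ρ : FockState n) (K : ℕ) : Matrix (Box n K) (Box n K) ℂ :=
  (∑ k : Box n K, (entry ρ.op (toOcc k) (toOcc k)).re)⁻¹ •
    Matrix.of fun k l : Box n K => entry ρ.op (toOcc k) (toOcc l)

/-- box density matrices converging entrywise to a state -/
structure Approx {L : ℕ → ℕ} (M : ∀ K, Matrix (Box n (L K)) (Box n (L K)) ℂ) (ρ : FockState n) :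
    Prop where
  dens : ∀ᶠ K in atTop, Dens (M K)
  lim : ∀ k l, Tendsto (fun K => ext0 (M K) k l) atTop (𝓝 (entry ρ.op k l))

/-- positive semidefinite kernel on occupation tuples -/
def PsdK (G : Occ n → Occ n → ℂ) : Prop :=
  ∀ (s : Finset (Occ n)) (v : Occ n → ℂ), 0 ≤ ∑ k ∈ s, ∑ l ∈ s, star (v k) * G k l * v l

/-- `outBlock` for general kernels -/
noncomputable def blk (η : ℝ) (GA GB : Occ n → Occ n → ℂ) (k l e : Occ n) : ℂ :=
  ∑ a : Splitting (k + e), ∑ b : Splitting (l + e),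
    (ampOcc η a.fst a.snd k e : ℂ) * GA a.fst b.fst * GB a.snd b.snd * (ampOcc η b.fst b.snd l e : ℂ)

/-- probability of the sector of total occupation `m` -/
noncomputable def sect (GA GB : Occ n → Occ n → ℂ) (m : Occ n) : ℝ :=
  ∑ a : Splitting m, (GA a.fst a.fst).re * (GB a.snd a.snd).re

end box

end Crest.Agent.R331
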