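import Crest.Agent.R332.Mat
import Mathlib.Analysis.SpecialFunctions.ContinuousFunctionalCalculus.ExpLog.Order

/-! Row 331: operator monotonicity of `log` for matrices. -/

set_option autoImplicit false
set_option linter.unusedSectionVars false

open Matrix Crest.Agent.R342 Crest.Agent.R332
open scoped ComplexOrder MatrixOrder Matrix.Norms.L2Operator

namespace Crest.Agent.R331

variable {ι : Type} [Fintype ι] [DecidableEq ι]

lemma entAux_log_mono {A B : Matrix ι ι ℂ} (hA : A.PosDef) (h : (B - A).PosSemidef) :
    (fc Real.log B - fc Real.log A).PosSemidef := by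
  have hB : B.IsHermitian := by
    have : B = (B - A) + A := by abel
    rw [this]; exact h.1.add hA.1
  have hab : A ≤ B := h
  have hs : IsStrictlyPositive A := hA.isStrictlyPositive
  have := CFC.log_le_log hab hs
  unfold CFC.log at this
  rw [cfc_eq_fc _ hA.1, cfc_eq_fc _ hB] at this
  exact this

end Crest.Agent.R331
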