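import Crest.Agent.R331.Kf
import Crest.Agent.R331.EntAux

/-! Row 331: entropy toolkit (task ENT). Use `klein_eq`, `klein`, `continuousOn_trf`,
`fc_conj_isometry`, `cfc_eq_fc` from `R332.Mat`. -/

set_option autoImplicit false
set_option linter.unusedSectionVars false

open Matrix Set Filter Topology Crest.Agent.R342 Crest.Agent.R332 Crest.MathPhysics.Bosonic
open scoped ComplexOrder Kronecker Matrix.Norms.Frobenius

namespace Crest.Agent.R331

variable {ι ι' κ : Type} [Fintype ι] [DecidableEq ι] [Fintype ι'] [DecidableEq ι']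
  [Fintype κ] [DecidableEq κ]

lemma ent_kl_nonneg {a b : ℝ} (ha : 0 ≤ a) (hb : 0 < b) :
    0 ≤ a * Real.log a - a * Real.log b - a + b := by
  rcases ha.eq_or_lt with h | h
  · simp [← h, hb.le]
  · have h1 := Real.log_le_sub_one_of_pos (div_pos hb h)
    rw [Real.log_div hb.ne' h.ne'] at h1
    have h2 := mul_le_mul_of_nonneg_left h1 ha
    rw [mul_sub a (b / a), mul_div_cancel₀ _ h.ne'] at h2
    nlinarith

lemma ent_kl_eq {a b : ℝ} (ha : 0 ≤ a) (hb : 0 < b)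
    (h0 : a * Real.log a - a * Real.log b - a + b = 0) : a = b := by
  rcases ha.eq_or_lt with h | h
  · rw [← h] at h0; simp at h0; exact absurd h0 hb.ne'
  · by_contra hne
    have hne' : b / a ≠ 1 := fun h1 => hne (by field_simp at h1; linarith)
    have h1 := Real.log_lt_sub_one_of_pos (div_pos hb h) hne'
    rw [Real.log_div hb.ne' h.ne'] at h1
    have h2 := mul_lt_mul_of_pos_left h1 h
    rw [mul_sub a (b / a), mul_div_cancel₀ _ h.ne'] at h2
    nlinarith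

lemma ent_cross_eq {ρ τ : Matrix ι ι ℂ} (hρ : Dens ρ) (hτ : FDens τ) :
    rtr (ρ * Hm τ) - ent ρ = ∑ i, ∑ j, ovl ρ τ i j *
      (ev ρ i * Real.log (ev ρ i) - ev ρ i * Real.log (ev τ j) - ev ρ i + ev τ j) := by
  have e1 : rtr (ρ * Hm τ) = ∑ i, ∑ j, ovl ρ τ i j * (ev ρ i * -Real.log (ev τ j)) := by
    unfold Hm
    rw [← rtr_fc_mul_fc (fun s => s) (fun x => -Real.log x) ρ τ, fc_id hρ.1.1]
  have e2 := trf_eq_left Real.negMulLog ρ τ
  have e3 := trf_eq_left (fun s => s) ρ τ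
  have e4 := trf_eq_right (fun s => s) ρ τ
  have s1 : trf (fun s => s) ρ = 1 := hρ.sum_ev
  have s2 : trf (fun s => s) τ = 1 := hτ.dens.sum_ev
  have : rtr (ρ * Hm τ) - ent ρ =
      rtr (ρ * Hm τ) - trf Real.negMulLog ρ - trf (fun s => s) ρ + trf (fun s => s) τ := by
    rw [s1, s2]; unfold ent; ring
  rw [this, e1, e2, e3, e4]
  simp only [← Finset.sum_sub_distrib, ← Finset.sum_add_distrib, Real.negMulLog]
  exact Finset.sum_congr rfl fun i _ => Finset.sum_congr rfl fun j _ => by ring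

lemma ent_smul {ρ : Matrix ι ι ℂ} (h : Dens ρ) (s : ℝ) :
    ent (s • ρ) = s * ent ρ + Real.negMulLog s := by
  unfold ent
  rw [← rtr_fc, fc_smul_arg _ h.1.1, rtr_fc]
  unfold trf
  simp only [Real.negMulLog_mul]
  rw [Finset.sum_add_distrib, ← Finset.sum_mul, h.sum_ev, ← Finset.mul_sum]
  ring

lemma ent_diag_re_nonneg {M : Matrix ι ι ℂ} (h : M.PosSemidef) (k : ι) : 0 ≤ (M k k).re :=
  (Complex.nonneg_iff.1 (h.diag_nonneg (i := k))).1

lemma ent_nonneg {ρ : Matrix ι ι ℂ} (h : Dens ρ) : 0 ≤ ent ρ := by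
  exact Finset.sum_nonneg fun i _ =>
    Real.negMulLog_nonneg (ev_nonneg h.1 i) (h.ev_le_one i)

lemma ent_eq_rtr {ρ : Matrix ι ι ℂ} (h : ρ.IsHermitian) : ent ρ = rtr (ρ * Hm ρ) := by
  unfold ent Hm
  rw [mul_fc h, rtr_fc]
  congr 1
  funext t
  simp [Real.negMulLog]

lemma Hm_herm (ρ : Matrix ι ι ℂ) : (Hm ρ).IsHermitian := fc_herm _ _

lemma Hm_psd {ρ : Matrix ι ι ℂ} (h : FDens ρ) : (Hm ρ).PosSemidef := by
  refine fc_psd fun i => ?_
  have := Real.log_nonpos (ev_pos h.1 i).le (h.dens.ev_le_one i)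
  linarith

/-- `ρ * Hm ρ = Hm ρ * ρ = fc negMulLog ρ` is psd for a density matrix -/
lemma mul_Hm_psd {ρ : Matrix ι ι ℂ} (h : Dens ρ) :
    (ρ * Hm ρ).PosSemidef ∧ ρ * Hm ρ = Hm ρ * ρ := by
  unfold Hm
  rw [mul_fc h.1.1, fc_mul_self h.1.1]
  refine ⟨fc_psd fun i => ?_, fc_congr fun i => mul_comm _ _⟩
  have := Real.log_nonpos (ev_nonneg h.1 i) (h.ev_le_one i)
  exact mul_nonneg (ev_nonneg h.1 i) (by linarith)

/-- Klein's inequality `D(ρ‖τ) ≥ 0` -/
lemma ent_le_cross {ρ τ : Matrix ι ι ℂ} (hρ : Dens ρ) (hτ : FDens τ) :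
    ent ρ ≤ rtr (ρ * Hm τ) := by
  have := ent_cross_eq hρ hτ
  have h2 : 0 ≤ ∑ i, ∑ j, ovl ρ τ i j * (ev ρ i * Real.log (ev ρ i) - ev ρ i * Real.log (ev τ j)
      - ev ρ i + ev τ j) :=
    Finset.sum_nonneg fun i _ => Finset.sum_nonneg fun j _ =>
      mul_nonneg (ovl_nonneg _ _ _ _) (ent_kl_nonneg (ev_nonneg hρ.1 i) (ev_pos hτ.1 j))
  linarith

/-- equality case: `D = ∑ ovl i j (a log a - a log b - a + b)`, each term vanishes only if
`ovl i j = 0` or `a_i = b_j`; then `‖ρ - τ‖² = ∑ ovl (a - b)² = 0` (`norm_sub_sq_ev`). -/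
lemma eq_of_cross_le {ρ τ : Matrix ι ι ℂ} (hρ : Dens ρ) (hτ : FDens τ)
    (h : rtr (ρ * Hm τ) ≤ ent ρ) : ρ = τ := by
  have e := ent_cross_eq hρ hτ
  have hn : ∀ i j, 0 ≤ ovl ρ τ i j * (ev ρ i * Real.log (ev ρ i) - ev ρ i * Real.log (ev τ j)
      - ev ρ i + ev τ j) := fun i j =>
    mul_nonneg (ovl_nonneg _ _ _ _) (ent_kl_nonneg (ev_nonneg hρ.1 i) (ev_pos hτ.1 j))
  have h0 : ∑ i, ∑ j, ovl ρ τ i j * (ev ρ i * Real.log (ev ρ i) - ev ρ i * Real.log (ev τ j)
      - ev ρ i + ev τ j) = 0 :=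
    le_antisymm (by linarith) (Finset.sum_nonneg fun i _ => Finset.sum_nonneg fun j _ => hn i j)
  rw [Finset.sum_eq_zero_iff_of_nonneg fun i _ => Finset.sum_nonneg fun j _ => hn i j] at h0
  have h1 : ‖ρ - τ‖ ^ 2 = 0 := by
    rw [norm_sub_sq_ev hρ.1.1 hτ.1.1]
    refine Finset.sum_eq_zero fun i _ => Finset.sum_eq_zero fun j _ => ?_
    have h2 := (Finset.sum_eq_zero_iff_of_nonneg fun j _ => hn i j).1 (h0 i (Finset.mem_univ i))
      j (Finset.mem_univ j)
    rcases mul_eq_zero.1 h2 with h3 | h3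
    · rw [h3, zero_mul]
    · rw [ent_kl_eq (ev_nonneg hρ.1 i) (ev_pos hτ.1 j) h3]; simp
  have h2 : ‖ρ - τ‖ = 0 := by simpa using h1
  exact sub_eq_zero.1 (norm_eq_zero.1 h2)

/-- operator monotonicity of `log` (Mathlib: `CFC.log_le_log` / `CFC.log_monotoneOn` with
`open scoped MatrixOrder Matrix.Norms.L2Operator`, and `cfc_eq_fc`; or via
`log x = ∫ (1/(1+u) - 1/(x+u)) du`). -/
lemma Hm_anti {A B : Matrix ι ι ℂ} (hA : A.PosDef) (h : (B - A).PosSemidef) :
    (Hm A - Hm B).PosSemidef := by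
  have e : ∀ C : Matrix ι ι ℂ, Hm C = -fc Real.log C := fun C => by
    unfold Hm
    rw [← neg_one_smul ℝ (fc Real.log C), fc_smul]
    simp
  rw [e, e]
  convert entAux_log_mono hA h using 1
  abel

lemma Hm_smul {A : Matrix ι ι ℂ} (hA : A.PosDef) {s : ℝ} (hs : 0 < s) :
    Hm (s • A) = Hm A - Real.log s • (1 : Matrix ι ι ℂ) := by
  unfold Hm
  rw [fc_smul_arg _ hA.1, ← fc_const, fc_sub]
  refine fc_congr fun i => ?_
  rw [Real.log_mul hs.ne' (ev_pos hA i).ne']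
  ring

/-- `S((1-γ)ρ + γ ω) ≤ S(ρ) + γ S(ω) + f(1-γ) + f(γ)`, `f = negMulLog`.  With `A = (1-γ)ρ`,
`B = γ ω`, `ε = min ev B > 0`: `ent (A+B) = rtr (A Hm(A+B)) + rtr (B Hm(A+B))`;
`A + B ≥ A + ε` gives `rtr (A Hm(A+B)) ≤ rtr (A Hm (A+ε)) = ∑ -a log (a+ε) ≤ ent A`, and `A + B ≥ B`. -/
lemma ent_mix_le {ρ ω : Matrix ι ι ℂ} (hρ : Dens ρ) (hω : FDens ω) {γ : ℝ} (h0 : 0 < γ)
    (h1 : γ < 1) :
    ent ((1 - γ) • ρ + γ • ω) ≤ ent ρ + γ * ent ω + Real.negMulLog (1 - γ) + Real.negMulLog γ := by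
  have h1' : 0 < 1 - γ := by linarith
  set A : Matrix ι ι ℂ := (1 - γ) • ρ with hAdef
  set B : Matrix ι ι ℂ := γ • ω with hBdef
  have hA : A.PosSemidef := psd_smul hρ.1 h1'.le
  have hB : B.PosDef := hω.1.smul h0
  obtain ⟨ε, hε, hεB⟩ : ∃ ε : ℝ, 0 < ε ∧ ∀ i, ε ≤ ev B i := by
    rcases isEmpty_or_nonempty ι with hι | hι
    · exact ⟨1, one_pos, fun i => isEmptyElim i⟩
    · obtain ⟨i, -, hi⟩ := Finset.exists_min_image Finset.univ (ev B) Finset.univ_nonempty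
      exact ⟨ev B i, ev_pos hB i, fun j => hi j (Finset.mem_univ j)⟩
  have hBε := (le_ev_iff hB.1 ε).1 hεB
  have hAε : (A + ε • (1 : Matrix ι ι ℂ)).PosDef :=
    Matrix.PosDef.posSemidef_add hA (Matrix.PosDef.one.smul hε)
  have hAB : (A + B).IsHermitian := hA.1.add hB.1
  rw [ent_eq_rtr hAB, Matrix.add_mul, rtr_add]
  have e1 : rtr (A * Hm (A + B)) ≤ ent A := by
    have m1 : (Hm (A + ε • (1 : Matrix ι ι ℂ)) - Hm (A + B)).PosSemidef :=
      Hm_anti hAε (by convert hBε using 1; abel)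
    refine (rtr_mul_mono hA m1).trans ?_
    unfold Hm ent
    rw [fc_add_smul_one _ hA.1, mul_fc hA.1, rtr_fc]
    refine Finset.sum_le_sum fun i _ => ?_
    have ha := ev_nonneg hA i
    rcases ha.eq_or_lt with h | h
    · simp [← h]
    · have := Real.log_le_log h (by linarith : ev A i ≤ ev A i + ε)
      simp only [Real.negMulLog]
      nlinarith
  have e2 : rtr (B * Hm (A + B)) ≤ ent B := by
    have m1 : (Hm B - Hm (A + B)).PosSemidef := Hm_anti hB (by simpa using hA)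
    rw [ent_eq_rtr hB.1]
    exact rtr_mul_mono hB.posSemidef m1
  have e3 := ent_smul hρ (1 - γ)
  have e4 := ent_smul hω.dens γ
  have e5 := ent_nonneg hρ
  rw [← hAdef] at e3
  rw [← hBdef] at e4
  nlinarith

lemma continuousOn_ent {X : Type*} [TopologicalSpace X] {s : Set X} {A : X → Matrix ι ι ℂ}
    (hA : ContinuousOn A s) (hh : ∀ x ∈ s, (A x).IsHermitian) :
    ContinuousOn (fun x => ent (A x)) s := by
  exact continuousOn_trf (S := univ) (f := fun _ => Real.negMulLog) hA hh (fun _ _ _ => mem_univ _)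
    (Real.continuous_negMulLog.comp continuous_snd).continuousOn

lemma ent_conj_isometry {U : Matrix κ ι ℂ} (hU : Uᴴ * U = 1) {B : Matrix ι ι ℂ}
    (hB : B.IsHermitian) : ent (U * B * Uᴴ) = ent B := by
  exact trf_conj_isometry Real.negMulLog_zero hU hB

lemma isCompact_dens : IsCompact {ρ : Matrix ι ι ℂ | Dens ρ} := by
  refine Metric.isCompact_of_isClosed_isBounded ?_ ?_
  · refine isClosed_iff_forall_filter.2 fun ρ F hF h1 h2 => ?_
    have hev : ∀ᶠ σ in F, Dens σ := le_principal_iff.1 h1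
    have ht : Tendsto (fun σ : Matrix ι ι ℂ => σ) F (𝓝 ρ) := h2
    refine ⟨psd_of_tendsto ht (hev.mono fun σ hσ => hσ.1), ?_⟩
    have hc : Continuous (fun σ : Matrix ι ι ℂ => trace σ) := by fun_prop
    have h3 : Tendsto (fun σ : Matrix ι ι ℂ => trace σ) F (𝓝 (trace ρ)) := (hc.tendsto ρ).comp ht
    have h4 : Tendsto (fun σ : Matrix ι ι ℂ => trace σ) F (𝓝 1) :=
      tendsto_const_nhds.congr' (hev.mono fun σ hσ => hσ.2.symm)
    exact tendsto_nhds_unique h3 h4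
  · refine (Metric.isBounded_closedBall (x := (0 : Matrix ι ι ℂ)) (r := 1)).subset fun ρ hρ => ?_
    rw [mem_closedBall_zero_iff]
    refine (norm_le_rtr hρ.1).trans (le_of_eq ?_)
    unfold rtr
    rw [hρ.2]; simp

lemma ent_eq_sum_diag (ρ : Matrix ι ι ℂ) : ent ρ = ∑ k, (fc Real.negMulLog ρ k k).re := by
  unfold ent
  rw [← rtr_fc, rtr_eq_sum]

lemma diag_ent_nonneg {ρ : Matrix ι ι ℂ} (h : Dens ρ) (k : ι) :
    0 ≤ (fc Real.negMulLog ρ k k).re := by
  exact ent_diag_re_nonneg (fc_psd fun i =>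
    Real.negMulLog_nonneg (ev_nonneg h.1 i) (h.ev_le_one i)) k

/-- from `-x log x ≥ (1 - log w) x - x²/w` for `x ≥ 0` -/
lemma diag_ent_ge {ρ : Matrix ι ι ℂ} (h : ρ.PosSemidef) {w : ℝ} (hw : 0 < w) (k : ι) :
    (1 - Real.log w) * (ρ k k).re - (∑ l, ‖ρ k l‖ ^ 2) / w ≤ (fc Real.negMulLog ρ k k).re := by
  have hp : (fc (fun x => Real.negMulLog x - ((1 - Real.log w) * x - w⁻¹ * (x * x))) ρ).PosSemidef := by
    refine fc_psd' h fun x hx => ?_
    rcases hx.eq_or_lt with h0 | h0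
    · simp [← h0]
    · have h1 := Real.log_le_sub_one_of_pos (div_pos h0 hw)
      rw [Real.log_div h0.ne' hw.ne'] at h1
      have h2 := mul_le_mul_of_nonneg_left h1 hx
      simp only [Real.negMulLog]
      rw [div_eq_inv_mul] at h2
      nlinarith
  rw [← fc_sub, ← fc_sub, ← fc_smul, ← fc_smul, ← fc_mul, fc_id h.1] at hp
  have h1 := ent_diag_re_nonneg hp k
  have h2 : ((ρ * ρ) k k).re = ∑ l, ‖ρ k l‖ ^ 2 := by
    rw [mul_apply, Complex.re_sum]
    refine Finset.sum_congr rfl fun l _ => ?_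
    have : ρ l k = star (ρ k l) := (h.1.apply l k).symm
    rw [this, Complex.star_def, Complex.mul_conj', ← Complex.ofReal_pow, Complex.ofReal_re]
  simp only [Matrix.sub_apply, Matrix.smul_apply, Complex.sub_re, Complex.real_smul, Complex.re_ofReal_mul] at h1
  rw [h2] at h1
  rw [div_eq_inv_mul]
  linarith

/-- from `-x log x ≤ s x + exp (-s - 1)` for `x ≥ 0` -/
lemma diag_ent_le {ρ : Matrix ι ι ℂ} (h : ρ.PosSemidef) (s : ℝ) (k : ι) :
    (fc Real.negMulLog ρ k k).re ≤ s * (ρ k k).re + Real.exp (-s - 1) := by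
  have hp : (fc (fun x => (s * x + Real.exp (-s - 1)) - Real.negMulLog x) ρ).PosSemidef := by
    refine fc_psd' h fun x hx => ?_
    rcases hx.eq_or_lt with h0 | h0
    · simp [← h0, (Real.exp_pos _).le]
    · have h1 := Real.add_one_le_exp (-s - 1 - Real.log x)
      rw [Real.exp_sub, Real.exp_log h0, le_div_iff₀ h0] at h1
      simp only [Real.negMulLog]
      nlinarith
  rw [← fc_sub, ← fc_add, ← fc_smul, fc_id h.1, fc_const] at hp
  have h1 := ent_diag_re_nonneg hp k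
  simp only [Matrix.sub_apply, Matrix.add_apply, Matrix.smul_apply, one_apply_eq, Complex.sub_re, Complex.add_re,
    Complex.real_smul, Complex.re_ofReal_mul, Complex.ofReal_re, mul_one] at h1
  linarith

/-- the Gibbs state of a Hermitian matrix: `τ = exp(-G) / tr exp(-G)` -/
lemma exists_gibbs [Nonempty ι] {G : Matrix ι ι ℂ} (hG : G.IsHermitian) :
    ∃ (τ : Matrix ι ι ℂ) (c : ℝ), FDens τ ∧ Hm τ = G + c • (1 : Matrix ι ι ℂ) := by
  set Z : ℝ := ∑ i, Real.exp (-ev G i) with hZ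
  have hZ0 : 0 < Z := Finset.sum_pos (fun i _ => Real.exp_pos _) Finset.univ_nonempty
  refine ⟨fc (fun x => Real.exp (-x) / Z) G, Real.log Z, ⟨?_, ?_⟩, ?_⟩
  · refine posDef_of_ev_pos (fc_herm _ _) fun i => ?_
    obtain ⟨j, hj⟩ := ev_fc (fun x => Real.exp (-x) / Z) G i
    rw [hj]
    positivity
  · have h1 : rtr (fc (fun x => Real.exp (-x) / Z) G) = 1 := by
      rw [rtr_fc]
      unfold trf
      rw [← Finset.sum_div, ← hZ, div_self hZ0.ne']
    have h2 : (trace (fc (fun x => Real.exp (-x) / Z) G)).im = 0 := by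
      have := congrArg trace (fc_conjTranspose (fun x => Real.exp (-x) / Z) G)
      rw [trace_conjTranspose] at this
      exact Complex.conj_eq_iff_im.1 this
    exact Complex.ext h1 h2
  · unfold Hm
    rw [fc_comp, ← fc_const (Real.log Z) G]
    conv_rhs => rw [← fc_id hG]
    rw [fc_comp, fc_add]
    refine fc_congr fun i => ?_
    rw [Real.log_div (Real.exp_pos _).ne' hZ0.ne', Real.log_exp]
    ring

end Crest.Agent.R331
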