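import Crest.Agent.R331.InfOut
import Crest.Agent.R331.BS

/-! Row 331: truncated outputs converge to the output (task INFOUT2). -/

set_option autoImplicit false
set_option linter.unusedSectionVars false

open Matrix Set Filter Topology Crest.Agent.R342 Crest.Agent.R332 Crest.MathPhysics.Bosonic
open scoped ComplexOrder Kronecker Matrix.Norms.Frobenius

namespace Crest.Agent.R331

variable {n : ℕ}

lemma io2_sum_eq {α β γ : Type} [Fintype α] [Fintype β] {g : α → γ} {g' : β → γ}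
    (hg : Function.Injective g) (hg' : Function.Injective g') (f : γ → ℂ)
    (h : ∀ x, f x ≠ 0 → x ∈ range g ∧ x ∈ range g') : ∑ a, f (g a) = ∑ b, f (g' b) :=
  ((hg.hasSum_iff fun x hx => by_contra fun h' => hx (h x h').1).1 (hasSum_fintype _)).unique
    ((hg'.hasSum_iff fun x hx => by_contra fun h' => hx (h x h').2).1 (hasSum_fintype _))

lemma io2_toOcc_inj {K : ℕ} : Function.Injective (toOcc : Box n K → Occ n) :=
  fun _ _ h => funext fun j => Fin.ext (congrFun h j)

lemma io2_amp {η : ℝ} {a a' k e : Occ n} (h : ampOcc η a a' k e ≠ 0) (j : Fin n) :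
    k j + e j = a j + a' j := by
  by_contra h'
  exact h (Finset.prod_eq_zero (Finset.mem_univ j) (by rw [bsAmp, if_neg h']))

lemma io2_amp_box {η : ℝ} {K : ℕ} {a a' : Box n K} {k e : Occ n}
    (h : ampOcc η (toOcc a) (toOcc a') k e ≠ 0) :
    (∀ j, k j < 2 * K + 1) ∧ ∀ j, e j < 2 * K + 1 := by
  have h1 : ∀ j, k j + e j < 2 * K + 1 := fun j => by
    have h2 : k j + e j = a j + a' j := io2_amp h j
    have := (a j).2
    have := (a' j).2
    omega
  exact ⟨fun j => by have := h1 j; omega, fun j => by have := h1 j; omega⟩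

lemma io2_ext0 {K : ℕ} {M : Matrix (Box n K) (Box n K) ℂ} {k l : Occ n} (h : ext0 M k l ≠ 0) :
    (∀ j, k j < K + 1) ∧ ∀ j, l j < K + 1 := by
  by_contra h'
  exact h (dif_neg h')

lemma io2_split {K : ℕ} {m : Occ n} (f : Occ n → Occ n → ℂ)
    (h : ∀ a a', f a a' ≠ 0 →
      (∀ j, m j = a j + a' j) ∧ (∀ j, a j < K + 1) ∧ ∀ j, a' j < K + 1) :
    ∑ s : Splitting m, f s.fst s.snd = ∑ p : Box n K × Box n K, f (toOcc p.1) (toOcc p.2) := by
  refine io2_sum_eq (g := fun s : Splitting m => (s.fst, s.snd))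
    (g' := fun p : Box n K × Box n K => (toOcc p.1, toOcc p.2)) ?_ ?_ (fun x => f x.1 x.2) ?_
  · exact fun s s' hs => funext fun j => Fin.ext (congrFun (congrArg Prod.fst hs) j)
  · exact io2_toOcc_inj.prodMap io2_toOcc_inj
  · rintro ⟨a, a'⟩ hx
    obtain ⟨h1, h2, h3⟩ := h a a' hx
    refine ⟨⟨fun j => ⟨a j, by have := h1 j; omega⟩, Prod.ext rfl (funext fun j => ?_)⟩,
      ⟨(fun j => ⟨a j, h2 j⟩, fun j => ⟨a' j, h3 j⟩), rfl⟩⟩
    have := h1 j
    show m j - a j = a' j
    omega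

lemma io2_blk (η : ℝ) {K : ℕ} (MA MB : Matrix (Box n K) (Box n K) ℂ) (k l e : Occ n) :
    blk η (ext0 MA) (ext0 MB) k l e = ∑ p : Box n K × Box n K, ∑ p' : Box n K × Box n K,
      (ampOcc η (toOcc p.1) (toOcc p.2) k e : ℂ) * MA p.1 p'.1 * MB p.2 p'.2 *
        (ampOcc η (toOcc p'.1) (toOcc p'.2) l e : ℂ) := by
  have key : ∀ a a' b b' : Occ n, (ampOcc η a a' k e : ℂ) * ext0 MA a b * ext0 MB a' b' *
      (ampOcc η b b' l e : ℂ) ≠ 0 →
      ((∀ j, (k + e) j = a j + a' j) ∧ (∀ j, a j < K + 1) ∧ ∀ j, a' j < K + 1) ∧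
      ((∀ j, (l + e) j = b j + b' j) ∧ (∀ j, b j < K + 1) ∧ ∀ j, b' j < K + 1) := by
    intro a a' b b' h
    simp only [ne_eq, mul_eq_zero, not_or, Complex.ofReal_eq_zero] at h
    obtain ⟨⟨⟨h1, h2⟩, h3⟩, h4⟩ := h
    exact ⟨⟨io2_amp h1, (io2_ext0 h2).1, (io2_ext0 h3).1⟩,
      io2_amp h4, (io2_ext0 h2).2, (io2_ext0 h3).2⟩
  rw [blk, io2_split (K := K) (fun a a' => ∑ b : Splitting (l + e), (ampOcc η a a' k e : ℂ) *
    ext0 MA a b.fst * ext0 MB a' b.snd * (ampOcc η b.fst b.snd l e : ℂ))]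
  · refine Finset.sum_congr rfl fun p _ => ?_
    rw [io2_split (K := K) (fun b b' => (ampOcc η (toOcc p.1) (toOcc p.2) k e : ℂ) *
      ext0 MA (toOcc p.1) b * ext0 MB (toOcc p.2) b' * (ampOcc η b b' l e : ℂ))
      fun b b' h => (key _ _ _ _ h).2]
    simp only [ext0_toOcc]
  · intro a a' h
    obtain ⟨b, -, hb⟩ := Finset.exists_ne_zero_of_sum_ne_zero h
    exact (key _ _ _ _ hb).1

/-- Both sides are the finite sum over `(e, a, a', b, b')` of
`amp(a,a';k,e) MA(a,b) MB(a',b') amp(b,b';l,e)`; terms vanish unless `a + a' = k + e`,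
`b + b' = l + e` (`bsAmp_eq_zero`) and `a, a', b, b'` lie in the box `K` (then `k, l, e` lie in the box `2K`). -/
theorem hasSum_blk_ext0 (η : ℝ) {K : ℕ} (MA MB : Matrix (Box n K) (Box n K) ℂ) (k l : Occ n) :
    HasSum (fun e => blk η (ext0 MA) (ext0 MB) k l e) (ext0 (bsOutput η MA MB) k l) := by
  have hz : ∀ e, ¬ ((∀ j, k j < 2 * K + 1) ∧ (∀ j, l j < 2 * K + 1) ∧ ∀ j, e j < 2 * K + 1) →
      blk η (ext0 MA) (ext0 MB) k l e = 0 := by
    intro e he
    rw [io2_blk]
    refine Finset.sum_eq_zero fun p _ => Finset.sum_eq_zero fun p' _ => ?_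
    by_contra h
    have h1 := io2_amp_box (K := K) (η := η) (a := p.1) (a' := p.2) (k := k) (e := e)
      fun h0 => h (by rw [h0]; simp)
    have h2 := io2_amp_box (K := K) (η := η) (a := p'.1) (a' := p'.2) (k := l) (e := e)
      fun h0 => h (by rw [h0]; simp)
    exact he ⟨h1.1, h2.1, h1.2⟩
  by_cases h : (∀ j, k j < 2 * K + 1) ∧ (∀ j, l j < 2 * K + 1)
  · have h1 : HasSum (fun e => blk η (ext0 MA) (ext0 MB) k l e)
        (∑ q : Box n (2 * K), blk η (ext0 MA) (ext0 MB) k l (toOcc q)) := by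
      refine ((io2_toOcc_inj (K := 2 * K)).hasSum_iff fun e he => hz e fun h' => he ?_).1
        (hasSum_fintype _)
      exact ⟨fun j => ⟨e j, h'.2.2 j⟩, rfl⟩
    convert h1 using 1
    rw [ext0, dif_pos h, bsOutput, Matrix.of_apply]
    refine Finset.sum_congr rfl fun q _ => ?_
    rw [io2_blk]
    simp only [Fintype.sum_prod_type]
    rfl
  · rw [ext0, dif_neg h]
    have : (fun e => blk η (ext0 MA) (ext0 MB) k l e) = fun _ => 0 :=
      funext fun e => hz e fun h' => h ⟨h'.1, h'.2.1⟩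
    rw [this]
    exact hasSum_zero

/-- Tannery (`tendsto_tsum_of_dominated_convergence`): each `blk .. k l e` is a finite sum of products of
converging entries (`approx_trunc`), dominated by `2 (sect (k+e) + sect (l+e))`
(`norm_blk_le`, `psdK_ext0`, `trunc_diag_le`, `hasSum_sect`); `dens_out`. -/
theorem approx_out {η : ℝ} (h0 : 0 ≤ η) (h1 : η ≤ 1) {ρA ρB ρC : FockState n}
    (h : IsBeamSplitterOutput η ρA ρB ρC) :
    Approx (L := fun K => 2 * K) (fun K => bsOutput η (trunc ρA K) (trunc ρB K)) ρC := by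
  have hA := approx_trunc ρA
  have hB := approx_trunc ρB
  refine ⟨?_, fun k l => ?_⟩
  · filter_upwards [hA.dens, hB.dens] with K h2 h3 using dens_out h0 h1 h2 h3
  have hs := (hasSum_sect ρA ρB).summable
  have hb : Summable fun e => 2 * (sect (entry ρA.op) (entry ρB.op) (k + e) +
      sect (entry ρA.op) (entry ρB.op) (l + e)) :=
    ((hs.comp_injective (add_right_injective k)).add
      (hs.comp_injective (add_right_injective l))).mul_left 2
  have key := tendsto_tsum_of_dominated_convergence (𝓕 := atTop)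
    (f := fun K e => blk η (ext0 (trunc ρA K)) (ext0 (trunc ρB K)) k l e)
    (g := fun e => outBlock η ρA ρB k l e) hb (fun e => ?_) ?_
  · rw [(h k l).tsum_eq] at key
    exact key.congr fun K => (hasSum_blk_ext0 η _ _ k l).tsum_eq
  · exact tendsto_finsetSum _ fun a _ => tendsto_finsetSum _ fun b _ =>
      (((hA.lim _ _).const_mul _).mul (hB.lim _ _)).mul_const _
  · filter_upwards [hA.dens, hB.dens, trunc_diag_le ρA, trunc_diag_le ρB] with K h2 h3 h4 h5 e
    have h6 : ∀ m, sect (ext0 (trunc ρA K)) (ext0 (trunc ρB K)) m ≤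
        4 * sect (entry ρA.op) (entry ρB.op) m := by
      intro m
      rw [sect, sect, Finset.mul_sum]
      refine Finset.sum_le_sum fun a _ => ?_
      have h7 := (Complex.nonneg_iff.1 ((psdK_ext0 h3.1).diag_nonneg a.snd)).1
      have h8 := (Complex.nonneg_iff.1 ((psdK_entry ρA).diag_nonneg a.fst)).1
      refine (mul_le_mul (h4 _) (h5 _) h7 (by positivity)).trans_eq (by ring)
    linarith [norm_blk_le h0 h1 (psdK_ext0 h2.1) (psdK_ext0 h3.1) k l e, h6 (k + e), h6 (l + e)]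

end Crest.Agent.R331
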