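import Crest.Agent.R331.InfCfc
import Crest.Agent.R331.Box

/-! Row 331: semicontinuity of the entropy along box approximations (task INFSEMI). -/

set_option autoImplicit false
set_option linter.unusedSectionVars false

open Matrix Set Filter Topology Crest.Agent.R342 Crest.Agent.R332 Crest.MathPhysics.Bosonic
open scoped ComplexOrder Kronecker Matrix.Norms.Frobenius

namespace Crest.Agent.R331

variable {n : ℕ}

lemma semi_toOcc_inj {K : ℕ} : Function.Injective (toOcc : Box n K → Occ n) := fun _ _ h =>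
  funext fun j => Fin.ext (congrFun h j)

lemma semi_ext0_zero {K : ℕ} (N : Matrix (Box n K) (Box n K) ℂ) {k : Occ n}
    (hk : k ∉ range (toOcc : Box n K → Occ n)) : ext0 N k k = 0 := by
  unfold ext0
  rw [dif_neg]
  rintro ⟨h, -⟩
  exact hk ⟨fun j => ⟨k j, h j⟩, rfl⟩

lemma semi_hasSum {K : ℕ} (N : Matrix (Box n K) (Box n K) ℂ) (φ : Occ n → ℝ) :
    HasSum (fun k => φ k * (ext0 N k k).re) (∑ b : Box n K, φ (toOcc b) * (N b b).re) := by
  rw [← (semi_toOcc_inj (n := n) (K := K)).hasSum_iff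
    (fun k hk => by rw [semi_ext0_zero N hk]; simp)]
  have := hasSum_fintype (fun b : Box n K => φ (toOcc b) * (N b b).re)
  simpa only [Function.comp_def, ext0_toOcc] using this

lemma semi_hasSum_ent {K : ℕ} (N : Matrix (Box n K) (Box n K) ℂ) :
    HasSum (fun k => (ext0 (fc Real.negMulLog N) k k).re) (ent N) := by
  have := semi_hasSum (fc Real.negMulLog N) (fun _ => 1)
  simpa only [one_mul, ← ent_eq_sum_diag] using this

lemma semi_hasSum_en {K : ℕ} (N : Matrix (Box n K) (Box n K) ℂ) :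
    HasSum (fun k : Occ n => ((∑ j, k j : ℕ) : ℝ) * (ext0 N k k).re) (en N) :=
  semi_hasSum N _

lemma semi_g_nonneg {K : ℕ} {N : Matrix (Box n K) (Box n K) ℂ} (h : Dens N) (k : Occ n) :
    0 ≤ (ext0 (fc Real.negMulLog N) k k).re := by
  by_cases hk : k ∈ range (toOcc : Box n K → Occ n)
  · obtain ⟨b, rfl⟩ := hk
    rw [ext0_toOcc]
    exact diag_ent_nonneg h b
  · rw [semi_ext0_zero _ hk]
    simp

lemma semi_p_nonneg {K : ℕ} {N : Matrix (Box n K) (Box n K) ℂ} (h : Dens N) (k : Occ n) :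
    0 ≤ (ext0 N k k).re := by
  by_cases hk : k ∈ range (toOcc : Box n K → Occ n)
  · obtain ⟨b, rfl⟩ := hk
    rw [ext0_toOcc]
    exact ent_diag_re_nonneg h.1 b
  · rw [semi_ext0_zero _ hk]
    simp

lemma semi_g_le {K : ℕ} {N : Matrix (Box n K) (Box n K) ℂ} (h : Dens N) (s : ℝ) (k : Occ n) :
    (ext0 (fc Real.negMulLog N) k k).re ≤ s * (ext0 N k k).re + Real.exp (-s - 1) := by
  by_cases hk : k ∈ range (toOcc : Box n K → Occ n)
  · obtain ⟨b, rfl⟩ := hk
    rw [ext0_toOcc, ext0_toOcc]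
    exact diag_ent_le h.1 s b
  · rw [semi_ext0_zero _ hk, semi_ext0_zero _ hk]
    simp [(Real.exp_pos _).le]

lemma semi_summable_geom (n : ℕ) {r : ℝ} (h0 : 0 ≤ r) (h1 : r < 1) :
    Summable fun k : Occ n => ∏ j, r ^ k j := by
  classical
  refine summable_of_sum_le (c := ∏ _j : Fin n, (1 - r)⁻¹)
    (fun k => Finset.prod_nonneg fun j _ => pow_nonneg h0 _) fun F => ?_
  obtain ⟨N, hN⟩ : ∃ N : ℕ, ∀ k ∈ F, ∀ j, k j < N := by
    refine ⟨(F.sup fun k => Finset.univ.sup k) + 1, fun k hk j => Nat.lt_succ_of_le ?_⟩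
    exact (Finset.le_sup (f := k) (Finset.mem_univ j)).trans
      (Finset.le_sup (f := fun k : Occ n => Finset.univ.sup k) hk)
  have hsub : F ⊆ Fintype.piFinset fun _ : Fin n => Finset.range N := fun k hk =>
    Fintype.mem_piFinset.2 fun j => Finset.mem_range.2 (hN k hk j)
  refine (Finset.sum_le_sum_of_subset_of_nonneg hsub fun k _ _ =>
    Finset.prod_nonneg fun j _ => pow_nonneg h0 _).trans ?_
  rw [← Finset.prod_univ_sum (fun _ : Fin n => Finset.range N) (fun _ m => r ^ m)]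
  refine Finset.prod_le_prod (fun j _ => Finset.sum_nonneg fun m _ => pow_nonneg h0 _) fun j _ => ?_
  exact sum_le_hasSum _ (fun m _ => pow_nonneg h0 _) (hasSum_geometric_of_lt_one h0 h1)

lemma semi_summable_exp (n : ℕ) {u : ℝ} (hu : 0 < u) :
    ∃ C, HasSum (fun k : Occ n => Real.exp (-(u * ((∑ j, k j : ℕ) : ℝ)) - 1)) C := by
  have h := (semi_summable_geom n (Real.exp_pos (-u)).le
    (Real.exp_lt_one_iff.2 (by linarith))).mul_left (Real.exp (-1))
  refine ⟨_, (h.congr fun k => ?_).hasSum⟩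
  rw [Finset.prod_pow_eq_pow_sum, ← Real.exp_nat_mul, ← Real.exp_add]
  congr 1
  ring

lemma semi_ent_le {K : ℕ} {N : Matrix (Box n K) (Box n K) ℂ} (h : Dens N) {u C : ℝ} (hu : 0 < u)
    (hC : HasSum (fun k : Occ n => Real.exp (-(u * ((∑ j, k j : ℕ) : ℝ)) - 1)) C)
    (F : Finset (Occ n)) :
    ent N ≤ u * en N + (C - ∑ k ∈ F, Real.exp (-(u * ((∑ j, k j : ℕ) : ℝ)) - 1)) +
      ∑ k ∈ F, (ext0 (fc Real.negMulLog N) k k).re := by
  have h1 := (((semi_hasSum_en N).mul_left u).add hC).sub (semi_hasSum_ent N)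
  have h2 := sum_le_hasSum F (fun k _ => by
    have := semi_g_le h (u * ((∑ j, k j : ℕ) : ℝ)) k
    linarith) h1
  rw [Finset.sum_sub_distrib, Finset.sum_add_distrib] at h2
  have h3 : 0 ≤ ∑ k ∈ F, u * (((∑ j, k j : ℕ) : ℝ) * (ext0 N k k).re) :=
    Finset.sum_nonneg fun k _ => mul_nonneg hu.le (mul_nonneg (Nat.cast_nonneg _) (semi_p_nonneg h k))
  linarith

/-- `ent (M K) = ∑_k (fc f (M K) k k).re ≥ ∑_{k ∈ F} (ext0 (fc f (M K)) k k).re` for every finite `F`
(`ent_eq_sum_diag`, `diag_ent_nonneg`, `ext0_toOcc`); choose `F` with partial sum `> s'`. -/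
theorem Approx.lsc {L : ℕ → ℕ} {M : ∀ K, Matrix (Box n (L K)) (Box n (L K)) ℂ}
    {ρ : FockState n} (h : Approx M ρ) {s s' : ℝ} (hs : HasEntropy ρ s) (h' : s' < s) :
    ∀ᶠ K in atTop, s' < ent (M K) := by
  obtain ⟨F, hF⟩ := (Tendsto.eventually hs (lt_mem_nhds h')).exists
  have ht := tendsto_finsetSum F fun k _ => h.cfc_entry k
  filter_upwards [h.dens, ht.eventually (lt_mem_nhds hF)] with K hK hK'
  exact hK'.trans_le (sum_le_hasSum F (fun k _ => semi_g_nonneg hK k) (semi_hasSum_ent (M K)))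

/-- `0 ≤ (fc f M k k).re ≤ u |k| M_kk + exp (-u |k| - 1)` (`diag_ent_le`) for every `u > 0`, and
`∑_k exp (-u |k|) < ∞` on `Occ n`.  The limit terms `h_k ≥ 0` have finite partial sums bounded by
`E + C`, so they are summable with sum `s ≥ 0`; and
`ent (M K) ≤ ∑_{k ∈ F} (..) + u E + ∑_{k ∉ F} exp (-u |k| - 1)`: choose `u`, then `F`. -/
theorem Approx.usc {L : ℕ → ℕ} {M : ∀ K, Matrix (Box n (L K)) (Box n (L K)) ℂ}
    {ρ : FockState n} (h : Approx M ρ) {E : ℝ} (hE : ∀ᶠ K in atTop, en (M K) ≤ E) :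
    ∃ s, HasEntropy ρ s ∧ ∀ s', s < s' → ∀ᶠ K in atTop, ent (M K) < s' := by
  set g : Occ n → ℝ := fun k =>
    (entry (cfc (fun z : ℂ => (-(z.re * Real.log z.re) : ℂ)) ρ.op) k k).re with hg
  have hg0 : ∀ k, 0 ≤ g k := fun k =>
    ge_of_tendsto (h.cfc_entry k) (h.dens.mono fun K hK => semi_g_nonneg hK k)
  have hlim : ∀ F : Finset (Occ n), Tendsto
      (fun K => ∑ k ∈ F, (ext0 (fc Real.negMulLog (M K)) k k).re) atTop (𝓝 (∑ k ∈ F, g k)) :=
    fun F => tendsto_finsetSum F fun k _ => h.cfc_entry k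
  have hsum : Summable g := by
    obtain ⟨C, hC⟩ := semi_summable_exp n one_pos
    refine summable_of_sum_le (c := 1 * E + C) hg0 fun F => le_of_tendsto (hlim F) ?_
    filter_upwards [h.dens, hE] with K hK hK'
    have h1 := sum_le_hasSum F (fun k _ => semi_g_nonneg hK k) (semi_hasSum_ent (M K))
    have h2 := semi_ent_le hK one_pos hC ∅
    simp only [Finset.sum_empty] at h2
    linarith
  refine ⟨∑' k, g k, hsum.hasSum, fun s' hs' => ?_⟩
  set s := ∑' k, g k with hs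
  set ε := (s' - s) / 3 with hε
  have hε0 : 0 < ε := by rw [hε]; linarith
  have hu : 0 < ε / (|E| + 1) := by positivity
  have huE : ε / (|E| + 1) * E ≤ ε := by
    rw [div_mul_eq_mul_div, div_le_iff₀ (by positivity)]
    nlinarith [le_abs_self E]
  obtain ⟨C, hC⟩ := semi_summable_exp n hu
  obtain ⟨F, hF⟩ := (Tendsto.eventually hC (lt_mem_nhds (show C - ε < C by linarith))).exists
  have hFs : ∑ k ∈ F, g k < s + ε :=
    (sum_le_hasSum F (fun k _ => hg0 k) hsum.hasSum).trans_lt (by linarith)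
  filter_upwards [h.dens, hE, (hlim F).eventually (gt_mem_nhds hFs)] with K hK hK' hK''
  have h2 := semi_ent_le hK hu hC F
  have h3 := mul_le_mul_of_nonneg_left hK' hu.le
  have h4 : s' = s + 3 * ε := by rw [hε]; ring
  linarith

end Crest.Agent.R331
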