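import Crest.Agent.R331.Lin
import Crest.Agent.R331.InfSemi
import Crest.Agent.R331.InfOut2

/-! Row 331: final assembly. -/

set_option autoImplicit false
set_option linter.unusedSectionVars false

open Matrix Set Filter Topology Crest.Agent.R342 Crest.Agent.R332 Crest.MathPhysics.Bosonic
open scoped ComplexOrder Kronecker Matrix.Norms.Frobenius

namespace Crest.Agent.R331

/-- the linear form on Fock space -/
lemma lin_inf {n : ℕ} {η : ℝ} (h0 : 0 ≤ η) (h1 : η ≤ 1) {ρA ρB ρC : FockState n}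
    (hC : IsBeamSplitterOutput η ρA ρB ρC) {sA sB sC : ℝ} (hsA : HasEntropy ρA sA)
    (hsB : HasEntropy ρB sB)
    (husc : ∀ s', sC < s' → ∀ᶠ K in atTop, ent (bsOutput η (trunc ρA K) (trunc ρB K)) < s')
    {tA tB : ℝ} (hA : 0 < tA) (hB : 0 < tB) :
    n * (gBose (tC η tA tB) - lam0 η tA (tC η tA tB) * gBose tA
        - lam0 (1 - η) tB (tC η tA tB) * gBose tB) ≤
      sC - lam0 η tA (tC η tA tB) * sA - lam0 (1 - η) tB (tC η tA tB) * sB := by
  have htc := tC_pos h0 h1 hA hB
  have lA0 := lam0_nonneg h0 hA htc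
  have lB0 := lam0_nonneg (e := 1 - η) (by linarith) hB htc
  have lA1 : lam0 η tA (tC η tA tB) ≤ 1 :=
    lam0_le_one h0 h1 hA htc (by unfold tC; nlinarith)
  have lB1 : lam0 (1 - η) tB (tC η tA tB) ≤ 1 :=
    lam0_le_one (by linarith) (by linarith) hB htc (by unfold tC; nlinarith)
  refine le_of_forall_pos_le_add fun ε hε => ?_
  have e1 := (approx_trunc ρA).lsc hsA (s' := sA - ε / 3) (by linarith)
  have e2 := (approx_trunc ρB).lsc hsB (s' := sB - ε / 3) (by linarith)
  have e3 := husc (sC + ε / 3) (by linarith)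
  obtain ⟨K, k1, k2, k3, dA, dB⟩ :=
    (e1.and (e2.and (e3.and ((approx_trunc ρA).dens.and (approx_trunc ρB).dens)))).exists
  have := lin_mat h0 h1 hA hB dA dB
  have a1 := mul_le_mul_of_nonneg_left k1.le lA0
  have a2 := mul_le_mul_of_nonneg_left k2.le lB0
  have a3 : lam0 η tA (tC η tA tB) * (ε / 3) ≤ ε / 3 := by nlinarith
  have a4 : lam0 (1 - η) tB (tC η tA tB) * (ε / 3) ≤ ε / 3 := by nlinarith
  nlinarith

theorem epni (n : ℕ) (hn : 1 ≤ n) (η : ℝ)
    (hη : η ∈ Set.Icc (0 : ℝ) 1) (ρA ρB : FockState n) (hA : FiniteEnergy ρA) (hB : FiniteEnergy ρB)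
    (sA sB : ℝ) (hsA : HasEntropy ρA sA) (hsB : HasEntropy ρB sB) (tA tB : ℝ) (htA : 0 ≤ tA)
    (htB : 0 ≤ tB) (hgA : gBose tA = sA / n) (hgB : gBose tB = sB / n) :
    ∃ ρC : FockState n, IsBeamSplitterOutput η ρA ρB ρC ∧
      ∃ sC : ℝ, HasEntropy ρC sC ∧ gBose (η * tA + (1 - η) * tB) ≤ sC / n := by
  obtain ⟨h0, h1⟩ := hη
  obtain ⟨ρC, hC⟩ := exists_output h0 h1 ρA ρB
  obtain ⟨EA, hEA⟩ := en_trunc_le hA
  obtain ⟨EB, hEB⟩ := en_trunc_le hB
  have hE : ∀ᶠ K in atTop, en (bsOutput η (trunc ρA K) (trunc ρB K)) ≤ EA + EB := by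
    filter_upwards [hEA, hEB, (approx_trunc ρA).dens, (approx_trunc ρB).dens] with K a b dA dB
    exact (en_out_le h0 h1 dA dB).trans (add_le_add a b)
  obtain ⟨sC, hsC, husc⟩ := (approx_out h0 h1 hC).usc hE
  refine ⟨ρC, hC, sC, hsC, ?_⟩
  have hn' : (0 : ℝ) < n := by exact_mod_cast hn
  have eA : sA = n * gBose tA := by rw [hgA]; field_simp
  have eB : sB = n * gBose tB := by rw [hgB]; field_simp
  rw [le_div_iff₀ hn']
  -- the bound for `t + u`, `u > 0`
  have key : ∀ u : ℝ, 0 < u → n * gBose (η * tA + (1 - η) * tB + u)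
      - n * |gBose (tA + u) - gBose tA| - n * |gBose (tB + u) - gBose tB| ≤ sC := by
    intro u hu
    have hA' : 0 < tA + u := by linarith
    have hB' : 0 < tB + u := by linarith
    have h := lin_inf h0 h1 hC hsA hsB husc hA' hB'
    have htc := tC_pos h0 h1 hA' hB'
    have lA0 := lam0_nonneg h0 hA' htc
    have lB0 := lam0_nonneg (e := 1 - η) (by linarith) hB' htc
    have lA1 : lam0 η (tA + u) (tC η (tA + u) (tB + u)) ≤ 1 :=
      lam0_le_one h0 h1 hA' htc (by unfold tC; nlinarith)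
    have lB1 : lam0 (1 - η) (tB + u) (tC η (tA + u) (tB + u)) ≤ 1 :=
      lam0_le_one (by linarith) (by linarith) hB' htc (by unfold tC; nlinarith)
    have e : tC η (tA + u) (tB + u) = η * tA + (1 - η) * tB + u := by unfold tC; ring
    set lA := lam0 η (tA + u) (tC η (tA + u) (tB + u))
    set lB := lam0 (1 - η) (tB + u) (tC η (tA + u) (tB + u))
    rw [e, eA, eB] at h
    have b1 : lA * (gBose (tA + u) - gBose tA) ≤ |gBose (tA + u) - gBose tA| := by
      have := le_abs_self (gBose (tA + u) - gBose tA)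
      have := abs_nonneg (gBose (tA + u) - gBose tA)
      nlinarith
    have b2 : lB * (gBose (tB + u) - gBose tB) ≤ |gBose (tB + u) - gBose tB| := by
      have := le_abs_self (gBose (tB + u) - gBose tB)
      have := abs_nonneg (gBose (tB + u) - gBose tB)
      nlinarith
    have c1 := mul_le_mul_of_nonneg_left b1 hn'.le
    have c2 := mul_le_mul_of_nonneg_left b2 hn'.le
    nlinarith
  have hc : Continuous fun u : ℝ => n * gBose (η * tA + (1 - η) * tB + u)
      - n * |gBose (tA + u) - gBose tA| - n * |gBose (tB + u) - gBose tB| := by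
    have := continuous_gBose
    fun_prop
  have ht := (hc.tendsto 0).mono_left (nhdsWithin_le_nhds (s := Ioi 0))
  have := le_of_tendsto ht (eventually_nhdsWithin_of_forall fun u hu => key u hu)
  simp only [add_zero, sub_self, abs_zero, mul_zero, sub_zero] at this
  linarith

end Crest.Agent.R331
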