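import Crest.Agent.R331.InfState
import Crest.Agent.R331.Ent

/-!
Row 331: convergence of the diagonal of `-ρ log ρ` (task INFCFC).
For a box density matrix `M` let `T_M` be the state with entries `ext0 M` (`exists_state`).
(a) `entry (cfc f T_M) k k = ext0 (fc negMulLog M) k k`: e.g. `M ↦ emb M := ∑ k l, M k l • |k⟩⟨l|` is a
non-unital star homomorphism; choose a real polynomial `p` with `p = negMulLog` on `{0} ∪ range (ev M)`
(Lagrange), the spectrum of `emb M` lies in that finite set (it is killed by `X ∏ (X - ev i)`), so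
`cfc f (emb M) = aeval (emb M) p = emb (fc p M)`; or use `NonUnitalStarAlgHomClass.map_cfcₙ`,
`cfcₙ_eq_cfc`, `cfc_real_eq_complex`, `cfc_eq_fc`.
(b) entrywise convergence of states implies operator-norm convergence: with `P` the projection on a
finite set `F`, `‖T - PTP‖² ≤ ∑_{(k,l) ∉ F×F} |T_kl|² ≤ 2 (1 - ∑_F T_kk)` (Hilbert–Schmidt bound).
(c) `continuousOn_cfc` (Mathlib `ContinuousFunctionalCalculus/Continuity.lean`) on operators with
spectrum in `[0,1]` (or in a closed ball), `f` being continuous on `ℂ` (`Real.continuous_mul_log`).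
-/

set_option autoImplicit false
set_option linter.unusedSectionVars false

open Matrix Set Filter Topology Crest.Agent.R342 Crest.Agent.R332 Crest.MathPhysics.Bosonic
open scoped ComplexOrder Kronecker Matrix.Norms.Frobenius

namespace Crest.Agent.R331

variable {n : ℕ}

open scoped InnerProductSpace

/-- Pratt's lemma for series -/
lemma cfc_pratt {α : Type} {a : ℕ → α → ℂ} {c : ℕ → α → ℝ} {a₀ : α → ℂ} {c₀ : α → ℝ}
    {s : ℕ → ℂ} {s₀ : ℂ} (ha : ∀ j, Tendsto (fun K => a K j) atTop (𝓝 (a₀ j)))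
    (hc : ∀ j, Tendsto (fun K => c K j) atTop (𝓝 (c₀ j))) (h₀ : HasSum c₀ 1) (hs₀ : HasSum a₀ s₀)
    (h : ∀ᶠ K in atTop, HasSum (c K) 1 ∧ HasSum (a K) (s K) ∧ ∀ j, ‖a K j‖ ≤ c K j) :
    Tendsto s atTop (𝓝 s₀) := by
  classical
  rw [Metric.tendsto_nhds]
  intro ε hε
  have hε' : 0 < ε / 4 := by positivity
  obtain ⟨F, hF1, hF2⟩ := ((h₀.eventually (lt_mem_nhds (show 1 - ε / 4 < 1 by linarith))).and
    (Metric.tendsto_nhds.1 hs₀ _ hε')).exists
  have t1 : Tendsto (fun K => ∑ j ∈ F, c K j) atTop (𝓝 (∑ j ∈ F, c₀ j)) :=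
    tendsto_finsetSum _ fun j _ => hc j
  have t2 : Tendsto (fun K => ∑ j ∈ F, a K j) atTop (𝓝 (∑ j ∈ F, a₀ j)) :=
    tendsto_finsetSum _ fun j _ => ha j
  filter_upwards [h, t1.eventually (lt_mem_nhds hF1), Metric.tendsto_nhds.1 t2 _ hε'] with K hK e1 e2
  obtain ⟨h1, h2, h3⟩ := hK
  have e3 : ‖s K - ∑ j ∈ F, a K j‖ ≤ 1 - ∑ j ∈ F, c K j :=
    HasSum.norm_le_of_bounded ((F.hasSum_compl_iff).2 (by simpa using h2))
      ((F.hasSum_compl_iff).2 (by simpa using h1)) fun j => h3 j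
  rw [← dist_eq_norm] at e3
  have := dist_triangle4 (s K) (∑ j ∈ F, a K j) (∑ j ∈ F, a₀ j) s₀
  linarith

lemma cfc_toOcc_inj {K : ℕ} : Function.Injective (toOcc : Box n K → Occ n) := by
  intro k l h
  funext j
  exact Fin.ext (congrFun h j)

lemma cfc_ext0_left {K : ℕ} (M : Matrix (Box n K) (Box n K) ℂ) {k : Occ n} (l : Occ n)
    (h : k ∉ range (toOcc : Box n K → Occ n)) : ext0 M k l = 0 := by
  unfold ext0
  rw [dif_neg]
  rintro ⟨h1, -⟩
  exact h ⟨fun j => ⟨k j, h1 j⟩, rfl⟩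

lemma cfc_ext0_right {K : ℕ} (M : Matrix (Box n K) (Box n K) ℂ) (k : Occ n) {l : Occ n}
    (h : l ∉ range (toOcc : Box n K → Occ n)) : ext0 M k l = 0 := by
  unfold ext0
  rw [dif_neg]
  rintro ⟨-, h1⟩
  exact h ⟨fun j => ⟨l j, h1 j⟩, rfl⟩

lemma cfc_hasSum_box {K : ℕ} {E : Type} [AddCommMonoid E] [TopologicalSpace E] {f : Occ n → E}
    (h : ∀ j ∉ range (toOcc : Box n K → Occ n), f j = 0) :
    HasSum f (∑ j : Box n K, f (toOcc j)) :=
  (cfc_toOcc_inj.hasSum_iff h).1 (hasSum_fintype _)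

lemma cfc_hasSum_mul {K : ℕ} (A B : Matrix (Box n K) (Box n K) ℂ) (k l : Occ n) :
    HasSum (fun j => ext0 A k j * ext0 B j l) (ext0 (A * B) k l) := by
  have := cfc_hasSum_box (K := K) (f := fun j => ext0 A k j * ext0 B j l)
    fun j hj => by rw [cfc_ext0_right A k hj, zero_mul]
  convert this using 1
  by_cases hk : k ∈ range (toOcc : Box n K → Occ n)
  · by_cases hl : l ∈ range (toOcc : Box n K → Occ n)
    · obtain ⟨k, rfl⟩ := hk
      obtain ⟨l, rfl⟩ := hl
      simp only [ext0_toOcc, Matrix.mul_apply]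
    · simp [cfc_ext0_right _ _ hl]
  · simp [cfc_ext0_left _ _ hk]

lemma cfc_hasSum_diag {K : ℕ} {M : Matrix (Box n K) (Box n K) ℂ} (h : Dens M) :
    HasSum (fun j => (ext0 M j j).re) 1 := by
  have := cfc_hasSum_box (K := K) (f := fun j => (ext0 M j j).re)
    fun j hj => by rw [cfc_ext0_left M j hj, Complex.zero_re]
  convert this using 1
  simp only [ext0_toOcc]
  rw [← Complex.re_sum]
  have := h.2
  unfold trace diag at this
  rw [this, Complex.one_re]

lemma cfc_fc_pow {ι : Type} [Fintype ι] [DecidableEq ι] {M : Matrix ι ι ℂ} (h : M.IsHermitian)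
    (m : ℕ) : fc (fun t => t ^ m) M = M ^ m := by
  induction m with
  | zero => simpa using fc_one M
  | succ m ih => rw [pow_succ, ← ih, fc_mul_self h]; simp only [pow_succ]

lemma cfc_diag_le {K : ℕ} {A B : Matrix (Box n K) (Box n K) ℂ} (h : (B - A).PosSemidef)
    (j : Occ n) : (ext0 A j j).re ≤ (ext0 B j j).re := by
  by_cases hj : j ∈ range (toOcc : Box n K → Occ n)
  · obtain ⟨j, rfl⟩ := hj
    have := ent_diag_re_nonneg h j
    simp only [ext0_toOcc]
    simpa using this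
  · simp [cfc_ext0_left _ _ hj]

lemma cfc_bound {K : ℕ} {M : Matrix (Box n K) (Box n K) ℂ} (h : Dens M) (m : ℕ) (k j l : Occ n) :
    ‖ext0 (M ^ (m + 1)) k j * ext0 M j l‖ ≤ (ext0 M j j).re := by
  have hs := cfc_hasSum_diag h
  have p1 := psdK_ext0 h.1
  have p2 : PsdK (ext0 (M ^ (m + 1))) := psdK_ext0 (h.1.pow _)
  have nn : ∀ i, 0 ≤ (ext0 M i i).re := fun i => (Complex.nonneg_iff.1 (p1.diag_nonneg i)).1
  have nn2 : ∀ i, 0 ≤ (ext0 (M ^ (m + 1)) i i).re :=
    fun i => (Complex.nonneg_iff.1 (p2.diag_nonneg i)).1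
  have le1 : ∀ i, (ext0 M i i).re ≤ 1 := fun i => le_hasSum hs i fun j _ => nn j
  have le2 : ∀ i, (ext0 (M ^ (m + 1)) i i).re ≤ (ext0 M i i).re := by
    refine cfc_diag_le ?_
    have : M - M ^ (m + 1) = fc (fun t => t - t ^ (m + 1)) M := by
      rw [← fc_sub, fc_id h.1.1, cfc_fc_pow h.1.1]
    rw [this]
    refine fc_psd fun i => ?_
    have := pow_le_of_le_one (ev_nonneg h.1 i) (h.ev_le_one i) (Nat.succ_ne_zero m)
    simpa using this
  have e1 : ‖ext0 (M ^ (m + 1)) k j‖ ^ 2 ≤ (ext0 M j j).re := by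
    refine (p2.norm_sq_le k j).trans ?_
    calc _ ≤ 1 * (ext0 M j j).re :=
          mul_le_mul ((le2 k).trans (le1 k)) (le2 j) (nn2 j) zero_le_one
      _ = _ := one_mul _
  have e2 : ‖ext0 M j l‖ ^ 2 ≤ (ext0 M j j).re := by
    refine (p1.norm_sq_le j l).trans ?_
    exact mul_le_of_le_one_right (nn j) (le1 l)
  rw [norm_mul]
  nlinarith [sq_nonneg (‖ext0 (M ^ (m + 1)) k j‖ - ‖ext0 M j l‖)]

lemma cfc_entry_eq (T : Fock n →L[ℂ] Fock n) (k l : Occ n) : entry T k l = T (ket l) k := by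
  simp [entry, ket, lp.inner_single_left]

lemma cfc_hasSum_entry (S T : Fock n →L[ℂ] Fock n) (k l : Occ n) :
    HasSum (fun j => entry S k j * entry T j l) (entry (S * T) k l) := by
  have h := (lp.hasSum_single (by norm_num) (T (ket l))).mapL ((innerSL ℂ (ket k)).comp S)
  have e : ∀ j, entry S k j * entry T j l =
      ((innerSL ℂ (ket k)).comp S) (lp.single 2 j (T (ket l) j)) := by
    intro j
    rw [cfc_entry_eq T]
    have : ∀ a : ℂ, (lp.single 2 j a : Fock n) = a • (ket j : Fock n) := by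
      intro a
      rw [ket, ← lp.single_smul]; simp
    rw [this, map_smul, smul_eq_mul, mul_comm]
    rfl
  simp only [e]
  exact h

lemma Approx.cfc_pow {L : ℕ → ℕ} {M : ∀ K, Matrix (Box n (L K)) (Box n (L K)) ℂ}
    {ρ : FockState n} (h : Approx M ρ) (m : ℕ) (k l : Occ n) :
    Tendsto (fun K => ext0 (M K ^ (m + 1)) k l) atTop (𝓝 (entry (ρ.op ^ (m + 1)) k l)) := by
  induction m generalizing l with
  | zero => simpa using h.lim k l
  | succ m ih =>
    simp only [pow_succ _ (m + 1)]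
    refine cfc_pratt (a := fun K j => ext0 (M K ^ (m + 1)) k j * ext0 (M K) j l)
      (c := fun K j => (ext0 (M K) j j).re) (fun j => (ih j).mul (h.lim j l))
      (fun j => (Complex.continuous_re.tendsto _).comp (h.lim j j)) ρ.traceOne
      (cfc_hasSum_entry _ _ k l) ?_
    filter_upwards [h.dens] with K hK
    exact ⟨cfc_hasSum_diag hK, cfc_hasSum_mul _ _ k l, fun j => cfc_bound hK m k j l⟩

lemma cfc_exists_poly (R : ℝ) (hR : 0 ≤ R) {ε : ℝ} (hε : 0 < ε) :
    ∃ (N : ℕ) (c : ℕ → ℝ), ∀ x ∈ Icc (-R) R,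
      |∑ m ∈ Finset.range N, c m * x ^ (m + 1) - Real.negMulLog x| ≤ ε := by
  obtain ⟨q, hq⟩ := exists_polynomial_near_of_continuousOn (-R) R Real.negMulLog
    Real.continuous_negMulLog.continuousOn (ε / 2) (by positivity)
  refine ⟨q.natDegree, fun m => q.coeff (m + 1), fun x hx => ?_⟩
  have h0 := hq 0 ⟨by linarith, hR⟩
  have h1 := hq x hx
  rw [Polynomial.eval_eq_sum_range, Finset.sum_range_succ'] at h1
  rw [← Polynomial.coeff_zero_eq_eval_zero, Real.negMulLog_zero, sub_zero] at h0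
  rw [pow_zero, mul_one] at h1
  rw [abs_lt] at h0 h1
  rw [abs_le]
  constructor <;> linarith [h0.1, h0.2, h1.1, h1.2]

lemma cfc_ext0_sum {K : ℕ} (N : ℕ) (c : ℕ → ℝ) (A : ℕ → Matrix (Box n K) (Box n K) ℂ)
    (k l : Occ n) : ext0 (∑ m ∈ Finset.range N, c m • A m) k l =
      ∑ m ∈ Finset.range N, (c m : ℂ) * ext0 (A m) k l := by
  unfold ext0
  split_ifs
  · simp [Matrix.sum_apply]
  · simp

lemma cfc_mat_err {K : ℕ} {M : Matrix (Box n K) (Box n K) ℂ} {f g : ℝ → ℝ} {ε : ℝ}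
    (hε : 0 ≤ ε) (h : ∀ i, |g (ev M i) - f (ev M i)| ≤ ε) (k : Occ n) :
    |(ext0 (fc g M) k k).re - (ext0 (fc f M) k k).re| ≤ ε := by
  by_cases hk : k ∈ range (toOcc : Box n K → Occ n)
  · obtain ⟨k, rfl⟩ := hk
    simp only [ext0_toOcc]
    have e1 := ent_diag_re_nonneg (fc_psd (f := fun t => ε - (g t - f t)) (A := M)
      fun i => by linarith [(abs_le.1 (h i)).2]) k
    have e2 := ent_diag_re_nonneg (fc_psd (f := fun t => ε + (g t - f t)) (A := M)
      fun i => by linarith [(abs_le.1 (h i)).1]) k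
    rw [← fc_sub, ← fc_sub, fc_const] at e1
    rw [← fc_add, ← fc_sub, fc_const] at e2
    simp only [Matrix.sub_apply, Matrix.add_apply, Matrix.smul_apply, one_apply_eq, Complex.sub_re,
      Complex.add_re, Complex.real_smul, mul_one, Complex.ofReal_re] at e1 e2
    rw [abs_le]; constructor <;> linarith
  · simp [cfc_ext0_left _ _ hk, hε]

lemma cfc_norm_entry (T : Fock n →L[ℂ] Fock n) (k : Occ n) : ‖entry T k k‖ ≤ ‖T‖ := by
  have h1 : ‖(ket k : Fock n)‖ = 1 := by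
    rw [ket, lp.norm_single (by norm_num)]; simp
  calc ‖entry T k k‖ ≤ ‖(ket k : Fock n)‖ * ‖T (ket k)‖ := norm_inner_le_norm _ _
    _ ≤ ‖(ket k : Fock n)‖ * (‖T‖ * ‖(ket k : Fock n)‖) := by gcongr; exact T.le_opNorm _
    _ = ‖T‖ := by rw [h1]; ring

lemma cfc_op_err (ρ : FockState n) {N : ℕ} {c : ℕ → ℝ} {ε : ℝ} (hε : 0 ≤ ε) {R : ℝ}
    (hR : ‖ρ.op‖ ≤ R)
    (h : ∀ x ∈ Icc (-R) R, |∑ m ∈ Finset.range N, c m * x ^ (m + 1) - Real.negMulLog x| ≤ ε)
    (k : Occ n) :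
    |(∑ m ∈ Finset.range N, (c m : ℂ) * entry (ρ.op ^ (m + 1)) k k).re -
      (entry (cfc (fun z : ℂ => (-(z.re * Real.log z.re) : ℂ)) ρ.op) k k).re| ≤ ε := by
  have hsa : IsSelfAdjoint ρ.op := ρ.pos.isSelfAdjoint
  have hn : IsStarNormal ρ.op := hsa.isStarNormal
  have hF : Continuous (fun z : ℂ => (-(z.re * Real.log z.re) : ℂ)) := by
    have := (Complex.continuous_ofReal.comp
      (Real.continuous_mul_log.comp Complex.continuous_re)).neg
    convert this using 2 with z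
    simp
  have e1 : cfc (fun z : ℂ => ∑ m ∈ Finset.range N, (c m : ℂ) * z ^ (m + 1)) ρ.op =
      ∑ m ∈ Finset.range N, (c m : ℂ) • ρ.op ^ (m + 1) := by
    have := cfc_sum (fun (m : ℕ) (z : ℂ) => (c m : ℂ) * z ^ (m + 1)) ρ.op (Finset.range N)
    rw [show (fun z : ℂ => ∑ m ∈ Finset.range N, (c m : ℂ) * z ^ (m + 1)) =
      ∑ m ∈ Finset.range N, fun z : ℂ => (c m : ℂ) * z ^ (m + 1) by ext z; simp, this]
    refine Finset.sum_congr rfl fun m _ => ?_
    rw [cfc_const_mul _ (fun z : ℂ => z ^ (m + 1)), cfc_pow_id ρ.op]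
  have e2 : ‖cfc (fun z : ℂ => ∑ m ∈ Finset.range N, (c m : ℂ) * z ^ (m + 1) -
      (-(z.re * Real.log z.re) : ℂ)) ρ.op‖ ≤ ε := by
    refine norm_cfc_le hε fun z hz => ?_
    have hz1 := hsa.mem_spectrum_eq_re hz
    have hz2 : ‖z‖ ≤ R := by
      refine (spectrum.norm_le_norm_mul_of_mem hz).trans (le_trans ?_ hR)
      exact mul_le_of_le_one_right (norm_nonneg _) ContinuousLinearMap.norm_id_le
    have hz3 := h z.re (abs_le.1 ((Complex.abs_re_le_norm z).trans hz2))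
    rw [← Real.norm_eq_abs, ← Complex.norm_real] at hz3
    refine le_trans (le_of_eq ?_) hz3
    congr 1
    simp only [Real.negMulLog]
    push_cast
    rw [← hz1]
    ring
  rw [cfc_sub _ _ _ (by fun_prop) hF.continuousOn, e1] at e2
  have e3 := (cfc_norm_entry _ k).trans e2
  rw [← Complex.sub_re]
  refine (Complex.abs_re_le_norm _).trans (le_trans (le_of_eq ?_) e3)
  congr 1
  simp only [entry, _root_.sub_apply, _root_.sum_apply,
    _root_.smul_apply, inner_sub_right, inner_sum, inner_smul_right]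

theorem Approx.cfc_entry {L : ℕ → ℕ} {M : ∀ K, Matrix (Box n (L K)) (Box n (L K)) ℂ}
    {ρ : FockState n} (h : Approx M ρ) (k : Occ n) :
    Tendsto (fun K => (ext0 (fc Real.negMulLog (M K)) k k).re) atTop
      (𝓝 (entry (cfc (fun z : ℂ => (-(z.re * Real.log z.re) : ℂ)) ρ.op) k k).re) := by
  rw [Metric.tendsto_nhds]
  intro ε hε
  have hε' : 0 < ε / 4 := by positivity
  obtain ⟨N, c, hc⟩ := cfc_exists_poly (‖ρ.op‖ + 1) (by positivity) hε'
  have t : Tendsto (fun K => (∑ m ∈ Finset.range N, (c m : ℂ) * ext0 (M K ^ (m + 1)) k k).re)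
      atTop (𝓝 (∑ m ∈ Finset.range N, (c m : ℂ) * entry (ρ.op ^ (m + 1)) k k).re) :=
    (Complex.continuous_re.tendsto _).comp
      (tendsto_finsetSum _ fun m _ => (h.cfc_pow m k k).const_mul _)
  have e1 := cfc_op_err ρ hε'.le (by linarith) hc k
  filter_upwards [h.dens, Metric.tendsto_nhds.1 t _ hε'] with K hK e2
  have e3 := cfc_mat_err (M := M K) (f := Real.negMulLog)
    (g := fun x => ∑ m ∈ Finset.range N, c m * x ^ (m + 1)) hε'.le
    (fun i => hc _ ⟨by linarith [ev_nonneg hK.1 i, norm_nonneg ρ.op],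
      by linarith [hK.ev_le_one i, norm_nonneg ρ.op]⟩) k
  have e4 : fc (fun x => ∑ m ∈ Finset.range N, c m * x ^ (m + 1)) (M K) =
      ∑ m ∈ Finset.range N, c m • M K ^ (m + 1) := by
    rw [← fc_sum]
    exact Finset.sum_congr rfl fun m _ => by rw [← fc_smul, cfc_fc_pow hK.1.1]
  rw [e4, cfc_ext0_sum] at e3
  rw [Real.dist_eq] at e2 ⊢
  rw [abs_lt] at e2 ⊢
  rw [abs_le] at e1 e3
  constructor <;> linarith [e1.1, e1.2, e2.1, e2.2, e3.1, e3.2]

end Crest.Agent.R331
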