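import Crest.Agent.R331.InfState
import Crest.Agent.R331.Amp

/-!
Row 331: the output state on Fock space (task INFOUT).
For fixed `e`, `(k,l) ↦ blk η GA GB k l e = ∑ v_k(x) σ(x,y) v_l(y)` with `σ = GA ⊗ GB` psd, so it is a
psd kernel.  Sector unitarity (product over modes of `amp_orth_sector`):
`∑_{c : Splitting m} blk η GA GB c.fst c.fst c.snd = sect GA GB m`.  Hence
`0 ≤ Re blk k k e ≤ sect (k+e)` and `‖blk k l e‖ ≤ (sect (k+e) + sect (l+e))/2`.
`∑_m sect m = (∑ GA kk)(∑ GB kk)` via the equivalence `(Σ m, Splitting m) ≃ Occ n × Occ n`.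
-/

set_option autoImplicit false
set_option linter.unusedSectionVars false

open Matrix Set Filter Topology Crest.Agent.R342 Crest.Agent.R332 Crest.MathPhysics.Bosonic
open scoped ComplexOrder Kronecker Matrix.Norms.Frobenius

namespace Crest.Agent.R331

variable {n : ℕ}

lemma outBlock_eq (η : ℝ) (ρA ρB : FockState n) (k l e : Occ n) :
    outBlock η ρA ρB k l e = blk η (entry ρA.op) (entry ρB.op) k l e := rfl

lemma psdK_blk (η : ℝ) {GA GB : Occ n → Occ n → ℂ} (hA : PsdK GA) (hB : PsdK GB) (e : Occ n) :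
    PsdK fun k l => blk η GA GB k l e := by
  intro s v
  have h := ((hA.posSemidef fun x : (Σ k : s, Splitting (k.1 + e)) => x.2.fst).hadamard
    (hB.posSemidef fun x : (Σ k : s, Splitting (k.1 + e)) => x.2.snd)).dotProduct_mulVec_nonneg
    fun x => (ampOcc η x.2.fst x.2.snd x.1.1 e : ℂ) * v x.1.1
  refine h.trans_eq ?_
  rw [← Finset.sum_coe_sort s]
  simp only [dotProduct, mulVec, Fintype.sum_sigma, hadamard_apply, of_apply, Pi.star_apply,
    Finset.mul_sum, blk, Finset.sum_mul]
  refine Finset.sum_congr rfl fun k _ => ?_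
  rw [← Finset.sum_coe_sort s, Finset.sum_comm]
  refine Finset.sum_congr rfl fun l _ => Finset.sum_congr rfl fun a _ =>
    Finset.sum_congr rfl fun b _ => ?_
  simp only [star_mul', RCLike.star_def, Complex.conj_ofReal]
  ring

lemma infOut_add {m : Occ n} (c : Splitting m) : c.fst + c.snd = m := by
  funext j
  have := (c j).2
  simp only [Splitting.fst, Splitting.snd, Pi.add_apply]
  omega

/-- the canonical splitting of `k + e` -/
def infOutSp (k e : Occ n) : Splitting (k + e) := fun j => ⟨k j, by simp [Nat.lt_succ_iff]⟩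
lemma infOutSp_fst (k e : Occ n) : (infOutSp k e).fst = k := rfl
lemma infOutSp_snd (k e : Occ n) : (infOutSp k e).snd = e := by
  funext j; simp [infOutSp, Splitting.snd]

def infOutEquiv (n : ℕ) : (Σ m : Occ n, Splitting m) ≃ Occ n × Occ n where
  toFun x := (x.2.fst, x.2.snd)
  invFun p := ⟨p.1 + p.2, infOutSp p.1 p.2⟩
  left_inv := by
    rintro ⟨m, c⟩
    have key : ∀ (m' : Occ n) (c' : Splitting m'), m' = m → c'.fst = c.fst →
        (⟨m', c'⟩ : Σ m : Occ n, Splitting m) = ⟨m, c⟩ := by
      rintro m' c' rfl h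
      congr 1
      funext j
      exact Fin.ext (congrFun h j)
    exact key _ _ (infOut_add c) rfl
  right_inv p := Prod.ext rfl (infOutSp_snd _ _)

lemma infOut_orth {η : ℝ} (h0 : 0 ≤ η) (h1 : η ≤ 1) {m : Occ n} (a b : Splitting m) :
    ∑ c : Splitting m, ampOcc η a.fst a.snd c.fst c.snd * ampOcc η b.fst b.snd c.fst c.snd =
      if a = b then 1 else 0 := by
  have e1 : ∀ j, ∑ p : Fin (m j + 1), bsAmp η (a j) (m j - a j) p (m j - p) *
      bsAmp η (b j) (m j - b j) p (m j - p) = if a j = b j then 1 else 0 := fun j => by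
    have := amp_orth_sector h0 h1 (k := a j) (l := m j - a j) (k' := b j) (l' := m j - b j) (m := m j)
      (by have := (a j).2; omega)
    rw [Finset.sum_range] at this
    rw [this]
    by_cases h : a j = b j
    · simp [h]
    · rw [if_neg h, if_neg fun h' => h (Fin.ext h'.1)]
  simp only [ampOcc, ← Finset.prod_mul_distrib, Splitting.fst, Splitting.snd]
  rw [← Fintype.piFinset_univ, ← Finset.prod_univ_sum (fun j => (Finset.univ : Finset (Fin (m j + 1))))
    fun j p => bsAmp η (a j) (m j - a j) p (m j - p) * bsAmp η (b j) (m j - b j) p (m j - p)]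
  simp only [e1]
  rw [Finset.prod_ite_zero]
  simp [funext_iff]

lemma infOut_sector {η : ℝ} (h0 : 0 ≤ η) (h1 : η ≤ 1) {GA GB : Occ n → Occ n → ℂ} (hA : PsdK GA)
    (hB : PsdK GB) (m : Occ n) :
    ∑ c : Splitting m, (blk η GA GB c.fst c.fst c.snd).re = sect GA GB m := by
  have e1 : ∀ k e : Occ n, k + e = m → blk η GA GB k k e = ∑ a : Splitting m, ∑ b : Splitting m,
      GA a.fst b.fst * GB a.snd b.snd * ((ampOcc η a.fst a.snd k e * ampOcc η b.fst b.snd k e : ℝ) : ℂ) := by
    rintro k e rfl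
    refine Finset.sum_congr rfl fun a _ => Finset.sum_congr rfl fun b _ => ?_
    push_cast; ring
  rw [← Complex.re_sum, Finset.sum_congr rfl fun c _ => e1 _ _ (infOut_add c), Finset.sum_comm, sect,
    Complex.re_sum]
  refine Finset.sum_congr rfl fun a _ => ?_
  rw [Finset.sum_comm]
  simp only [← Finset.mul_sum, ← Complex.ofReal_sum, infOut_orth h0 h1]
  rw [Finset.sum_eq_single a (fun b _ hb => by simp [hb.symm]) (by simp)]
  simp [(Complex.nonneg_iff.1 (hA.diag_nonneg a.fst)).2.symm]

lemma infOut_nonneg (η : ℝ) {GA GB : Occ n → Occ n → ℂ} (hA : PsdK GA) (hB : PsdK GB) (k e : Occ n) :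
    0 ≤ (blk η GA GB k k e).re :=
  (Complex.nonneg_iff.1 ((psdK_blk η hA hB e).diag_nonneg k)).1

lemma infOut_le {η : ℝ} (h0 : 0 ≤ η) (h1 : η ≤ 1) {GA GB : Occ n → Occ n → ℂ} (hA : PsdK GA)
    (hB : PsdK GB) (k e : Occ n) : (blk η GA GB k k e).re ≤ sect GA GB (k + e) := by
  rw [← infOut_sector h0 h1 hA hB]
  have := Finset.single_le_sum (f := fun c : Splitting (k + e) => (blk η GA GB c.fst c.fst c.snd).re)
    (fun c _ => infOut_nonneg η hA hB _ _) (Finset.mem_univ (infOutSp k e))
  simpa only [infOutSp_fst, infOutSp_snd] using this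

lemma norm_blk_le {η : ℝ} (h0 : 0 ≤ η) (h1 : η ≤ 1) {GA GB : Occ n → Occ n → ℂ} (hA : PsdK GA)
    (hB : PsdK GB) (k l e : Occ n) :
    ‖blk η GA GB k l e‖ ≤ (sect GA GB (k + e) + sect GA GB (l + e)) / 2 := by
  have h := (psdK_blk η hA hB e).norm_sq_le k l
  have a1 := infOut_le h0 h1 hA hB k e
  have a2 := infOut_le h0 h1 hA hB l e
  have b1 := infOut_nonneg η hA hB k e
  have b2 := infOut_nonneg η hA hB l e
  refine le_of_sq_le_sq (h.trans ?_) (by linarith)
  nlinarith [sq_nonneg (sect GA GB (k + e) - sect GA GB (l + e)), mul_le_mul a1 a2 b2 (b1.trans a1)]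

lemma hasSum_sect (ρA ρB : FockState n) : HasSum (sect (entry ρA.op) (entry ρB.op)) 1 := by
  have hA : ∀ k, 0 ≤ (entry ρA.op k k).re := fun k =>
    (Complex.nonneg_iff.1 ((psdK_entry ρA).diag_nonneg k)).1
  have hB : ∀ k, 0 ≤ (entry ρB.op k k).re := fun k =>
    (Complex.nonneg_iff.1 ((psdK_entry ρB).diag_nonneg k)).1
  have h := ρA.traceOne.mul ρB.traceOne (ρA.traceOne.summable.mul_of_nonneg ρB.traceOne.summable hA hB)
  rw [mul_one, ← (infOutEquiv n).hasSum_iff] at h
  exact h.sigma fun m => hasSum_fintype _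

/-- `G k l = ∑' e, blk k l e` is a psd kernel with trace one; `exists_state` -/
theorem exists_output {η : ℝ} (h0 : 0 ≤ η) (h1 : η ≤ 1) (ρA ρB : FockState n) :
    ∃ ρC : FockState n, IsBeamSplitterOutput η ρA ρB ρC := by
  have hA := psdK_entry ρA
  have hB := psdK_entry ρB
  have hs := hasSum_sect ρA ρB
  have hsum : ∀ k l, Summable fun e => blk η (entry ρA.op) (entry ρB.op) k l e := fun k l =>
    Summable.of_norm_bounded (((hs.summable.comp_injective (add_right_injective k)).add
      (hs.summable.comp_injective (add_right_injective l))).div_const 2)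
      fun e => norm_blk_le h0 h1 hA hB k l e
  obtain ⟨ρC, hC⟩ := exists_state (G := fun k l => ∑' e, blk η (entry ρA.op) (entry ρB.op) k l e)
    (fun s v => (hasSum_sum fun k _ => hasSum_sum fun l _ =>
      ((hsum k l).hasSum.mul_left (star (v k))).mul_right (v l)).nonneg
        fun e => psdK_blk η hA hB e s v)
    (by
      have h2 : HasSum (fun p : Occ n × Occ n =>
          (blk η (entry ρA.op) (entry ρB.op) p.1 p.1 p.2).re) 1 := by
        rw [← (infOutEquiv n).hasSum_iff]
        have h3 : ∀ m : Occ n, HasSum (fun c : Splitting m =>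
            (blk η (entry ρA.op) (entry ρB.op) c.fst c.fst c.snd).re)
            (sect (entry ρA.op) (entry ρB.op) m) := fun m =>
          infOut_sector h0 h1 hA hB m ▸ hasSum_fintype _
        refine hs.sigma_of_hasSum h3 ((summable_sigma_of_nonneg fun x =>
          infOut_nonneg η hA hB _ _).2 ⟨fun m => (h3 m).summable, ?_⟩)
        exact hs.summable.congr fun m => (h3 m).tsum_eq.symm
      exact h2.prod_fiberwise fun k => Complex.hasSum_re (hsum k k).hasSum)
  exact ⟨ρC, fun k l => hC k l ▸ (hsum k l).hasSum⟩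

end Crest.Agent.R331
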