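import Crest.Agent.R331.Defs

/-! Row 331: psd kernels and states on Fock space (task INFSTATE). -/

set_option autoImplicit false
set_option linter.unusedSectionVars false

open Matrix Set Filter Topology Crest.Agent.R342 Crest.Agent.R332 Crest.MathPhysics.Bosonic
open scoped ComplexOrder Kronecker Matrix.Norms.Frobenius

namespace Crest.Agent.R331

variable {n : ℕ}

open scoped InnerProductSpace ENNReal

lemma infs_two {G : Occ n → Occ n → ℂ} (h : PsdK G) {k l : Occ n} (hkl : k ≠ l) (a b : ℂ) :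
    0 ≤ star a * G k k * a + star a * G k l * b + (star b * G l k * a + star b * G l l * b) := by
  classical
  have h1 := h {k, l} (fun j => if j = k then a else b)
  simpa only [Finset.sum_pair hkl, if_true, if_neg (Ne.symm hkl)] using h1

lemma infs_entry_eq (T : Fock n →L[ℂ] Fock n) (k l : Occ n) : entry T k l = T (ket l) k := by
  rw [entry, ket, lp.inner_single_left]
  simp

lemma infs_inner_sum (T : Fock n →L[ℂ] Fock n) (s : Finset (Occ n)) (v : Occ n → ℂ) :
    ⟪∑ k ∈ s, v k • ket k, T (∑ l ∈ s, v l • ket l)⟫_ℂ =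
      ∑ k ∈ s, ∑ l ∈ s, star (v k) * entry T k l * v l := by
  rw [sum_inner]
  refine Finset.sum_congr rfl fun k _ => ?_
  rw [map_sum, inner_sum]
  refine Finset.sum_congr rfl fun l _ => ?_
  rw [map_smul, inner_smul_left, inner_smul_right, entry, Complex.star_def]
  ring

lemma infs_hasSum (x : Fock n) : HasSum (fun k => x k • ket k) x := by
  have h := lp.hasSum_single (E := fun _ : Occ n => ℂ) (p := 2) ENNReal.ofNat_ne_top x
  convert h using 2 with k
  rw [ket, ← lp.single_smul, smul_eq_mul, mul_one]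

lemma infs_toOcc_inj {K : ℕ} : Function.Injective (toOcc : Box n K → Occ n) := fun _ _ h =>
  funext fun j => Fin.ext (congrFun h j)

lemma infs_ext0_toOcc {K : ℕ} (M : Matrix (Box n K) (Box n K) ℂ) (k l : Box n K) :
    ext0 M (toOcc k) (toOcc l) = M k l := by
  rw [ext0, dif_pos ⟨fun j => (k j).2, fun j => (l j).2⟩]
  rfl

/-- the box as a finite set of occupation tuples -/
def infsBox (n K : ℕ) : Finset (Occ n) := Finset.univ.map ⟨(toOcc : Box n K → Occ n), infs_toOcc_inj⟩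

lemma infs_mem_box {K : ℕ} {k : Occ n} : k ∈ infsBox n K ↔ ∀ j, k j < K + 1 := by
  rw [infsBox, Finset.mem_map]
  constructor
  · rintro ⟨a, -, rfl⟩ j
    exact (a j).2
  · intro h
    exact ⟨fun j => ⟨k j, h j⟩, Finset.mem_univ _, rfl⟩

lemma infs_sum_box {K : ℕ} (s : Finset (Occ n)) (f : Occ n → ℂ)
    (hf : ∀ k, ¬ (∀ j, k j < K + 1) → f k = 0) :
    ∑ k ∈ s, f k = ∑ a : Box n K, if toOcc a ∈ s then f (toOcc a) else 0 := by
  classical
  have e : (∑ a : Box n K, if toOcc a ∈ s then f (toOcc a) else 0) =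
      ∑ k ∈ infsBox n K, if k ∈ s then f k else 0 := by
    rw [infsBox, Finset.sum_map]; rfl
  rw [e, Finset.sum_ite_mem]
  symm
  refine Finset.sum_subset Finset.inter_subset_right fun k hk hk' => hf k fun hb => hk' ?_
  exact Finset.mem_inter.2 ⟨infs_mem_box.2 hb, hk⟩

lemma infs_ev_box (k : Occ n) : ∀ᶠ K in atTop, ∀ j, k j < K + 1 := by
  rw [eventually_all]
  intro j
  filter_upwards [eventually_ge_atTop (k j)] with K hK
  omega

lemma infs_box_tendsto : Tendsto (infsBox n) atTop atTop := by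
  refine tendsto_atTop_finset_of_monotone (fun K K' hK k hk => ?_) fun k => ?_
  · rw [infs_mem_box] at hk ⊢
    intro j
    have := hk j
    omega
  · obtain ⟨K, hK⟩ := (infs_ev_box k).exists
    exact ⟨K, infs_mem_box.2 hK⟩

lemma infs_Z_tendsto (ρ : FockState n) :
    Tendsto (fun K => ∑ k : Box n K, (entry ρ.op (toOcc k) (toOcc k)).re) atTop (𝓝 1) := by
  have h : Tendsto (fun s : Finset (Occ n) => ∑ k ∈ s, (entry ρ.op k k).re) atTop (𝓝 1) :=
    ρ.traceOne
  refine (h.comp infs_box_tendsto).congr fun K => ?_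
  rw [Function.comp_apply, infsBox, Finset.sum_map]; rfl

lemma PsdK.diag_nonneg {G : Occ n → Occ n → ℂ} (h : PsdK G) (k : Occ n) : 0 ≤ G k k := by
  simpa using h {k} (fun _ => 1)

lemma PsdK.herm {G : Occ n → Occ n → ℂ} (h : PsdK G) (k l : Occ n) : star (G k l) = G l k := by
  by_cases hkl : k = l
  · subst hkl
    exact IsSelfAdjoint.of_nonneg (h.diag_nonneg k)
  have h1 := (Complex.nonneg_iff.1 (infs_two h hkl 1 1)).2
  have h2 := (Complex.nonneg_iff.1 (infs_two h hkl 1 Complex.I)).2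
  have h3 := (Complex.nonneg_iff.1 (h.diag_nonneg k)).2
  have h4 := (Complex.nonneg_iff.1 (h.diag_nonneg l)).2
  simp at h1 h2
  apply Complex.ext <;> simp <;> linarith

lemma PsdK.norm_sq_le {G : Occ n → Occ n → ℂ} (h : PsdK G) (k l : Occ n) :
    ‖G k l‖ ^ 2 ≤ (G k k).re * (G l l).re := by
  have h3 := Complex.nonneg_iff.1 (h.diag_nonneg k)
  have h4 := Complex.nonneg_iff.1 (h.diag_nonneg l)
  by_cases hkl : k = l
  · subst hkl
    rw [Complex.sq_norm, Complex.normSq_apply, ← h3.2]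
    simp
  have key : ∀ x : ℝ, 0 ≤ (G k k).re * (x * x) + (-2 * ‖G k l‖ ^ 2) * x +
      ‖G k l‖ ^ 2 * (G l l).re := by
    intro x
    have h1 := (Complex.nonneg_iff.1 (infs_two h hkl (x : ℂ) (-star (G k l)))).1
    rw [← h.herm k l] at h1
    rw [Complex.sq_norm, Complex.normSq_apply]
    simp at h1
    nlinarith
  have hd := discrim_le_zero key
  rw [discrim] at hd
  by_cases h0 : ‖G k l‖ = 0
  · rw [h0]; simpa using mul_nonneg h3.1 h4.1
  have hp : 0 < ‖G k l‖ ^ 2 := by positivity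
  nlinarith

lemma psdK_entry (ρ : FockState n) : PsdK (entry ρ.op) := by
  intro s v
  rw [← infs_inner_sum]
  exact ρ.pos.inner_nonneg_right _

lemma PsdK.posSemidef {G : Occ n → Occ n → ℂ} (h : PsdK G) {α : Type} [Fintype α]
    (e : α → Occ n) : (Matrix.of fun a b => G (e a) (e b)).PosSemidef := by
  have h0 : (Matrix.of G).PosSemidef :=
    ⟨Matrix.ext fun k l => h.herm l k, fun x => h x.support x⟩
  exact h0.submatrix e

lemma psdK_ext0 {K : ℕ} {M : Matrix (Box n K) (Box n K) ℂ} (h : M.PosSemidef) : PsdK (ext0 M) := by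
  classical
  intro s v
  have h1 := h.dotProduct_mulVec_nonneg (fun a => if toOcc a ∈ s then v (toOcc a) else 0)
  refine h1.trans_eq ?_
  rw [infs_sum_box (K := K) s _ (fun k hk => Finset.sum_eq_zero fun l _ => by
    rw [ext0, dif_neg (fun hh => hk hh.1), mul_zero, zero_mul])]
  simp only [dotProduct, mulVec, Pi.star_apply]
  refine Finset.sum_congr rfl fun a _ => ?_
  split_ifs with ha
  · rw [infs_sum_box (K := K) s _ (fun l hl => by
      rw [ext0, dif_neg (fun hh => hl hh.2), mul_zero, zero_mul]), Finset.mul_sum]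
    refine Finset.sum_congr rfl fun b _ => ?_
    split_ifs with hb
    · rw [infs_ext0_toOcc, mul_assoc]
    · simp
  · simp

lemma ext0_toOcc {K : ℕ} (M : Matrix (Box n K) (Box n K) ℂ) (k l : Box n K) :
    ext0 M (toOcc k) (toOcc l) = M k l := infs_ext0_toOcc M k l

/-- two bounded operators with the same matrix entries are equal -/
lemma op_ext {S T : Fock n →L[ℂ] Fock n} (h : ∀ k l, entry S k l = entry T k l) : S = T := by
  have h1 : ∀ l, S (ket l) = T (ket l) := fun l => lp.ext (funext fun k => by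
    rw [← infs_entry_eq, ← infs_entry_eq, h])
  refine ContinuousLinearMap.ext fun x => ?_
  have h2 := (infs_hasSum x).mapL S
  have h3 := (infs_hasSum x).mapL T
  simp only [map_smul, h1] at h2 h3
  exact h2.unique h3

/-- `|G k l|² ≤ G kk G ll` makes `G` Hilbert–Schmidt: `(T ψ) k = ∑' l, G k l * ψ l` is a bounded
operator (`LinearMap.mkContinuous`, or `T ψ k = ⟪g k, ψ⟫` with rows `g k ∈ ℓ²`, `∑ ‖g k‖² ≤ 1`);
positivity on finitely supported vectors, then by density (`lp.hasSum_single`). -/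
theorem exists_state {G : Occ n → Occ n → ℂ} (h : PsdK G) (h1 : HasSum (fun k => (G k k).re) 1) :
    ∃ ρ : FockState n, ∀ k l, entry ρ.op k l = G k l := by
  have hp : ∀ k, 0 ≤ (G k k).re := fun k => (Complex.nonneg_iff.1 (h.diag_nonneg k)).1
  have hs : ∀ s : Finset (Occ n), ∑ k ∈ s, (G k k).re ≤ 1 := fun s =>
    sum_le_hasSum s (fun k _ => hp k) h1
  have hrow : ∀ k (s : Finset (Occ n)),
      ∑ l ∈ s, ‖star (G k l)‖ ^ (2 : ℝ≥0∞).toReal ≤ (G k k).re := by
    intro k s
    calc ∑ l ∈ s, ‖star (G k l)‖ ^ (2 : ℝ≥0∞).toReal ≤ ∑ l ∈ s, (G k k).re * (G l l).re := by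
          refine Finset.sum_le_sum fun l _ => ?_
          rw [norm_star, ENNReal.toReal_ofNat, Real.rpow_two]
          exact h.norm_sq_le k l
      _ = (G k k).re * ∑ l ∈ s, (G l l).re := by rw [Finset.mul_sum]
      _ ≤ (G k k).re := mul_le_of_le_one_right (hp k) (hs s)
  let g : Occ n → Fock n := fun k => ⟨fun l => star (G k l), memℓp_gen' (hrow k)⟩
  have hg : ∀ k, ‖g k‖ ^ 2 ≤ (G k k).re := by
    intro k
    have h2 : ‖g k‖ ≤ √((G k k).re) := by
      refine lp.norm_le_of_forall_sum_le (by norm_num) (Real.sqrt_nonneg _) fun s => ?_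
      rw [ENNReal.toReal_ofNat, Real.rpow_two (√_), Real.sq_sqrt (hp k)]
      exact hrow k s
    calc ‖g k‖ ^ 2 ≤ √((G k k).re) ^ 2 := pow_le_pow_left₀ (norm_nonneg _) h2 2
      _ = _ := Real.sq_sqrt (hp k)
  have hcol : ∀ (ψ : Fock n) (s : Finset (Occ n)),
      ∑ k ∈ s, ‖⟪g k, ψ⟫_ℂ‖ ^ (2 : ℝ≥0∞).toReal ≤ ‖ψ‖ ^ (2 : ℝ≥0∞).toReal := by
    intro ψ s
    simp only [ENNReal.toReal_ofNat, Real.rpow_two]
    calc ∑ k ∈ s, ‖⟪g k, ψ⟫_ℂ‖ ^ 2 ≤ ∑ k ∈ s, (G k k).re * ‖ψ‖ ^ 2 := by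
          refine Finset.sum_le_sum fun k _ => ?_
          calc ‖⟪g k, ψ⟫_ℂ‖ ^ 2 ≤ (‖g k‖ * ‖ψ‖) ^ 2 :=
                pow_le_pow_left₀ (norm_nonneg _) (norm_inner_le_norm _ _) 2
            _ = ‖g k‖ ^ 2 * ‖ψ‖ ^ 2 := mul_pow _ _ _
            _ ≤ _ := mul_le_mul_of_nonneg_right (hg k) (sq_nonneg _)
      _ = (∑ k ∈ s, (G k k).re) * ‖ψ‖ ^ 2 := by rw [Finset.sum_mul]
      _ ≤ ‖ψ‖ ^ 2 := mul_le_of_le_one_left (sq_nonneg _) (hs s)
  let T₀ : Fock n →ₗ[ℂ] Fock n :=
    { toFun := fun ψ => ⟨fun k => ⟪g k, ψ⟫_ℂ, memℓp_gen' (hcol ψ)⟩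
      map_add' := fun ψ φ => lp.ext (funext fun k => inner_add_right _ _ _)
      map_smul' := fun c ψ => lp.ext (funext fun k => inner_smul_right _ _ _) }
  have hT₀ : ∀ ψ, ‖T₀ ψ‖ ≤ 1 * ‖ψ‖ := fun ψ => by
    rw [one_mul]
    exact lp.norm_le_of_forall_sum_le (by norm_num) (norm_nonneg _) (hcol ψ)
  let T : Fock n →L[ℂ] Fock n := T₀.mkContinuous 1 hT₀
  have hT : ∀ k l, entry T k l = G k l := by
    intro k l
    rw [infs_entry_eq]
    change ⟪g k, ket l⟫_ℂ = G k l
    rw [ket, lp.inner_single_right]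
    simp [g]
  have hpos : ∀ x, 0 ≤ ⟪x, T x⟫_ℂ := by
    intro x
    have h2 : Tendsto (fun s : Finset (Occ n) => ∑ k ∈ s, x k • ket k) atTop (𝓝 x) :=
      infs_hasSum x
    have h3 : Tendsto (fun s : Finset (Occ n) => ⟪∑ k ∈ s, x k • ket k, T (∑ k ∈ s, x k • ket k)⟫_ℂ)
        atTop (𝓝 ⟪x, T x⟫_ℂ) := h2.inner ((T.continuous.tendsto x).comp h2)
    refine ge_of_tendsto' h3 fun s => ?_
    rw [infs_inner_sum]
    simp only [hT]
    exact h s _
  have hpos' : T.IsPositive := by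
    rw [ContinuousLinearMap.isPositive_iff_complex]
    intro x
    have h2 := Complex.nonneg_iff.1 (hpos x)
    have h3 : ⟪T x, x⟫_ℂ = ⟪x, T x⟫_ℂ := by
      rw [← inner_conj_symm, Complex.conj_eq_iff_im]
      exact h2.2.symm
    rw [h3]
    refine ⟨?_, h2.1⟩
    apply Complex.ext
    · simp
    · simpa using h2.2
  exact ⟨⟨T, hpos', by simpa only [hT] using h1⟩, hT⟩

/-- the partial traces over the boxes tend to `1` -/
theorem approx_trunc (ρ : FockState n) : Approx (L := fun K => K) (fun K => trunc ρ K) ρ := by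
  have hZ := infs_Z_tendsto ρ
  refine ⟨?_, fun k l => ?_⟩
  · filter_upwards [hZ.eventually (lt_mem_nhds (show (0 : ℝ) < 1 by norm_num))] with K hK
    refine ⟨((psdK_entry ρ).posSemidef toOcc).smul (inv_nonneg.2 hK.le), ?_⟩
    rw [trunc, trace_smul]
    have e : trace (Matrix.of fun k l : Box n K => entry ρ.op (toOcc k) (toOcc l)) =
        ((∑ k : Box n K, (entry ρ.op (toOcc k) (toOcc k)).re : ℝ) : ℂ) := by
      rw [Complex.ofReal_sum, trace]
      refine Finset.sum_congr rfl fun k _ => ?_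
      have h2 := Complex.nonneg_iff.1 ((psdK_entry ρ).diag_nonneg (toOcc k))
      apply Complex.ext
      · simp
      · simp [← h2.2]
    rw [e, ← Complex.coe_smul, smul_eq_mul, ← Complex.ofReal_mul, inv_mul_cancel₀ hK.ne',
      Complex.ofReal_one]
  · have h2 := (hZ.inv₀ one_ne_zero).smul_const (entry ρ.op k l)
    rw [inv_one, one_smul] at h2
    refine h2.congr' ?_
    filter_upwards [infs_ev_box k, infs_ev_box l] with K hk hl
    rw [ext0, dif_pos ⟨hk, hl⟩]
    rfl

/-- eventually the normalisation is at least `1/2` -/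
theorem trunc_diag_le (ρ : FockState n) :
    ∀ᶠ K in atTop, ∀ k, (ext0 (trunc ρ K) k k).re ≤ 2 * (entry ρ.op k k).re := by
  filter_upwards [(infs_Z_tendsto ρ).eventually
    (lt_mem_nhds (show (1 / 2 : ℝ) < 1 by norm_num))] with K hK k
  have hp := (Complex.nonneg_iff.1 ((psdK_entry ρ).diag_nonneg k)).1
  rw [ext0]
  split_ifs with hk
  · change ((∑ k : Box n K, (entry ρ.op (toOcc k) (toOcc k)).re)⁻¹ • entry ρ.op k k).re ≤ _
    rw [Complex.smul_re, smul_eq_mul]
    refine mul_le_mul_of_nonneg_right ?_ hp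
    rw [inv_le_comm₀ (by linarith) (by norm_num)]
    linarith
  · rw [Complex.zero_re]; linarith

theorem en_trunc_le {ρ : FockState n} (h : FiniteEnergy ρ) :
    ∃ E : ℝ, ∀ᶠ K in atTop, en (trunc ρ K) ≤ E := by
  refine ⟨2 * ∑' k : Occ n, ((∑ j, k j : ℕ) : ℝ) * (entry ρ.op k k).re, ?_⟩
  filter_upwards [trunc_diag_le ρ] with K hK
  have hp : ∀ k, 0 ≤ (entry ρ.op k k).re := fun k =>
    (Complex.nonneg_iff.1 ((psdK_entry ρ).diag_nonneg k)).1
  calc en (trunc ρ K) ≤ ∑ k : Box n K,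
        2 * (((∑ j, toOcc k j : ℕ) : ℝ) * (entry ρ.op (toOcc k) (toOcc k)).re) := by
        refine Finset.sum_le_sum fun k _ => ?_
        have h1 := hK (toOcc k)
        rw [ext0_toOcc] at h1
        rw [mul_left_comm]
        exact mul_le_mul_of_nonneg_left h1 (Nat.cast_nonneg _)
    _ = 2 * ∑ k ∈ infsBox n K, ((∑ j, k j : ℕ) : ℝ) * (entry ρ.op k k).re := by
        rw [infsBox, Finset.sum_map, Finset.mul_sum]; rfl
    _ ≤ _ := by
        refine mul_le_mul_of_nonneg_left ?_ (by norm_num)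
        exact h.sum_le_tsum _ fun k _ => mul_nonneg (Nat.cast_nonneg _) (hp k)

end Crest.Agent.R331
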