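import Crest.Agent.R331.Conv

/-!
Row 331: the key inequality for weights (task KEYW).

Proof.  Fix `m` and prove the inequality with `Mk` replaced by `net m`; then let `m → ∞`
(`tendsto_net`, finite sums, `le_of_tendsto_of_tendsto'`).  Let `T = (TA, TB)` into
`JA ⊕ JB → ℂ`, `x' = Sum.elim (θA xA) (θB xB)`, `y'` likewise, `c' = Sum.elim (Cb tA) (Cb tB)`.
`Dom T x x'`, `Dom T y y'` (from `hX`, `hY`, `θ ≤ κ`), and `Dom T (Cb tc * LM x y) (c' * LM x' y')`
(`LM_smul`, `hKA`, `hKB`, `Cb_concave`); so `dom_kapg` and `kapg_smul` give the inequality for the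
coupling terms.  For `v`, pick `u i` from `netv_attained`, `U i = u i * v i`, `V i = (1 - u i) v i`;
`qf (net) v = qf D1 U + qf D2 V + (1/2) qf kap (U - V)`, `D1 = x + β(t+1) L`, `D2 = y + β t L`.
Use `bet tc * (tc + 1) = lam0 η tA tc * (bet tA * (tA + 1)) + lam0 (1-η) tB tc * (bet tB * (tB + 1))`
(and with `t` in place of `t+1`), `hX` at `U`, `hY` at `V`, `hKA`, `hKB` at `U` and `V`; split
`κ x = θ x + (κ - θ) x`, and finish pointwise with `netv_le`, `hk_le` and
`‖a + b‖² / 2 ≤ ‖a‖² + ‖b‖²`.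
-/

set_option autoImplicit false
set_option linter.unusedSectionVars false

open Matrix Set Filter Topology Crest.Agent.R342 Crest.Agent.R332 Crest.MathPhysics.Bosonic
open scoped ComplexOrder Kronecker Matrix.Norms.Frobenius

namespace Crest.Agent.R331

lemma kw_qf_nonneg {I : Type} [Fintype I] {w : I → ℝ} (hw : ∀ i, 0 ≤ w i) (v : I → ℂ) :
    0 ≤ qf w v :=
  Finset.sum_nonneg fun i _ => mul_nonneg (hw i) (sq_nonneg _)

lemma kw_qf_smul {I : Type} [Fintype I] (c : ℝ) (w : I → ℝ) (v : I → ℂ) :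
    qf (fun i => c * w i) v = c * qf w v := by
  simp only [qf, Finset.mul_sum, mul_assoc]

lemma kw_qf_add {I : Type} [Fintype I] (w w' : I → ℝ) (v : I → ℂ) :
    qf (fun i => w i + w' i) v = qf w v + qf w' v := by
  simp only [qf, add_mul, Finset.sum_add_distrib]

/-- the pair of two linear maps, into functions on a sum type -/
def kwT {I JA JB : Type} (TA : (I → ℂ) →ₗ[ℂ] (JA → ℂ)) (TB : (I → ℂ) →ₗ[ℂ] (JB → ℂ)) :
    (I → ℂ) →ₗ[ℂ] (JA ⊕ JB → ℂ) where
  toFun v := Sum.elim (TA v) (TB v)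
  map_add' v v' := by
    funext j; rcases j with j | j <;> simp
  map_smul' c v := by
    funext j; rcases j with j | j <;> simp

lemma kw_qf_T {I JA JB : Type} [Fintype JA] [Fintype JB]
    (TA : (I → ℂ) →ₗ[ℂ] (JA → ℂ)) (TB : (I → ℂ) →ₗ[ℂ] (JB → ℂ)) (w : JA ⊕ JB → ℝ) (v : I → ℂ) :
    qf w (kwT TA TB v) = qf (fun j => w (Sum.inl j)) (TA v) + qf (fun j => w (Sum.inr j)) (TB v) := by
  simp only [qf, Fintype.sum_sum_type]
  rfl

/-- the lower bound for one output factor -/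
lemma kw_side {J : Type} [Fintype J] (m : ℕ) {x y : J → ℝ} {t κ θ : ℝ}
    (hx : ∀ j, 0 < x j) (hy : ∀ j, 0 < y j) (ht : 0 < t) (hθ : 0 < θ) (hκ : θ ≤ κ)
    (U V : J → ℂ) :
    qf (fun j => θ * net m t (x j) (y j) + (κ - θ) * hk (x j) (y j)) (U + V) ≤
      κ * qf x U + bet t * (t + 1) * (θ * qf (fun j => LM (x j) (y j)) U)
      + κ * qf y V + bet t * t * (θ * qf (fun j => LM (x j) (y j)) V)
      + θ * qf (fun j => kapg m (x j) (y j) (Cb t)) (U - V) / 2 := by
  simp only [qf, Finset.mul_sum, Finset.sum_div, ← Finset.sum_add_distrib]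
  refine Finset.sum_le_sum fun j _ => ?_
  have hb := bet_pos ht
  have hL := LM_pos (hx j) (hy j)
  have hxj := hx j
  have hyj := hy j
  have h1 : 0 < x j + bet t * (t + 1) * LM (x j) (y j) := by positivity
  have h2 : 0 < y j + bet t * t * LM (x j) (y j) := by positivity
  have h3 := kapg_pos m hxj hyj (Cb_pos ht)
  have e1 := netv_le h1 h2 h3 (U j) (V j)
  have e2 := hk_le hxj hyj (U j) (V j)
  have e1' := mul_le_mul_of_nonneg_left e1 hθ.le
  have e2' := mul_le_mul_of_nonneg_left e2 (sub_nonneg.2 hκ)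
  simp only [net, Pi.add_apply, Pi.sub_apply]
  nlinarith [e1', e2']

/-- the optimal splitting of the input -/
lemma kw_split {I : Type} [Fintype I] (m : ℕ) {x y : I → ℝ} {t : ℝ}
    (hx : ∀ j, 0 < x j) (hy : ∀ j, 0 < y j) (ht : 0 < t) (v : I → ℂ) :
    ∃ U V : I → ℂ, U + V = v ∧
      qf (fun i => net m t (x i) (y i)) v =
        qf x U + bet t * (t + 1) * qf (fun j => LM (x j) (y j)) U
        + qf y V + bet t * t * qf (fun j => LM (x j) (y j)) V
        + qf (fun j => kapg m (x j) (y j) (Cb t)) (U - V) / 2 := by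
  have hb := bet_pos ht
  have key : ∀ j, ∃ u : ℝ, (x j + bet t * (t + 1) * LM (x j) (y j)) * u ^ 2
      + (y j + bet t * t * LM (x j) (y j)) * (1 - u) ^ 2
      + kapg m (x j) (y j) (Cb t) / 2 * (2 * u - 1) ^ 2 = net m t (x j) (y j) := by
    intro j
    have hL := LM_pos (hx j) (hy j)
    have hxj := hx j
    have hyj := hy j
    have h1 : 0 < x j + bet t * (t + 1) * LM (x j) (y j) := by positivity
    have h2 : 0 < y j + bet t * t * LM (x j) (y j) := by positivity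
    exact netv_attained h1 h2 (kapg_pos m hxj hyj (Cb_pos ht))
  choose u hu using key
  refine ⟨fun i => ((u i : ℝ) : ℂ) * v i, fun i => ((1 - u i : ℝ) : ℂ) * v i, ?_, ?_⟩
  · funext i
    simp only [Pi.add_apply]
    push_cast
    ring
  · simp only [qf, Finset.mul_sum, Finset.sum_div, ← Finset.sum_add_distrib]
    refine Finset.sum_congr rfl fun i _ => ?_
    have e : ((u i : ℝ) : ℂ) * v i - ((1 - u i : ℝ) : ℂ) * v i = ((2 * u i - 1 : ℝ) : ℂ) * v i := by
      push_cast; ring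
    simp only [Pi.sub_apply, e, norm_mul, Complex.norm_real, mul_pow, Real.norm_eq_abs, sq_abs]
    rw [← hu i]
    ring

lemma kw_half (a b : ℂ) : ‖a + b‖ ^ 2 / 2 ≤ ‖a‖ ^ 2 + ‖b‖ ^ 2 := by
  have h := norm_add_le a b
  have h0 := norm_nonneg (a + b)
  nlinarith [sq_nonneg (‖a‖ - ‖b‖), norm_nonneg a, norm_nonneg b]

lemma kw_lam {e t tc : ℝ} (ht : 0 < t) : lam0 e t tc * bet t = e * bet tc := by
  have := (bet_pos ht).ne'
  unfold lam0
  field_simp

lemma kw_tendsto {J : Type} [Fintype J] {x y : J → ℝ} {t : ℝ} (a : ℝ) (g : J → ℝ)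
    (hx : ∀ j, 0 < x j) (hy : ∀ j, 0 < y j) (ht : 0 < t) (v : J → ℂ) :
    Tendsto (fun m => qf (fun j => a * net m t (x j) (y j) + g j) v) atTop
      (𝓝 (qf (fun j => a * Mk t (x j) (y j) + g j) v)) := by
  unfold qf
  refine tendsto_finsetSum _ fun j _ => ?_
  exact (((tendsto_net ht (hx j) (hy j)).const_mul a).add_const (g j)).mul_const _

theorem key_weights {I JA JB : Type} [Fintype I] [Fintype JA] [Fintype JB]
    (TA : (I → ℂ) →ₗ[ℂ] (JA → ℂ)) (TB : (I → ℂ) →ₗ[ℂ] (JB → ℂ)) (φ : (I → ℂ) →ₗ[ℂ] ℂ)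
    {x y : I → ℝ} {xA yA : JA → ℝ} {xB yB : JB → ℝ} {η tA tB κ θA θB w : ℝ}
    (hx : ∀ i, 0 < x i) (hy : ∀ i, 0 < y i) (hxA : ∀ j, 0 < xA j) (hyA : ∀ j, 0 < yA j)
    (hxB : ∀ j, 0 < xB j) (hyB : ∀ j, 0 < yB j) (hη0 : 0 ≤ η) (hη1 : η ≤ 1)
    (htA : 0 < tA) (htB : 0 < tB) (hθA : 0 < θA) (hθB : 0 < θB) (hA : θA ≤ κ) (hB : θB ≤ κ)
    (hw : 0 ≤ w)
    (hX : ∀ v, κ * (qf xA (TA v) + qf xB (TB v)) + w * ‖φ v‖ ^ 2 ≤ qf x v)
    (hY : ∀ v, κ * (qf yA (TA v) + qf yB (TB v)) + w * ‖φ v‖ ^ 2 ≤ qf y v)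
    (hKA : ∀ v, θA * qf (fun j => LM (xA j) (yA j)) (TA v) ≤
      lam0 η tA (tC η tA tB) * qf (fun i => LM (x i) (y i)) v)
    (hKB : ∀ v, θB * qf (fun j => LM (xB j) (yB j)) (TB v) ≤
      lam0 (1 - η) tB (tC η tA tB) * qf (fun i => LM (x i) (y i)) v) (v : I → ℂ) :
    qf (fun j => θA * Mk tA (xA j) (yA j) + (κ - θA) * hk (xA j) (yA j)) (TA v)
      + qf (fun j => θB * Mk tB (xB j) (yB j) + (κ - θB) * hk (xB j) (yB j)) (TB v)
      + w / 2 * ‖φ v‖ ^ 2 ≤ qf (fun i => Mk (tC η tA tB) (x i) (y i)) v := by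
  have htc : 0 < tC η tA tB := tC_pos hη0 hη1 htA htB
  set tc := tC η tA tB with htcdef
  have hbA := bet_pos htA
  have hbB := bet_pos htB
  have hbC := bet_pos htc
  -- domination of the basic weights
  have dom0 : ∀ {z : I → ℝ} {zA : JA → ℝ} {zB : JB → ℝ}, (∀ j, 0 < zA j) → (∀ j, 0 < zB j) →
      (∀ v, κ * (qf zA (TA v) + qf zB (TB v)) + w * ‖φ v‖ ^ 2 ≤ qf z v) →
      Dom (kwT TA TB) z (Sum.elim (fun j => θA * zA j) (fun j => θB * zB j)) := by
    intro z zA zB hzA hzB hZ v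
    rw [kw_qf_T]
    simp only [Sum.elim_inl, Sum.elim_inr, kw_qf_smul]
    have p1 := kw_qf_nonneg (fun j => (hzA j).le) (TA v)
    have p2 := kw_qf_nonneg (fun j => (hzB j).le) (TB v)
    have p3 : 0 ≤ w * ‖φ v‖ ^ 2 := by positivity
    have p4 := mul_le_mul_of_nonneg_right hA p1
    have p5 := mul_le_mul_of_nonneg_right hB p2
    have := hZ v
    linarith
  have hLpos : ∀ v, 0 ≤ qf (fun i => LM (x i) (y i)) v := fun v =>
    kw_qf_nonneg (fun i => (LM_pos (hx i) (hy i)).le) v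
  have dom3 : Dom (kwT TA TB) (fun i => Cb tc * LM (x i) (y i))
      (fun j => Sum.elim (fun _ => Cb tA) (fun _ => Cb tB) j *
        LM (Sum.elim (fun j => θA * xA j) (fun j => θB * xB j) j)
          (Sum.elim (fun j => θA * yA j) (fun j => θB * yB j) j)) := by
    intro v
    rw [kw_qf_T]
    simp only [Sum.elim_inl, Sum.elim_inr]
    have eA : (fun j => Cb tA * LM (θA * xA j) (θA * yA j)) =
        fun j => Cb tA * (θA * LM (xA j) (yA j)) := by
      funext j; rw [LM_smul hθA (hxA j) (hyA j)]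
    have eB : (fun j => Cb tB * LM (θB * xB j) (θB * yB j)) =
        fun j => Cb tB * (θB * LM (xB j) (yB j)) := by
      funext j; rw [LM_smul hθB (hxB j) (hyB j)]
    rw [eA, eB, kw_qf_smul, kw_qf_smul, kw_qf_smul, kw_qf_smul, kw_qf_smul]
    have p1 := mul_le_mul_of_nonneg_left (hKA v) (Cb_pos htA).le
    have p2 := mul_le_mul_of_nonneg_left (hKB v) (Cb_pos htB).le
    have p3 := mul_le_mul_of_nonneg_right (Cb_concave hη0 hη1 htA htB) (hLpos v)
    rw [← htcdef] at p3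
    nlinarith [p1, p2, p3]
  have hkap : ∀ (m : ℕ) (v : I → ℂ),
      θA * qf (fun j => kapg m (xA j) (yA j) (Cb tA)) (TA v)
        + θB * qf (fun j => kapg m (xB j) (yB j) (Cb tB)) (TB v) ≤
      qf (fun i => kapg m (x i) (y i) (Cb tc)) v := by
    intro m v
    have h := dom_kapg m (T := kwT TA TB) (c := fun _ => Cb tc)
      (c' := Sum.elim (fun _ => Cb tA) (fun _ => Cb tB)) hx hy (fun _ => Cb_pos htc)
      (x' := Sum.elim (fun j => θA * xA j) (fun j => θB * xB j))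
      (y' := Sum.elim (fun j => θA * yA j) (fun j => θB * yB j))
      (by rintro (j | j); exacts [mul_pos hθA (hxA j), mul_pos hθB (hxB j)])
      (by rintro (j | j); exacts [mul_pos hθA (hyA j), mul_pos hθB (hyB j)])
      (by rintro (j | j); exacts [Cb_pos htA, Cb_pos htB])
      (dom0 hxA hxB hX) (dom0 hyA hyB hY) dom3 v
    rw [kw_qf_T] at h
    simp only [Sum.elim_inl, Sum.elim_inr] at h
    have eA : (fun j => kapg m (θA * xA j) (θA * yA j) (Cb tA)) =
        fun j => θA * kapg m (xA j) (yA j) (Cb tA) := by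
      funext j; rw [kapg_smul m _ hθA (hxA j) (hyA j)]
    have eB : (fun j => kapg m (θB * xB j) (θB * yB j) (Cb tB)) =
        fun j => θB * kapg m (xB j) (yB j) (Cb tB) := by
      funext j; rw [kapg_smul m _ hθB (hxB j) (hyB j)]
    rwa [eA, eB, kw_qf_smul, kw_qf_smul] at h
  have e1 : bet tc * (tc + 1) = lam0 η tA tc * (bet tA * (tA + 1))
      + lam0 (1 - η) tB tc * (bet tB * (tB + 1)) := by
    rw [← mul_assoc, ← mul_assoc, kw_lam htA, kw_lam htB]
    have : tc = η * tA + (1 - η) * tB := rfl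
    linear_combination (bet tc) * this
  have e2 : bet tc * tc = lam0 η tA tc * (bet tA * tA) + lam0 (1 - η) tB tc * (bet tB * tB) := by
    rw [← mul_assoc, ← mul_assoc, kw_lam htA, kw_lam htB]
    have : tc = η * tA + (1 - η) * tB := rfl
    linear_combination (bet tc) * this
  have hm : ∀ m : ℕ,
      qf (fun j => θA * net m tA (xA j) (yA j) + (κ - θA) * hk (xA j) (yA j)) (TA v)
      + qf (fun j => θB * net m tB (xB j) (yB j) + (κ - θB) * hk (xB j) (yB j)) (TB v)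
      + w / 2 * ‖φ v‖ ^ 2 ≤ qf (fun i => 1 * net m tc (x i) (y i) + 0) v := by
    intro m
    obtain ⟨U, V, hUV, hq⟩ := kw_split m hx hy htc v
    simp only [one_mul, add_zero]
    rw [hq, ← hUV, map_add, map_add, map_add]
    have sA := kw_side m hxA hyA htA hθA hA (TA U) (TA V)
    have sB := kw_side m hxB hyB htB hθB hB (TB U) (TB V)
    have k0 := hkap m (U - V)
    rw [map_sub, map_sub] at k0
    have x0 := hX U
    have y0 := hY V
    have a1 := mul_le_mul_of_nonneg_left (hKA U) (by positivity : 0 ≤ bet tA * (tA + 1))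
    have a2 := mul_le_mul_of_nonneg_left (hKA V) (by positivity : 0 ≤ bet tA * tA)
    have b1 := mul_le_mul_of_nonneg_left (hKB U) (by positivity : 0 ≤ bet tB * (tB + 1))
    have b2 := mul_le_mul_of_nonneg_left (hKB V) (by positivity : 0 ≤ bet tB * tB)
    have h0 := mul_le_mul_of_nonneg_left (kw_half (φ U) (φ V)) hw
    rw [e1, e2]
    nlinarith [sA, sB, k0, x0, y0, a1, a2, b1, b2, h0]
  have hl := ((kw_tendsto θA (fun j => (κ - θA) * hk (xA j) (yA j)) hxA hyA htA (TA v)).add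
    (kw_tendsto θB (fun j => (κ - θB) * hk (xB j) (yB j)) hxB hyB htB (TB v))).add_const
      (w / 2 * ‖φ v‖ ^ 2)
  have hr := kw_tendsto 1 (fun _ => 0) hx hy htc v
  have := le_of_tendsto_of_tendsto' hl hr hm
  simpa only [one_mul, add_zero] using this

end Crest.Agent.R331
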