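import Crest.Agent.R331.Pair
import Crest.Agent.R331.KeyW

/-!
Row 331: the key inequality for matrices (task KEYM).
Apply `key_weights` with `I = κ × κ`, `x (i,j) = ev ρ' i`, `y (i,j) = ev ρ' j`, and for
`v : κ × κ → ℂ`, `Z(v) = eU ρ' * of (curry v) * (eU ρ')ᴴ`,
`TA v (i,j) = co ρA (cen ρA (pA ρB (Θ Z(v)))) i j`, `TB` likewise,
`φ v = trace (ρC Z(v)) - trace (ω Z(v))`, `κ = 1 - γ`, `w = γ (1-γ)`; `kf k ρ X = qf .. (uncurry (co ρ X))`.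
`hX`, `hY`: `kf_fst`, `kf_snd`, `rtr (ρ' ZZᴴ) = (1-γ) rtr (ρC ZZᴴ) + γ rtr (ω ZZᴴ)`, `hoeffding'`,
`‖tr ω Z‖² ≤ rtr (ω ZZᴴ)` (`kf_cen`), `(1-γ)|u|² + γ|v|² ≥ γ(1-γ)|u-v|²`.
`hKA`: `kA` and `thr * lamr = (1-γ)² lam0`.  This gives the claim without the first term; apply it to
`cen ρ' Z` (which has the same `ξA`, `ξB`, `φ` because `Θ 1 = 1`) and use `kf_cen` with `Mk_self`.
-/

set_option autoImplicit false
set_option linter.unusedSectionVars false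

open Matrix Set Filter Topology Crest.Agent.R342 Crest.Agent.R332 Crest.MathPhysics.Bosonic
open scoped ComplexOrder Kronecker Matrix.Norms.Frobenius

namespace Crest.Agent.R331

variable {ι ι' κ : Type} [Fintype ι] [DecidableEq ι] [Fintype ι'] [DecidableEq ι']
  [Fintype κ] [DecidableEq κ]

/-- a coordinate vector as a matrix, in the eigenbasis of `ρ` -/
noncomputable def km_toM (ρ : Matrix ι ι ℂ) : (ι × ι → ℂ) →ₗ[ℂ] Matrix ι ι ℂ where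
  toFun v := eU ρ * Matrix.of (fun i j => v (i, j)) * (eU ρ)ᴴ
  map_add' v w := by
    have : (Matrix.of fun i j => (v + w) (i, j)) =
        (Matrix.of fun i j => v (i, j)) + Matrix.of fun i j => w (i, j) := rfl
    rw [this, Matrix.mul_add, Matrix.add_mul]
  map_smul' r v := by
    have : (Matrix.of fun i j => (r • v) (i, j)) = r • Matrix.of fun i j => v (i, j) := rfl
    rw [this, Matrix.mul_smul, Matrix.smul_mul]; rfl

/-- coordinates in the eigenbasis of `ρ` as a linear map -/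
noncomputable def km_coL (ρ : Matrix ι ι ℂ) : Matrix ι ι ℂ →ₗ[ℂ] (ι × ι → ℂ) where
  toFun X := fun p => co ρ X p.1 p.2
  map_add' X Y := by
    ext p; simp only [co, Matrix.mul_add, Matrix.add_mul, Matrix.add_apply, Pi.add_apply]
  map_smul' r X := by
    ext p; simp only [co, Matrix.mul_smul, Matrix.smul_mul, Matrix.smul_apply, Pi.smul_apply,
      RingHom.id_apply]

/-- expectation as a linear map -/
noncomputable def km_trL (ρ : Matrix ι ι ℂ) : Matrix ι ι ℂ →ₗ[ℂ] ℂ where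
  toFun X := trace (ρ * X)
  map_add' X Y := by rw [Matrix.mul_add, trace_add]
  map_smul' r X := by rw [Matrix.mul_smul, trace_smul]; rfl

/-- centring as a linear map -/
noncomputable def km_cenL (ρ : Matrix ι ι ℂ) : Matrix ι ι ℂ →ₗ[ℂ] Matrix ι ι ℂ where
  toFun X := cen ρ X
  map_add' X Y := by
    simp only [cen, Matrix.mul_add, trace_add, add_smul]; abel
  map_smul' r X := by
    simp only [cen, Matrix.mul_smul, trace_smul, smul_sub, smul_eq_mul, mul_smul, RingHom.id_apply]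

lemma km_kf (k : ℝ → ℝ → ℝ) (ρ X : Matrix ι ι ℂ) :
    qf (fun p : ι × ι => k (ev ρ p.1) (ev ρ p.2)) (km_coL ρ X) = kf k ρ X := by
  unfold qf kf
  rw [Fintype.sum_prod_type]
  rfl

lemma km_coL_toM (ρ : Matrix ι ι ℂ) (v : ι × ι → ℂ) : km_coL ρ (km_toM ρ v) = v := by
  ext p
  show co ρ (eU ρ * Matrix.of (fun i j => v (i, j)) * (eU ρ)ᴴ) p.1 p.2 = v p
  rw [co_co_inv]
  rfl

lemma km_toM_coL (ρ X : Matrix ι ι ℂ) : km_toM ρ (km_coL ρ X) = X := by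
  show eU ρ * co ρ X * (eU ρ)ᴴ = X
  unfold co
  calc eU ρ * ((eU ρ)ᴴ * X * eU ρ) * (eU ρ)ᴴ = (eU ρ * (eU ρ)ᴴ) * X * (eU ρ * (eU ρ)ᴴ) := by
        simp only [Matrix.mul_assoc]
    _ = X := by rw [eU_mul, Matrix.one_mul, Matrix.mul_one]

lemma km_kf' (k : ℝ → ℝ → ℝ) (ρ : Matrix ι ι ℂ) (v : ι × ι → ℂ) :
    qf (fun p : ι × ι => k (ev ρ p.1) (ev ρ p.2)) v = kf k ρ (km_toM ρ v) := by
  rw [← km_kf, km_coL_toM]

lemma km_mix_ineq {γ : ℝ} (h0 : 0 < γ) (h1 : γ < 1) (u v : ℂ) :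
    γ * (1 - γ) * ‖u - v‖ ^ 2 ≤ (1 - γ) * ‖u‖ ^ 2 + γ * ‖v‖ ^ 2 := by
  have h2 : ‖u - v‖ ^ 2 ≤ (‖u‖ + ‖v‖) ^ 2 := by
    gcongr; exact norm_sub_le u v
  have h3 : 0 ≤ γ * (1 - γ) := mul_nonneg h0.le (by linarith)
  have h4 := mul_le_mul_of_nonneg_left h2 h3
  nlinarith [sq_nonneg ((1 - γ) * ‖u‖ - γ * ‖v‖)]

lemma km_cen_sub {ρ : Matrix ι ι ℂ} (h : trace ρ = 1) (X : Matrix ι ι ℂ) (t : ℂ) :
    cen ρ (X - t • (1 : Matrix ι ι ℂ)) = cen ρ X := by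
  simp only [cen, Matrix.mul_sub, Matrix.mul_smul, Matrix.mul_one, trace_sub, trace_smul, h,
    smul_eq_mul, mul_one, sub_smul]
  abel

lemma km_trace_cen {σ : Matrix ι ι ℂ} (h : trace σ = 1) (ρ X : Matrix ι ι ℂ) :
    trace (σ * cen ρ X) = trace (σ * X) - trace (ρ * X) := by
  simp only [cen, Matrix.mul_sub, Matrix.mul_smul, Matrix.mul_one, trace_sub, trace_smul, h,
    smul_eq_mul, mul_one]

lemma km_mean_le_fst {ω : Matrix ι ι ℂ} (h : FDens ω) (Z : Matrix ι ι ℂ) :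
    ‖trace (ω * Z)‖ ^ 2 ≤ rtr (ω * (Z * Zᴴ)) := by
  rw [← kf_fst h.1.isHermitian, kf_cen (k := fun x _ => x) h.dens (fun _ => rfl) Z]
  exact le_add_of_nonneg_right (kf_nonneg (fun i _ => (ev_pos h.1 i).le) _)

lemma km_mean_le_snd {ω : Matrix ι ι ℂ} (h : FDens ω) (Z : Matrix ι ι ℂ) :
    ‖trace (ω * Z)‖ ^ 2 ≤ rtr (ω * (Zᴴ * Z)) := by
  rw [← kf_snd h.1.isHermitian, kf_cen (k := fun _ y => y) h.dens (fun _ => rfl) Z]
  exact le_add_of_nonneg_right (kf_nonneg (fun _ j => (ev_pos h.1 j).le) _)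

lemma km_thr {e t tc γ P Q : ℝ} (h0 : 0 < e) (ht : 0 < t) (htc : 0 < tc) (hγ : 0 < γ) (hγ1 : γ < 1)
    (h : (1 - γ) ^ 2 * P ≤ lamr e t tc γ * Q) : thr e t tc γ * P ≤ lam0 e t tc * Q := by
  have hl := lamr_pos h0.le ht htc hγ hγ1
  have hl0 := lam0_nonneg h0.le ht htc
  calc thr e t tc γ * P = lam0 e t tc / lamr e t tc γ * ((1 - γ) ^ 2 * P) := by
        unfold thr; ring
    _ ≤ lam0 e t tc / lamr e t tc γ * (lamr e t tc γ * Q) :=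
        mul_le_mul_of_nonneg_left h (div_nonneg hl0 hl.le)
    _ = lam0 e t tc * Q := by field_simp

variable {η tA tB γ γ' R : ℝ} {Θ : Matrix κ κ ℂ →ₗ[ℂ] Matrix (ι × ι') (ι × ι') ℂ}
  {ρA a Qa YA : Matrix ι ι ℂ} {ρB b Qb YB : Matrix ι' ι' ℂ} {ρC ω ρ' c : Matrix κ κ ℂ}

lemma Crit.km_rtr (h : Crit η tA tB γ γ' R Θ ρA a Qa YA ρB b Qb YB ρC ω ρ' c) (X : Matrix κ κ ℂ) :
    rtr (ρ' * X) = (1 - γ) * rtr (ρC * X) + γ * rtr (ω * X) := by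
  rw [h.mix, Matrix.add_mul, Matrix.smul_mul, Matrix.smul_mul, rtr_add, rtr_smul, rtr_smul]

lemma Crit.km_X (h : Crit η tA tB γ γ' R Θ ρA a Qa YA ρB b Qb YB ρC ω ρ' c) (Z : Matrix κ κ ℂ) :
    (1 - γ) * (kf (fun x _ => x) ρA (cen ρA (pA ρB (Θ Z))) + kf (fun x _ => x) ρB (cen ρB (pB ρA (Θ Z))))
      + γ * (1 - γ) * ‖trace (ρC * Z) - trace (ω * Z)‖ ^ 2 ≤ kf (fun x _ => x) ρ' Z := by
  rw [kf_fst h.fdens.1.isHermitian Z, h.km_rtr]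
  have h1 := hoeffding' h.chan h.dA.dens h.dB.dens h.out Z
  have h2 := km_mean_le_fst h.dω Z
  have h3 := km_mix_ineq h.γ0 h.γ1 (trace (ρC * Z)) (trace (ω * Z))
  have h4 := mul_le_mul_of_nonneg_left h1 (sub_pos.2 h.γ1).le
  have h5 := mul_le_mul_of_nonneg_left h2 h.γ0.le
  linarith

lemma Crit.km_Y (h : Crit η tA tB γ γ' R Θ ρA a Qa YA ρB b Qb YB ρC ω ρ' c) (Z : Matrix κ κ ℂ) :
    (1 - γ) * (kf (fun _ y => y) ρA (cen ρA (pA ρB (Θ Z))) + kf (fun _ y => y) ρB (cen ρB (pB ρA (Θ Z))))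
      + γ * (1 - γ) * ‖trace (ρC * Z) - trace (ω * Z)‖ ^ 2 ≤ kf (fun _ y => y) ρ' Z := by
  rw [kf_snd h.fdens.1.isHermitian Z, h.km_rtr]
  have h1 := hoeffding h.chan h.dA.dens h.dB.dens h.out Z
  have h2 := km_mean_le_snd h.dω Z
  have h3 := km_mix_ineq h.γ0 h.γ1 (trace (ρC * Z)) (trace (ω * Z))
  have h4 := mul_le_mul_of_nonneg_left h1 (sub_pos.2 h.γ1).le
  have h5 := mul_le_mul_of_nonneg_left h2 h.γ0.le
  linarith

lemma Crit.km_key0 (h : Crit η tA tB γ γ' R Θ ρA a Qa YA ρB b Qb YB ρC ω ρ' c) (Z : Matrix κ κ ℂ) :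
    kf (fun x y => thr η tA (tC η tA tB) γ * Mk tA x y
          + (1 - γ - thr η tA (tC η tA tB) γ) * hk x y) ρA (cen ρA (pA ρB (Θ Z)))
      + kf (fun x y => thr (1 - η) tB (tC η tA tB) γ * Mk tB x y
          + (1 - γ - thr (1 - η) tB (tC η tA tB) γ) * hk x y) ρB (cen ρB (pB ρA (Θ Z)))
      + γ * (1 - γ) / 2 * ‖trace (ρC * Z) - trace (ω * Z)‖ ^ 2
      ≤ kf (Mk (tC η tA tB)) ρ' Z := by
  have htc := tC_pos h.η0.le h.η1.le h.tA0 h.tB0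
  have hη' : 0 < 1 - η := sub_pos.2 h.η1
  have key := key_weights
    (km_coL ρA ∘ₗ km_cenL ρA ∘ₗ pAL ρB ∘ₗ Θ ∘ₗ km_toM ρ')
    (km_coL ρB ∘ₗ km_cenL ρB ∘ₗ pBL ρA ∘ₗ Θ ∘ₗ km_toM ρ')
    ((km_trL ρC - km_trL ω) ∘ₗ km_toM ρ')
    (x := fun p : κ × κ => ev ρ' p.1) (y := fun p : κ × κ => ev ρ' p.2)
    (xA := fun p : ι × ι => ev ρA p.1) (yA := fun p : ι × ι => ev ρA p.2)
    (xB := fun p : ι' × ι' => ev ρB p.1) (yB := fun p : ι' × ι' => ev ρB p.2)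
    (η := η) (tA := tA) (tB := tB) (κ := 1 - γ) (θA := thr η tA (tC η tA tB) γ)
    (θB := thr (1 - η) tB (tC η tA tB) γ) (w := γ * (1 - γ))
    (fun p => ev_pos h.fdens.1 _) (fun p => ev_pos h.fdens.1 _)
    (fun p => ev_pos h.dA.1 _) (fun p => ev_pos h.dA.1 _)
    (fun p => ev_pos h.dB.1 _) (fun p => ev_pos h.dB.1 _) h.η0.le h.η1.le h.tA0 h.tB0
    (thr_pos h.η0 h.tA0 htc h.γ0 h.γ1) (thr_pos hη' h.tB0 htc h.γ0 h.γ1)
    (thr_lt h.η0 h.tA0 htc h.γ0 h.γ1).le (thr_lt hη' h.tB0 htc h.γ0 h.γ1).le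
    (mul_nonneg h.γ0.le (sub_pos.2 h.γ1).le)
    (fun v => by
      have h1 := h.km_X (km_toM ρ' v)
      rw [← km_kf' (fun x _ => x) ρ' v, ← km_kf (fun x _ => x) ρA, ← km_kf (fun x _ => x) ρB] at h1
      exact h1)
    (fun v => by
      have h1 := h.km_Y (km_toM ρ' v)
      rw [← km_kf' (fun _ y => y) ρ' v, ← km_kf (fun _ y => y) ρA, ← km_kf (fun _ y => y) ρB] at h1
      exact h1)
    (fun v => by
      have h1 := km_thr h.η0 h.tA0 htc h.γ0 h.γ1 (h.kA (km_toM ρ' v))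
      rw [← km_kf' LM ρ' v, ← km_kf LM ρA] at h1
      exact h1)
    (fun v => by
      have h1 := km_thr hη' h.tB0 htc h.γ0 h.γ1 (h.kB (km_toM ρ' v))
      rw [← km_kf' LM ρ' v, ← km_kf LM ρB] at h1
      exact h1)
    (km_coL ρ' Z)
  rw [← km_kf (Mk (tC η tA tB)) ρ', ← km_kf _ ρA, ← km_kf _ ρB]
  simp only [LinearMap.comp_apply, km_toM_coL] at key
  exact key

theorem Crit.key (h : Crit η tA tB γ γ' R Θ ρA a Qa YA ρB b Qb YB ρC ω ρ' c) (Z : Matrix κ κ ℂ) :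
    ‖trace (ρ' * Z)‖ ^ 2 + γ * (1 - γ) / 2 * ‖trace (ρC * Z) - trace (ω * Z)‖ ^ 2
      + kf (fun x y => thr η tA (tC η tA tB) γ * Mk tA x y
          + (1 - γ - thr η tA (tC η tA tB) γ) * hk x y) ρA (cen ρA (pA ρB (Θ Z)))
      + kf (fun x y => thr (1 - η) tB (tC η tA tB) γ * Mk tB x y
          + (1 - γ - thr (1 - η) tB (tC η tA tB) γ) * hk x y) ρB (cen ρB (pB ρA (Θ Z)))
      ≤ kf (Mk (tC η tA tB)) ρ' Z := by
  have htc := tC_pos h.η0.le h.η1.le h.tA0 h.tB0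
  have h1 := h.km_key0 (cen ρ' Z)
  have hΘ : Θ (cen ρ' Z) = Θ Z - trace (ρ' * Z) • (1 : Matrix (ι × ι') (ι × ι') ℂ) := by
    rw [cen, map_sub, map_smul, h.chan.unital]
  have hA : cen ρA (pA ρB (Θ (cen ρ' Z))) = cen ρA (pA ρB (Θ Z)) := by
    rw [hΘ, ← pAL_apply, map_sub, map_smul, pAL_apply, pAL_apply, pA_one h.dB.2, km_cen_sub h.dA.2]
  have hB : cen ρB (pB ρA (Θ (cen ρ' Z))) = cen ρB (pB ρA (Θ Z)) := by
    rw [hΘ, ← pBL_apply, map_sub, map_smul, pBL_apply, pBL_apply, pB_one h.dA.2, km_cen_sub h.dB.2]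
  have hφ : trace (ρC * cen ρ' Z) - trace (ω * cen ρ' Z) = trace (ρC * Z) - trace (ω * Z) := by
    rw [km_trace_cen h.dC.2, km_trace_cen h.dω.2]; ring
  rw [hA, hB, hφ] at h1
  rw [kf_cen h.fdens.dens (fun i => Mk_self htc (ev_pos h.fdens.1 i)) Z]
  linarith

end Crest.Agent.R331
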