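import Crest.Agent.R331.Scal

/-!
Row 331: the kernel quadratic forms `kf` (task KF).  Everything is a computation in the eigenbasis:
`co ρ` is linear, multiplicative (`co ρ (X * Y) = co ρ X * co ρ Y`), `co ρ Xᴴ = (co ρ X)ᴴ`,
`co ρ 1 = 1`, `co ρ ρ = rdiag (ev ρ)`, `co ρ (fc f ρ) = rdiag (f ∘ ev ρ)`, `trace (co ρ X) = trace X`.
-/

set_option autoImplicit false
set_option linter.unusedSectionVars false

open Matrix Set Filter Topology Crest.Agent.R342 Crest.Agent.R332 Crest.MathPhysics.Bosonic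
open scoped ComplexOrder Kronecker Matrix.Norms.Frobenius

namespace Crest.Agent.R331

variable {ι ι' κ : Type} [Fintype ι] [DecidableEq ι] [Fintype ι'] [DecidableEq ι']
  [Fintype κ] [DecidableEq κ]

lemma kf_co_mul (ρ X Y : Matrix ι ι ℂ) : co ρ (X * Y) = co ρ X * co ρ Y := by
  unfold co
  calc (eU ρ)ᴴ * (X * Y) * eU ρ = (eU ρ)ᴴ * X * (eU ρ * (eU ρ)ᴴ) * Y * eU ρ := by
        rw [eU_mul]; simp [Matrix.mul_assoc]
    _ = _ := by simp only [Matrix.mul_assoc]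
lemma kf_co_ct (ρ X : Matrix ι ι ℂ) : co ρ Xᴴ = (co ρ X)ᴴ := by
  simp [co, Matrix.mul_assoc]
lemma kf_co_one (ρ : Matrix ι ι ℂ) : co ρ 1 = 1 := by simp [co, eU_mul']
lemma kf_co_add (ρ X Y : Matrix ι ι ℂ) : co ρ (X + Y) = co ρ X + co ρ Y := by
  simp [co, Matrix.mul_add, Matrix.add_mul]
lemma kf_co_sub (ρ X Y : Matrix ι ι ℂ) : co ρ (X - Y) = co ρ X - co ρ Y := by
  simp [co, Matrix.mul_sub, Matrix.sub_mul]
lemma kf_co_smul (ρ X : Matrix ι ι ℂ) (s : ℂ) : co ρ (s • X) = s • co ρ X := by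
  simp [co]
lemma kf_co_rsmul (ρ X : Matrix ι ι ℂ) (s : ℝ) : co ρ (s • X) = s • co ρ X := by
  simp [co]
lemma kf_co_fc (ρ : Matrix ι ι ℂ) (f : ℝ → ℝ) :
    co ρ (fc f ρ) = diagonal fun i => (f (ev ρ i) : ℂ) := by
  unfold co fc
  calc (eU ρ)ᴴ * (eU ρ * diagonal (fun i => (f (ev ρ i) : ℂ)) * (eU ρ)ᴴ) * eU ρ
      = ((eU ρ)ᴴ * eU ρ) * diagonal (fun i => (f (ev ρ i) : ℂ)) * ((eU ρ)ᴴ * eU ρ) := by
        simp only [Matrix.mul_assoc]
    _ = _ := by rw [eU_mul']; simp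
lemma kf_co_self {ρ : Matrix ι ι ℂ} (h : ρ.IsHermitian) :
    co ρ ρ = diagonal fun i => (ev ρ i : ℂ) := by
  have := kf_co_fc ρ fun t => t
  rwa [fc_id h] at this
lemma kf_trace_co (ρ X : Matrix ι ι ℂ) : trace (co ρ X) = trace X := by
  unfold co
  rw [trace_mul_comm, ← Matrix.mul_assoc, eU_mul, Matrix.one_mul]
lemma kf_trace_mul {ρ : Matrix ι ι ℂ} (h : ρ.IsHermitian) (Z : Matrix ι ι ℂ) :
    trace (ρ * Z) = ∑ i, (ev ρ i : ℂ) * co ρ Z i i := by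
  rw [← kf_trace_co ρ, kf_co_mul, kf_co_self h]
  simp [trace]
lemma kf_co_herm (ρ : Matrix ι ι ℂ) {X : Matrix ι ι ℂ} (hX : X.IsHermitian) (i j : ι) :
    co ρ X j i = star (co ρ X i j) := by
  rw [← conjTranspose_apply, ← kf_co_ct, hX.eq]
lemma kf_norm_sq (z : ℂ) : ‖z‖ ^ 2 = z.re ^ 2 + z.im ^ 2 := by
  rw [Complex.sq_norm, Complex.normSq_apply]; ring
lemma kf_star_mul (z : ℂ) : star z * z = ((‖z‖ ^ 2 : ℝ) : ℂ) := by
  rw [Complex.star_def, Complex.conj_mul']; simp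

lemma ev_pos {ρ : Matrix ι ι ℂ} (h : ρ.PosDef) (i : ι) : 0 < ev ρ i := by
  unfold ev
  rw [dif_pos h.1]
  exact h.eigenvalues_pos i

lemma posDef_of_ev_pos {ρ : Matrix ι ι ℂ} (h : ρ.IsHermitian) (hp : ∀ i, 0 < ev ρ i) :
    ρ.PosDef := by
  unfold ev at hp
  rw [dif_pos h] at hp
  exact h.posDef_iff_eigenvalues_pos.2 hp

lemma FDens.dens {ρ : Matrix ι ι ℂ} (h : FDens ρ) : Dens ρ := ⟨h.1.posSemidef, h.2⟩

lemma Dens.sum_ev {ρ : Matrix ι ι ℂ} (h : Dens ρ) : ∑ i, ev ρ i = 1 := by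
  have h1 := kf_trace_mul h.1.1 1
  rw [Matrix.mul_one, h.2, kf_co_one] at h1
  simp only [one_apply_eq, mul_one] at h1
  exact_mod_cast h1.symm

lemma Dens.ev_le_one {ρ : Matrix ι ι ℂ} (h : Dens ρ) (i : ι) : ev ρ i ≤ 1 := by
  rw [← h.sum_ev]
  exact Finset.single_le_sum (fun j _ => ev_nonneg h.1 j) (Finset.mem_univ i)

lemma mix_fdens {ρ ω : Matrix ι ι ℂ} (h : Dens ρ) (hω : FDens ω) {γ : ℝ} (h0 : 0 < γ)
    (h1 : γ < 1) : FDens ((1 - γ) • ρ + γ • ω) := by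
  refine ⟨PosDef.posSemidef_add (h.1.smul (sub_nonneg.2 h1.le)) (hω.1.smul h0), ?_⟩
  rw [trace_add, trace_smul, trace_smul, h.2, hω.2, ← add_smul]
  simp

lemma co_co_inv (ρ X : Matrix ι ι ℂ) : co ρ (eU ρ * X * (eU ρ)ᴴ) = X := by
  unfold co
  calc (eU ρ)ᴴ * (eU ρ * X * (eU ρ)ᴴ) * eU ρ = ((eU ρ)ᴴ * eU ρ) * X * ((eU ρ)ᴴ * eU ρ) := by
        simp only [Matrix.mul_assoc]
    _ = X := by rw [eU_mul']; simp

lemma ip_eq_sum (ρ X Y : Matrix ι ι ℂ) :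
    ip X Y = ∑ i, ∑ j, star (co ρ X i j) * co ρ Y i j := by
  rw [ip, ← kf_trace_co ρ, kf_co_mul, kf_co_ct, Finset.sum_comm]
  simp [trace, mul_apply]

lemma kf_congr {k k' : ℝ → ℝ → ℝ} {ρ : Matrix ι ι ℂ}
    (h : ∀ i j, k (ev ρ i) (ev ρ j) = k' (ev ρ i) (ev ρ j)) (Z : Matrix ι ι ℂ) :
    kf k ρ Z = kf k' ρ Z := by
  unfold kf; simp only [h]

lemma kf_mono {k k' : ℝ → ℝ → ℝ} {ρ : Matrix ι ι ℂ}
    (h : ∀ i j, k (ev ρ i) (ev ρ j) ≤ k' (ev ρ i) (ev ρ j)) (Z : Matrix ι ι ℂ) :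
    kf k ρ Z ≤ kf k' ρ Z := by
  exact Finset.sum_le_sum fun i _ => Finset.sum_le_sum fun j _ =>
    mul_le_mul_of_nonneg_right (h i j) (sq_nonneg _)

lemma kf_nonneg {k : ℝ → ℝ → ℝ} {ρ : Matrix ι ι ℂ} (h : ∀ i j, 0 ≤ k (ev ρ i) (ev ρ j))
    (Z : Matrix ι ι ℂ) : 0 ≤ kf k ρ Z := by
  exact Finset.sum_nonneg fun i _ => Finset.sum_nonneg fun j _ => mul_nonneg (h i j) (sq_nonneg _)

lemma kf_lin (s s' : ℝ) (k k' : ℝ → ℝ → ℝ) (ρ Z : Matrix ι ι ℂ) :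
    kf (fun x y => s * k x y + s' * k' x y) ρ Z = s * kf k ρ Z + s' * kf k' ρ Z := by
  simp only [kf, Finset.mul_sum, ← Finset.sum_add_distrib]
  exact Finset.sum_congr rfl fun i _ => Finset.sum_congr rfl fun j _ => by ring

lemma kf_smul (k : ℝ → ℝ → ℝ) (ρ Z : Matrix ι ι ℂ) (s : ℂ) :
    kf k ρ (s • Z) = ‖s‖ ^ 2 * kf k ρ Z := by
  simp only [kf, kf_co_smul, Finset.mul_sum, Matrix.smul_apply, smul_eq_mul, norm_mul]
  exact Finset.sum_congr rfl fun i _ => Finset.sum_congr rfl fun j _ => by ring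

lemma kf_rsmul (k : ℝ → ℝ → ℝ) (ρ Z : Matrix ι ι ℂ) (s : ℝ) :
    kf k ρ (s • Z) = s ^ 2 * kf k ρ Z := by
  simp only [kf, kf_co_rsmul, Finset.mul_sum, Matrix.smul_apply, norm_smul, mul_pow, Real.norm_eq_abs,
    sq_abs]
  exact Finset.sum_congr rfl fun i _ => Finset.sum_congr rfl fun j _ => by ring

lemma kf_fst {ρ : Matrix ι ι ℂ} (h : ρ.IsHermitian) (Z : Matrix ι ι ℂ) :
    kf (fun x _ => x) ρ Z = rtr (ρ * (Z * Zᴴ)) := by
  rw [rtr, kf_trace_mul h, kf_co_mul, kf_co_ct, Complex.re_sum]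
  refine Finset.sum_congr rfl fun i _ => ?_
  rw [mul_apply, Finset.mul_sum, Complex.re_sum]
  refine Finset.sum_congr rfl fun j _ => ?_
  rw [conjTranspose_apply, mul_comm (co ρ Z i j), kf_star_mul, ← Complex.ofReal_mul,
    Complex.ofReal_re]

lemma kf_snd {ρ : Matrix ι ι ℂ} (h : ρ.IsHermitian) (Z : Matrix ι ι ℂ) :
    kf (fun _ y => y) ρ Z = rtr (ρ * (Zᴴ * Z)) := by
  rw [rtr, kf_trace_mul h, kf_co_mul, kf_co_ct, Complex.re_sum, kf, Finset.sum_comm]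
  refine Finset.sum_congr rfl fun i _ => ?_
  rw [mul_apply, Finset.mul_sum, Complex.re_sum]
  refine Finset.sum_congr rfl fun j _ => ?_
  rw [conjTranspose_apply, kf_star_mul, ← Complex.ofReal_mul, Complex.ofReal_re]

/-- Young's inequality -/
lemma two_re_ip_le {k : ℝ → ℝ → ℝ} {ρ : Matrix ι ι ℂ} (h : ∀ i j, 0 < k (ev ρ i) (ev ρ j))
    (X Y : Matrix ι ι ℂ) :
    2 * (ip X Y).re ≤ kf k ρ X + kf (fun x y => 1 / k x y) ρ Y := by
  rw [ip_eq_sum ρ]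
  simp only [kf, Complex.re_sum, Finset.mul_sum, ← Finset.sum_add_distrib]
  refine Finset.sum_le_sum fun i _ => Finset.sum_le_sum fun j _ => ?_
  have h1 : (star (co ρ X i j) * co ρ Y i j).re ≤ ‖co ρ X i j‖ * ‖co ρ Y i j‖ :=
    (Complex.re_le_norm _).trans (by rw [norm_mul, norm_star])
  have h2 := h i j
  generalize k (ev ρ i) (ev ρ j) = c at h2
  generalize ‖co ρ X i j‖ = a at h1
  generalize ‖co ρ Y i j‖ = b at h1
  have h3 : c * a ^ 2 + 1 / c * b ^ 2 - 2 * (a * b) = (c * a - b) ^ 2 / c := by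
    field_simp; ring
  have h4 : 0 ≤ (c * a - b) ^ 2 / c := by positivity
  linarith

/-- Cauchy–Schwarz -/
lemma norm_ip_le {k : ℝ → ℝ → ℝ} {ρ : Matrix ι ι ℂ} (h : ∀ i j, 0 < k (ev ρ i) (ev ρ j))
    (X Y : Matrix ι ι ℂ) :
    ‖ip X Y‖ ≤ √(kf k ρ X) * √(kf (fun x y => 1 / k x y) ρ Y) := by
  rw [ip_eq_sum ρ]
  simp only [kf, ← Fintype.sum_prod_type']
  refine (norm_sum_le _ _).trans ?_
  have e := Real.sum_sqrt_mul_sqrt_le (Finset.univ : Finset (ι × ι))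
    (f := fun p => k (ev ρ p.1) (ev ρ p.2) * ‖co ρ X p.1 p.2‖ ^ 2)
    (g := fun p => 1 / k (ev ρ p.1) (ev ρ p.2) * ‖co ρ Y p.1 p.2‖ ^ 2)
    (fun p => mul_nonneg (h _ _).le (sq_nonneg _))
    (fun p => mul_nonneg (one_div_pos.2 (h _ _)).le (sq_nonneg _))
  refine le_trans (le_of_eq (Finset.sum_congr rfl fun p _ => ?_)) e
  have h2 := h p.1 p.2
  rw [← Real.sqrt_mul (mul_nonneg h2.le (sq_nonneg _)), norm_mul, norm_star, eq_comm,
    Real.sqrt_eq_iff_mul_self_eq (by positivity) (by positivity)]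
  field_simp

/-- removing the mean, for a kernel with `k(p,p) = p` -/
lemma kf_cen {k : ℝ → ℝ → ℝ} {ρ : Matrix ι ι ℂ} (hρ : Dens ρ)
    (h : ∀ i, k (ev ρ i) (ev ρ i) = ev ρ i) (Z : Matrix ι ι ℂ) :
    kf k ρ Z = ‖trace (ρ * Z)‖ ^ 2 + kf k ρ (cen ρ Z) := by
  set m := trace (ρ * Z) with hm
  have e1 : ∀ i j, k (ev ρ i) (ev ρ j) * ‖co ρ (cen ρ Z) i j‖ ^ 2 =
      k (ev ρ i) (ev ρ j) * ‖co ρ Z i j‖ ^ 2 +
        if i = j then ev ρ i * ‖m‖ ^ 2 - 2 * (star m * (ev ρ i * co ρ Z i i)).re else 0 := by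
    intro i j
    rw [cen, kf_co_sub, kf_co_smul, kf_co_one, ← hm, Matrix.sub_apply, Matrix.smul_apply]
    split_ifs with hij
    · subst hij
      rw [h, one_apply_eq]
      simp only [kf_norm_sq, smul_eq_mul, mul_one, Complex.sub_re, Complex.sub_im, Complex.mul_re,
        Complex.mul_im, Complex.star_def, Complex.conj_re, Complex.conj_im, Complex.ofReal_re,
        Complex.ofReal_im]
      ring
    · rw [one_apply_ne hij]; simp
  simp only [kf, e1, Finset.sum_add_distrib, Finset.sum_ite_eq, Finset.mem_univ, if_true,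
    Finset.sum_sub_distrib, ← Finset.sum_mul, ← Finset.mul_sum, ← Complex.re_sum]
  rw [hρ.sum_ev, ← kf_trace_mul hρ.1.1, ← hm, kf_star_mul, Complex.ofReal_re]
  ring

/-- removing the trace, for the inverse of a kernel with `k(p,p) = p` -/
lemma kf_inv_cen {k : ℝ → ℝ → ℝ} {ρ : Matrix ι ι ℂ} (hρ : FDens ρ)
    (h : ∀ i, k (ev ρ i) (ev ρ i) = ev ρ i) (Y : Matrix ι ι ℂ) :
    kf (fun x y => 1 / k x y) ρ Y =
      ‖trace Y‖ ^ 2 + kf (fun x y => 1 / k x y) ρ (Y - trace Y • ρ) := by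
  set m := trace Y with hm
  have e1 : ∀ i j, 1 / k (ev ρ i) (ev ρ j) * ‖co ρ (Y - m • ρ) i j‖ ^ 2 =
      1 / k (ev ρ i) (ev ρ j) * ‖co ρ Y i j‖ ^ 2 +
        if i = j then ev ρ i * ‖m‖ ^ 2 - 2 * (star m * co ρ Y i i).re else 0 := by
    intro i j
    rw [kf_co_sub, kf_co_smul, kf_co_self hρ.1.1, Matrix.sub_apply, Matrix.smul_apply]
    split_ifs with hij
    · subst hij
      have hp := (ev_pos hρ.1 i).ne'
      rw [h, diagonal_apply_eq]
      simp only [kf_norm_sq, smul_eq_mul, Complex.sub_re, Complex.sub_im, Complex.mul_re,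
        Complex.mul_im, Complex.star_def, Complex.conj_re, Complex.conj_im, Complex.ofReal_re,
        Complex.ofReal_im]
      field_simp
      ring
    · rw [diagonal_apply_ne _ hij]; simp
  have e2 : ∑ i, co ρ Y i i = m := by rw [hm, ← kf_trace_co ρ Y]; rfl
  simp only [kf, e1, Finset.sum_add_distrib, Finset.sum_ite_eq, Finset.mem_univ, if_true,
    Finset.sum_sub_distrib, ← Finset.sum_mul, ← Finset.mul_sum, ← Complex.re_sum]
  rw [hρ.dens.sum_ev, e2, kf_star_mul, Complex.ofReal_re]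
  ring

/-- symmetric kernels do not couple Hermitian and anti-Hermitian parts -/
lemma kf_herm_split {k : ℝ → ℝ → ℝ} (hk : ∀ x y, k x y = k y x) (ρ : Matrix ι ι ℂ)
    {X Y : Matrix ι ι ℂ} (hX : X.IsHermitian) (hY : Y.IsHermitian) :
    kf k ρ (X + Complex.I • Y) = kf k ρ X + kf k ρ Y := by
  set c : ι → ι → ℝ := fun i j => k (ev ρ i) (ev ρ j) *
    ((co ρ X i j).im * (co ρ Y i j).re - (co ρ X i j).re * (co ρ Y i j).im) with hc
  have e1 : ∀ i j, k (ev ρ i) (ev ρ j) * ‖co ρ (X + Complex.I • Y) i j‖ ^ 2 =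
      k (ev ρ i) (ev ρ j) * ‖co ρ X i j‖ ^ 2 + k (ev ρ i) (ev ρ j) * ‖co ρ Y i j‖ ^ 2 +
        2 * c i j := by
    intro i j
    rw [kf_co_add, kf_co_smul, Matrix.add_apply, Matrix.smul_apply]
    simp only [hc, kf_norm_sq, smul_eq_mul, Complex.add_re, Complex.add_im, Complex.mul_re,
      Complex.mul_im, Complex.I_re, Complex.I_im]
    ring
  have e2 : ∀ i j, c j i = -c i j := by
    intro i j
    simp only [hc, kf_co_herm ρ hX i j, kf_co_herm ρ hY i j, hk (ev ρ j), Complex.star_def,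
      Complex.conj_re, Complex.conj_im]
    ring
  have e3 : ∑ i, ∑ j, c i j = 0 := by
    have : ∑ i, ∑ j, c i j = -∑ i, ∑ j, c i j := by
      conv_lhs => rw [Finset.sum_comm]
      simp only [← Finset.sum_neg_distrib]
      exact Finset.sum_congr rfl fun i _ => Finset.sum_congr rfl fun j _ => e2 i j
    linarith
  simp only [kf, e1, Finset.sum_add_distrib, ← Finset.mul_sum, e3]
  ring

/-- the operator with kernel `k`: for Hermitian `ξ` and symmetric positive `k` with `k(p,p) = p`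
there is a Hermitian `X` (`co ρ X i j = k(p_i,p_j) * co ρ ξ i j`) with the listed properties. -/
lemma exists_kop {k : ℝ → ℝ → ℝ} (hk : ∀ x y, k x y = k y x) {ρ : Matrix ι ι ℂ} (hρ : FDens ρ)
    (hp : ∀ i j, 0 < k (ev ρ i) (ev ρ j)) (h : ∀ i, k (ev ρ i) (ev ρ i) = ev ρ i)
    {ξ : Matrix ι ι ℂ} (hξ : ξ.IsHermitian) :
    ∃ X : Matrix ι ι ℂ, X.IsHermitian ∧ trace X = trace (ρ * ξ) ∧ ip ξ X = (kf k ρ ξ : ℝ) ∧
      kf (fun x y => 1 / k x y) ρ X = kf k ρ ξ := by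
  set M : Matrix ι ι ℂ := Matrix.of fun i j => (k (ev ρ i) (ev ρ j) : ℂ) * co ρ ξ i j with hM
  have hMh : M.IsHermitian := by
    ext i j
    simp only [hM, conjTranspose_apply, of_apply, star_mul', kf_co_herm ρ hξ i j, star_star,
      hk (ev ρ j), Complex.star_def, Complex.conj_ofReal, Complex.conj_conj]
  refine ⟨eU ρ * M * (eU ρ)ᴴ, isHermitian_mul_mul_conjTranspose _ hMh, ?_, ?_, ?_⟩
  · rw [← kf_trace_co ρ, co_co_inv, kf_trace_mul hρ.1.1]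
    simp [trace, hM, h]
  · rw [ip_eq_sum ρ, co_co_inv, kf]
    push_cast
    refine Finset.sum_congr rfl fun i _ => Finset.sum_congr rfl fun j _ => ?_
    rw [hM, of_apply, mul_left_comm, kf_star_mul]
    push_cast
    ring
  · simp only [kf, co_co_inv]
    refine Finset.sum_congr rfl fun i _ => Finset.sum_congr rfl fun j _ => ?_
    have := (hp i j).ne'
    rw [hM, of_apply, norm_mul, Complex.norm_real, Real.norm_of_nonneg (hp i j).le]
    field_simp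

lemma trace_del (t : ℝ) (ρ x : Matrix ι ι ℂ) : trace (del t ρ x) = trace (ρ * x) := by
  rw [del, trace_sub, trace_smul, trace_smul, trace_mul_comm x, ← sub_smul]
  simp

lemma kf_co_del {t : ℝ} (ht : 0 < t) {ρ : Matrix ι ι ℂ} (hρ : ρ.PosDef) (x : Matrix ι ι ℂ) (i j : ι) :
    co ρ (del t ρ x) i j =
      -(LM (t * ev ρ i) ((t + 1) * ev ρ j) : ℝ) * co ρ (zed t ρ x) i j := by
  have hi := ev_pos hρ i
  have hj := ev_pos hρ j
  have h1 := LM_mul_log (mul_pos ht hi) (mul_pos (by linarith : 0 < t + 1) hj)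
  have h2 := log_ratio ht
  rw [Real.log_div ht.ne' (by linarith)] at h2
  rw [Real.log_mul ht.ne' hi.ne', Real.log_mul (by linarith) hj.ne'] at h1
  have h3 : (t + 1) * ev ρ j - t * ev ρ i = -LM (t * ev ρ i) ((t + 1) * ev ρ j) *
      (-Real.log (ev ρ j) - -Real.log (ev ρ i) - bet t) := by
    linear_combination h1 - LM (t * ev ρ i) ((t + 1) * ev ρ j) * h2
  have h4 := congrArg (fun r : ℝ => (r : ℂ)) h3
  simp only [del, zed, R332.comm, Hm, kf_co_sub, kf_co_rsmul, kf_co_mul, kf_co_self hρ.1, kf_co_fc,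
    Matrix.sub_apply, Matrix.smul_apply, mul_diagonal, diagonal_mul, Complex.real_smul]
  push_cast at h4 ⊢
  linear_combination co ρ x i j * h4

lemma kf_ip_zed {t : ℝ} (ht : 0 < t) {ρ : Matrix ι ι ℂ} (hρ : ρ.PosDef) (x : Matrix ι ι ℂ) :
    ip (zed t ρ x) (del t ρ x) =
      ((-kf (fun u v => LM (t * u) ((t + 1) * v)) ρ (zed t ρ x) : ℝ) : ℂ) := by
  rw [ip_eq_sum ρ, kf]
  push_cast
  simp only [← Finset.sum_neg_distrib]
  refine Finset.sum_congr rfl fun i _ => Finset.sum_congr rfl fun j _ => ?_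
  rw [kf_co_del ht hρ, mul_left_comm, kf_star_mul]
  push_cast
  ring

/-- `co δ i j = ((t+1) p_j - t p_i) x_ij = - LM (t p_i) ((t+1) p_j) * co Z i j` (`LM_mul_log`), so
`I = (1/β) M[Z] = β M⁻¹[δ]`. -/
lemma fis_eq_zed {t : ℝ} (ht : 0 < t) {ρ : Matrix ι ι ℂ} (hρ : ρ.PosDef) (x : Matrix ι ι ℂ) :
    bet t * fis t ρ x = kf (Mk t) ρ (zed t ρ x) ∧ (ip (zed t ρ x) (del t ρ x)).im = 0 := by
  rw [fis, kf_ip_zed ht hρ, Complex.ofReal_re, Complex.ofReal_im, neg_neg]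
  refine ⟨?_, rfl⟩
  simp only [kf, Mk, Finset.mul_sum, mul_assoc]

lemma fis_eq_del {t : ℝ} (ht : 0 < t) {ρ : Matrix ι ι ℂ} (hρ : FDens ρ) (x : Matrix ι ι ℂ) :
    fis t ρ x = bet t * (kf (fun u v => 1 / Mk t u v) ρ (del0 t ρ x) + ‖trace (ρ * x)‖ ^ 2) := by
  have h1 := kf_inv_cen (k := Mk t) hρ (fun i => Mk_self ht (ev_pos hρ.1 i)) (del t ρ x)
  rw [trace_del] at h1
  rw [del0, add_comm, ← h1, fis, kf_ip_zed ht hρ.1, Complex.ofReal_re, neg_neg]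
  simp only [kf, Finset.mul_sum]
  refine Finset.sum_congr rfl fun i _ => Finset.sum_congr rfl fun j _ => ?_
  have h2 := LM_pos (mul_pos ht (ev_pos hρ.1 i)) (mul_pos (by linarith : 0 < t + 1) (ev_pos hρ.1 j))
  have h3 := (bet_pos ht).ne'
  rw [kf_co_del ht hρ.1, norm_mul, norm_neg, Complex.norm_real, Real.norm_of_nonneg h2.le, Mk]
  field_simp

/-- pairing with `δ` splits into the centred part and the means -/
lemma ip_del_split {ρ : Matrix ι ι ℂ} (hρ : Dens ρ) (t : ℝ) (x Y : Matrix ι ι ℂ) :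
    ip Y (del t ρ x) = ip (cen ρ Y) (del0 t ρ x) + star (trace (ρ * Y)) * trace (ρ * x) := by
  have h1 : trace (Yᴴ * ρ) = star (trace (ρ * Y)) := by
    rw [← trace_conjTranspose, conjTranspose_mul, hρ.1.1.eq]
  simp only [ip, cen, del0, conjTranspose_sub, conjTranspose_smul, conjTranspose_one,
    Matrix.sub_mul, Matrix.mul_sub, Matrix.smul_mul, Matrix.mul_smul, Matrix.one_mul, trace_sub,
    trace_smul, trace_del, h1, hρ.2, smul_eq_mul]
  ring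

end Crest.Agent.R331
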