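import Crest.Agent.R331.Min

/-! Row 331: the linear form of the inequality for matrices (task LIN). -/

set_option autoImplicit false
set_option linter.unusedSectionVars false

open Matrix Set Filter Topology Crest.Agent.R342 Crest.Agent.R332 Crest.MathPhysics.Bosonic
open scoped ComplexOrder Kronecker Matrix.Norms.Frobenius

namespace Crest.Agent.R331

variable {n K : ℕ}

lemma en_embed {K K' : ℕ} (h : K ≤ K') (ρ : Matrix (Box n K) (Box n K) ℂ) :
    en (embJ n K K' * ρ * (embJ n K K')ᴴ) = en ρ :=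
  ex_embed h (fun m : Occ n => ((∑ j, m j : ℕ) : ℝ)) ρ

lemma wsum_embed {K K' : ℕ} (h : K ≤ K') (W : ℕ → ℝ) (ρ : Matrix (Box n K) (Box n K) ℂ) :
    ex (wsum W) (embJ n K K' * ρ * (embJ n K K')ᴴ) = ex (wsum W) ρ :=
  ex_embed h (fun m : Occ n => ∑ j, W (m j)) ρ

/-- the regularised linear inequality -/
lemma lin_reg {η tA tB γ T CW : ℝ} {W : ℕ → ℝ} (h0 : 0 < η) (h1 : η < 1) (hA : 0 < tA)
    (hB : 0 < tB) (hγ0 : 0 < γ) (hγ1 : γ < 1) (hW : GoodW W T CW) (hTA : tA ≤ T) (hTB : tB ≤ T)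
    {ρA ρB : Matrix (Box n K) (Box n K) ℂ} (dA : Dens ρA) (dB : Dens ρB) :
    Vgam n η tA tB γ ≤ ent (bsOutput η ρA ρB)
      + γ * (bet (tC η tA tB) * (n * CW) + n * Real.log (1 + tC η tA tB))
      + Real.negMulLog (1 - γ) + Real.negMulLog γ - lamr η tA (tC η tA tB) γ * ent ρA
      - lamr (1 - η) tB (tC η tA tB) γ * ent ρB
      + 2 * γ * bet (tC η tA tB) * (en ρA + en ρB) := by
  have htc : 0 < tC η tA tB := tC_pos h0.le h1.le hA hB
  have htcT : tC η tA tB ≤ T := by unfold tC; nlinarith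
  have hβ : 0 < bet (tC η tA tB) := bet_pos htc
  refine le_of_forall_pos_le_add fun ε hε => ?_
  obtain ⟨γ0, γ00, hγ⟩ := min_bound n h0 h1 hA hB hγ0 hγ1 hW hTA hTB (half_pos hε)
  set S : ℝ := ex (wsum W) ρA + ex (wsum W) ρB with hS
  set γ' : ℝ := min γ0 (ε / (2 * (|S| + 1))) with hγ'
  have g0 : 0 < γ' := lt_min γ00 (by positivity)
  have g2 : γ' * S ≤ ε / 2 := by
    have e : γ' ≤ ε / (2 * (|S| + 1)) := min_le_right _ _
    rw [le_div_iff₀ (by positivity)] at e
    have := mul_le_mul_of_nonneg_left (le_abs_self S) g0.le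
    nlinarith
  obtain ⟨K', hK', hKK⟩ := ((hγ γ' g0 (min_le_left _ _)).and (eventually_ge_atTop K)).exists
  have h := hK' _ _ (dens_embed hKK dA) (dens_embed hKK dB)
  have dC := dens_out h0.le h1.le dA dB
  have h2K : 2 * K ≤ 2 * K' := by omega
  unfold Phi mixo at h
  rw [out_embed η hKK, ent_conj_isometry (embJ_iso hKK) dA.1.1,
    ent_conj_isometry (embJ_iso hKK) dB.1.1, en_embed hKK, en_embed hKK, wsum_embed hKK,
    wsum_embed hKK] at h
  have m := ent_mix_le (dens_embed h2K dC) (fdens_therm htc n (2 * K')) hγ0 hγ1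
  rw [ent_conj_isometry (embJ_iso h2K) dC.1.1] at m
  have w1 := ent_le_gibbs htc (fdens_therm htc n (2 * K')).dens
  have w2 := en_le_of_sq (fdens_therm htc n (2 * K')).dens.1
    fun j => therm_sq_le (K := 2 * K') hW htc htcT j
  have w3 := mul_le_mul_of_nonneg_left w2 hβ.le
  have w4 := mul_le_mul_of_nonneg_left (w1.trans (add_le_add_left w3 _)) hγ0.le
  linarith

theorem lin_mat_open {η tA tB : ℝ} (h0 : 0 < η) (h1 : η < 1) (hA : 0 < tA) (hB : 0 < tB)
    {ρA ρB : Matrix (Box n K) (Box n K) ℂ} (dA : Dens ρA) (dB : Dens ρB) :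
    n * (gBose (tC η tA tB) - lam0 η tA (tC η tA tB) * gBose tA
        - lam0 (1 - η) tB (tC η tA tB) * gBose tB) ≤
      ent (bsOutput η ρA ρB) - lam0 η tA (tC η tA tB) * ent ρA
        - lam0 (1 - η) tB (tC η tA tB) * ent ρB := by
  have htc : 0 < tC η tA tB := tC_pos h0.le h1.le hA hB
  obtain ⟨W, CW, hW⟩ := exists_goodW (T := max tA tB) (hA.le.trans (le_max_left _ _))
  have hc1 : Continuous fun γ : ℝ => Vgam n η tA tB γ := by
    unfold Vgam lamr; fun_prop
  have hc2 : Continuous fun γ : ℝ => ent (bsOutput η ρA ρB)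
      + γ * (bet (tC η tA tB) * (n * CW) + n * Real.log (1 + tC η tA tB))
      + Real.negMulLog (1 - γ) + Real.negMulLog γ - lamr η tA (tC η tA tB) γ * ent ρA
      - lamr (1 - η) tB (tC η tA tB) γ * ent ρB
      + 2 * γ * bet (tC η tA tB) * (en ρA + en ρB) := by
    have := Real.continuous_negMulLog
    unfold lamr; fun_prop
  have t1 := (hc1.tendsto 0).mono_left (nhdsWithin_le_nhds (s := Ioi 0))
  have t2 := (hc2.tendsto 0).mono_left (nhdsWithin_le_nhds (s := Ioi 0))
  have h := le_of_tendsto_of_tendsto t1 t2 (by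
    filter_upwards [Ioo_mem_nhdsGT (zero_lt_one' ℝ)] with γ hγ
    exact lin_reg h0 h1 hA hB hγ.1 hγ.2 hW (le_max_left _ _) (le_max_right _ _) dA dB)
  have l0 : ∀ e t : ℝ, lamr e t (tC η tA tB) 0 = lam0 e t (tC η tA tB) := fun e t => by
    unfold lamr lam0; ring
  simp only [Vgam, l0, zero_mul, add_zero, sub_zero, Real.negMulLog_one, Real.negMulLog_zero,
    mul_zero] at h
  rw [gBose_eq htc, gBose_eq hA, gBose_eq hB]
  have e : bet (tC η tA tB) * tC η tA tB = lam0 η tA (tC η tA tB) * (bet tA * tA)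
      + lam0 (1 - η) tB (tC η tA tB) * (bet tB * tB) := by
    have := (bet_pos hA).ne'
    have := (bet_pos hB).ne'
    unfold lam0
    field_simp
    unfold tC; ring
  rw [e]
  linarith

theorem lin_mat {η tA tB : ℝ} (h0 : 0 ≤ η) (h1 : η ≤ 1) (hA : 0 < tA) (hB : 0 < tB)
    {ρA ρB : Matrix (Box n K) (Box n K) ℂ} (dA : Dens ρA) (dB : Dens ρB) :
    n * (gBose (tC η tA tB) - lam0 η tA (tC η tA tB) * gBose tA
        - lam0 (1 - η) tB (tC η tA tB) * gBose tB) ≤
      ent (bsOutput η ρA ρB) - lam0 η tA (tC η tA tB) * ent ρA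
        - lam0 (1 - η) tB (tC η tA tB) * ent ρB := by
  have htC : Continuous fun e : ℝ => tC e tA tB := by unfold tC; fun_prop
  have hb : ContinuousOn (fun e : ℝ => bet (tC e tA tB)) (Icc 0 1) := by
    unfold bet
    refine ContinuousOn.log (continuousOn_const.add (continuousOn_const.div htC.continuousOn
      fun e he => (tC_pos he.1 he.2 hA hB).ne')) fun e he => ?_
    have := tC_pos he.1 he.2 hA hB
    positivity
  have hl1 : ContinuousOn (fun e : ℝ => lam0 e tA (tC e tA tB)) (Icc 0 1) := by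
    unfold lam0
    exact (continuousOn_id.mul hb).div_const _
  have hl2 : ContinuousOn (fun e : ℝ => lam0 (1 - e) tB (tC e tA tB)) (Icc 0 1) := by
    unfold lam0
    exact ((continuousOn_const.sub continuousOn_id).mul hb).div_const _
  have hp : Continuous fun e : ℝ => (e, ρA, ρB) := continuous_id.prodMk continuous_const
  have ho : Continuous fun e : ℝ => bsOutput e ρA ρB := by
    have := (continuous_out (n := n) (K := K)).comp hp
    simpa only [Function.comp_def] using this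
  have he : ContinuousOn (fun e : ℝ => ent (bsOutput e ρA ρB)) (Icc 0 1) :=
    continuousOn_ent ho.continuousOn fun e he => (dens_out he.1 he.2 dA dB).1.1
  have c1 : ContinuousOn (fun e : ℝ => n * (gBose (tC e tA tB) - lam0 e tA (tC e tA tB) * gBose tA
      - lam0 (1 - e) tB (tC e tA tB) * gBose tB)) (Icc 0 1) :=
    continuousOn_const.mul (((continuous_gBose.comp htC).continuousOn.sub
      (hl1.mul continuousOn_const)).sub (hl2.mul continuousOn_const))
  have c2 : ContinuousOn (fun e : ℝ => ent (bsOutput e ρA ρB) - lam0 e tA (tC e tA tB) * ent ρA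
      - lam0 (1 - e) tB (tC e tA tB) * ent ρB) (Icc 0 1) :=
    (he.sub (hl1.mul continuousOn_const)).sub (hl2.mul continuousOn_const)
  have hcl : η ∈ closure (Ioo (0 : ℝ) 1) := by rw [closure_Ioo zero_ne_one]; exact ⟨h0, h1⟩
  exact ContinuousWithinAt.closure_le hcl ((c1 η ⟨h0, h1⟩).mono Ioo_subset_Icc_self)
    ((c2 η ⟨h0, h1⟩).mono Ioo_subset_Icc_self) fun e he => lin_mat_open he.1 he.2 hA hB dA dB

end Crest.Agent.R331
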