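import Crest.Agent.R331.Scal

/-!
Row 331: operator means (task MEAN).

Plan.  For a matrix `T : Matrix J I ℂ` write `D T w w'` for `Dom T.mulVecLin w w'` (every linear
map is `(LinearMap.toMatrix' T).mulVecLin`).
* (dual) for positive weights, `D T w w' → D Tᴴ (1/w') (1/w)`: for `u`, put `v i = (Tᴴ u) i / w i`;
  `qf (1/w) (Tᴴ u) = 2 Re ⟨v, Tᴴ u⟩ - qf w v ≤ 2 Re ⟨T v, u⟩ - qf w' (T v) ≤ qf (1/w') u`.
* `D` is closed under sums, nonnegative multiples, integrals `∫ θ in 0..1` (continuous in `θ`),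
  hence (dual twice) under parallel integrals `1 / ∫ θ, 1 / w θ`.
* `OM f` := `f > 0` on `(0,∞)` and for all finite types `I J : Type`, `T`, positive weights,
  `D T x x' → D T y y' → D T (y f(x/y)) (y' f(x'/y'))`.  Closure: `c ↦ 2c`; `1 + f`;
  `c ↦ c / f c` (`y (x/y) / f(x/y) = 1 / ((1/x) f((1/y)/(1/x)))`: dualise both hypotheses, apply
  `OM f` to `Tᴴ` with the pair `(1/y', 1/x')`, dualise back); and
  `c ↦ 1 / ∫ θ, 1 / f(1 - θ + θ c)` (parallel integral of `y f(((1-θ) y + θ x)/y)`).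
* `k_m = 1 / gseq m` satisfies `k_0 = 2c`, `k_{m+1} = 2c / (1 + k̄_m)`,
  `k̄_m(c) = 1 / ∫ θ, 1 / k_m(1 - θ + θ c)`, so `OM k_m` by induction.
* `LM x y` is the parallel integral of `s x + (1-s) y` (`inv_LM_eq`);
  `x y / LM x y = ∫ s, x y / (s x + (1-s) y) = ∫ s, 1 / (s (1/y) + (1-s) (1/x))`, each integrand is
  dominated by duality.
* `kapg m x y c = 1 / ∫ θ, 1 / (L k_m((θ Λ + (1-θ) c L) / L))` with `L = LM x y`, `Λ = x y / L`.
Continuity of `gseq m` on `(0,∞)`: `intervalIntegral.continuous_parametric_intervalIntegral_of_continuous'`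
on the subtype `Ioi 0` with `θ` clamped to `[0,1]` (`Set.projIcc` or `max 0 (min θ 1)`).
-/

set_option autoImplicit false
set_option linter.unusedSectionVars false

open Matrix Set Filter Topology Crest.Agent.R342 Crest.Agent.R332 Crest.MathPhysics.Bosonic
open scoped ComplexOrder Kronecker Matrix.Norms.Frobenius

namespace Crest.Agent.R331

/-! ### positivity and continuity of `gseq` -/

lemma mean_arg_pos {a b θ : ℝ} (ha : 0 < a) (hb : 0 < b) (h0 : 0 ≤ θ) (h1 : θ ≤ 1) :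
    0 < θ * a + (1 - θ) * b := by
  rcases h0.eq_or_lt with h | h
  · subst h; simpa using hb
  · have := mul_pos h ha
    have := mul_nonneg (sub_nonneg.2 h1) hb.le
    linarith

lemma mean_contOn {g : ℝ → ℝ} (hg : ContinuousOn g (Ioi 0)) {a b : ℝ} (ha : 0 < a) (hb : 0 < b) :
    ContinuousOn (fun θ : ℝ => g (θ * a + (1 - θ) * b)) (Icc 0 1) := by
  refine hg.comp (f := fun θ : ℝ => θ * a + (1 - θ) * b) (by fun_prop) ?_
  intro θ hθ
  exact mean_arg_pos ha hb hθ.1 hθ.2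

lemma mean_int_pos {f : ℝ → ℝ} (hf : ContinuousOn f (Icc 0 1)) (hp : ∀ θ ∈ Icc (0 : ℝ) 1, 0 < f θ) :
    0 < ∫ θ in (0 : ℝ)..1, f θ := by
  refine intervalIntegral.intervalIntegral_pos_of_pos_on
    (hf.intervalIntegrable_of_Icc zero_le_one) (fun θ hθ => hp θ ⟨hθ.1.le, hθ.2.le⟩) zero_lt_one

lemma mean_avg_pos {g : ℝ → ℝ} (hp : ∀ c, 0 < c → 0 < g c) (hg : ContinuousOn g (Ioi 0))
    {a b : ℝ} (ha : 0 < a) (hb : 0 < b) : 0 < ∫ θ in (0 : ℝ)..1, g (θ * a + (1 - θ) * b) :=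
  mean_int_pos (mean_contOn hg ha hb) fun _ hθ => hp _ (mean_arg_pos ha hb hθ.1 hθ.2)

lemma mean_avg_cont {g : ℝ → ℝ} (hg : ContinuousOn g (Ioi 0)) :
    ContinuousOn (fun c : ℝ => ∫ θ in (0 : ℝ)..1, g (1 - θ + θ * c)) (Ioi 0) := by
  rw [continuousOn_iff_continuous_domRestrict]
  have hF : Continuous (Function.uncurry fun (c : Ioi (0 : ℝ)) (θ : ℝ) =>
      g (max 0 (min θ 1) * (c : ℝ) + (1 - max 0 (min θ 1)) * 1)) := by
    refine hg.comp_continuous (f := fun p : Ioi (0 : ℝ) × ℝ =>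
      max 0 (min p.2 1) * (p.1 : ℝ) + (1 - max 0 (min p.2 1)) * 1) (by fun_prop) ?_
    intro p
    exact mean_arg_pos p.1.2 one_pos (le_max_left _ _) (max_le zero_le_one (min_le_right _ _))
  have hc := intervalIntegral.continuous_parametric_intervalIntegral_of_continuous'
    (μ := MeasureTheory.volume) hF 0 1
  refine hc.congr fun c => ?_
  refine intervalIntegral.integral_congr fun θ hθ => ?_
  rw [uIcc_of_le zero_le_one] at hθ
  simp only [min_eq_left hθ.2, max_eq_right hθ.1]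
  congr 1
  ring

lemma gseq_pos_cont (m : ℕ) : (∀ c, 0 < c → 0 < gseq m c) ∧ ContinuousOn (gseq m) (Ioi 0) := by
  induction m with
  | zero =>
    refine ⟨fun c hc => by simp only [gseq]; positivity, ?_⟩
    show ContinuousOn (fun c : ℝ => 1 / (2 * c)) (Ioi 0)
    refine continuousOn_const.div (by fun_prop) fun c hc => ?_
    have : (0 : ℝ) < c := hc
    positivity
  | succ m ih =>
    have hpos : ∀ c : ℝ, 0 < c → 0 < ∫ θ in (0 : ℝ)..1, gseq m (1 - θ + θ * c) := by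
      intro c hc
      have := mean_avg_pos ih.1 ih.2 hc one_pos
      convert this using 4 with θ
      ring
    refine ⟨fun c hc => ?_, ?_⟩
    · have := hpos c hc
      simp only [gseq]
      positivity
    · show ContinuousOn
        (fun c : ℝ => (1 + 1 / ∫ θ in (0 : ℝ)..1, gseq m (1 - θ + θ * c)) / (2 * c)) (Ioi 0)
      refine ContinuousOn.div (continuousOn_const.add (continuousOn_const.div
        (mean_avg_cont ih.2) fun c hc => (hpos c hc).ne')) (by fun_prop) fun c hc => ?_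
      have : (0 : ℝ) < c := hc
      positivity

lemma kapg_pos (m : ℕ) {x y c : ℝ} (hx : 0 < x) (hy : 0 < y) (hc : 0 < c) : 0 < kapg m x y c := by
  have hL := LM_pos hx hy
  unfold kapg
  exact div_pos hL (mean_avg_pos (gseq_pos_cont m).1 (gseq_pos_cont m).2 (by positivity) hc)

/-! ### duality and closure properties of `Dom` -/

section closure
variable {I J : Type} [Fintype I] [Fintype J]

/-- `S` is the adjoint of `T` -/
def MeanAdj (T : (I → ℂ) →ₗ[ℂ] (J → ℂ)) (S : (J → ℂ) →ₗ[ℂ] (I → ℂ)) : Prop :=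
  ∀ v u, ∑ j, star (T v j) * u j = ∑ i, star (v i) * S u i

lemma MeanAdj.symm {T : (I → ℂ) →ₗ[ℂ] (J → ℂ)} {S : (J → ℂ) →ₗ[ℂ] (I → ℂ)} (h : MeanAdj T S) :
    MeanAdj S T := by
  intro u v
  have := congrArg star (h v u)
  simp only [star_sum, star_mul, star_star] at this
  exact this.symm

lemma mean_exists_adj (T : (I → ℂ) →ₗ[ℂ] (J → ℂ)) : ∃ S, MeanAdj T S := by
  classical
  refine ⟨((LinearMap.toMatrix' T)ᴴ).mulVecLin, fun v u => ?_⟩
  have hT : T v = (LinearMap.toMatrix' T) *ᵥ v := by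
    rw [← Matrix.toLin'_apply, Matrix.toLin'_toMatrix']
  rw [hT]
  simp only [Matrix.mulVecLin_apply, Matrix.mulVec, dotProduct, Matrix.conjTranspose_apply,
    star_sum, star_mul, Finset.sum_mul, Finset.mul_sum]
  rw [Finset.sum_comm]
  refine Finset.sum_congr rfl fun i _ => Finset.sum_congr rfl fun j _ => ?_
  ring

lemma mean_young {w : ℝ} (hw : 0 < w) (z u : ℂ) :
    2 * (star z * u).re ≤ w * ‖z‖ ^ 2 + 1 / w * ‖u‖ ^ 2 := by
  have h1 : (star z * u).re ≤ ‖z‖ * ‖u‖ := by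
    calc (star z * u).re ≤ ‖star z * u‖ := Complex.re_le_norm _
      _ = ‖z‖ * ‖u‖ := by rw [norm_mul, norm_star]
  have h2 : 0 ≤ (w * ‖z‖ - ‖u‖) ^ 2 / w := by positivity
  have h3 : (w * ‖z‖ - ‖u‖) ^ 2 / w = w * ‖z‖ ^ 2 + 1 / w * ‖u‖ ^ 2 - 2 * (‖z‖ * ‖u‖) := by
    field_simp
    ring
  linarith

lemma mean_dual {T : (I → ℂ) →ₗ[ℂ] (J → ℂ)} {S : (J → ℂ) →ₗ[ℂ] (I → ℂ)} (hTS : MeanAdj T S)
    {w : I → ℝ} {w' : J → ℝ} (hw : ∀ i, 0 < w i) (hw' : ∀ j, 0 < w' j) (h : Dom T w w') :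
    Dom S (fun j => 1 / w' j) (fun i => 1 / w i) := by
  intro u
  set v : I → ℂ := fun i => S u i / (w i : ℂ) with hv
  have hA1 : qf w v = qf (fun i => 1 / w i) (S u) := by
    unfold qf
    refine Finset.sum_congr rfl fun i _ => ?_
    have := (hw i).ne'
    simp only [hv, norm_div, Complex.norm_real, Real.norm_eq_abs, abs_of_pos (hw i)]
    field_simp
  have hA2 : (∑ i, star (v i) * S u i).re = qf (fun i => 1 / w i) (S u) := by
    unfold qf
    rw [Complex.re_sum]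
    refine Finset.sum_congr rfl fun i _ => ?_
    have h0 : (w i : ℂ) ≠ 0 := by exact_mod_cast (hw i).ne'
    have : star (v i) * S u i = ((1 / w i * ‖S u i‖ ^ 2 : ℝ) : ℂ) := by
      simp only [hv, star_div₀, Complex.star_def, Complex.conj_ofReal]
      push_cast
      rw [← Complex.conj_mul']
      ring
    rw [this, Complex.ofReal_re]
  have hA3 : 2 * (∑ j, star (T v j) * u j).re ≤ qf w' (T v) + qf (fun j => 1 / w' j) u := by
    unfold qf
    rw [Complex.re_sum, Finset.mul_sum, ← Finset.sum_add_distrib]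
    exact Finset.sum_le_sum fun j _ => mean_young (hw' j) _ _
  have h4 := h v
  rw [hTS v u, hA2] at hA3
  linarith

lemma mean_congr {T : (I → ℂ) →ₗ[ℂ] (J → ℂ)} {w z : I → ℝ} {w' z' : J → ℝ} (h : Dom T w w')
    (h1 : ∀ i, w i = z i) (h2 : ∀ j, w' j = z' j) : Dom T z z' := by
  rw [← funext h1, ← funext h2]; exact h

lemma mean_comb {T : (I → ℂ) →ₗ[ℂ] (J → ℂ)} {x y : I → ℝ} {x' y' : J → ℝ} {a b : ℝ}
    (ha : 0 ≤ a) (hb : 0 ≤ b) (h1 : Dom T x x') (h2 : Dom T y y') :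
    Dom T (fun i => a * x i + b * y i) (fun j => a * x' j + b * y' j) := by
  intro v
  have e : ∀ {K : Type} [Fintype K] (p q : K → ℝ) (u : K → ℂ),
      qf (fun i => a * p i + b * q i) u = a * qf p u + b * qf q u := by
    intro K _ p q u
    unfold qf
    rw [Finset.mul_sum, Finset.mul_sum, ← Finset.sum_add_distrib]
    exact Finset.sum_congr rfl fun i _ => by ring
  rw [e, e]
  exact add_le_add (mul_le_mul_of_nonneg_left (h1 v) ha) (mul_le_mul_of_nonneg_left (h2 v) hb)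

lemma mean_qf_integral {w : ℝ → I → ℝ} (hw : ∀ i, ContinuousOn (fun θ => w θ i) (Icc 0 1))
    (v : I → ℂ) :
    qf (fun i => ∫ θ in (0 : ℝ)..1, w θ i) v = ∫ θ in (0 : ℝ)..1, qf (w θ) v := by
  unfold qf
  rw [intervalIntegral.integral_finsetSum]
  · exact Finset.sum_congr rfl fun i _ => (intervalIntegral.integral_mul_const _ _).symm
  · intro i _
    exact ((hw i).mul continuousOn_const).intervalIntegrable_of_Icc zero_le_one

lemma mean_qf_contOn {w : ℝ → I → ℝ} (hw : ∀ i, ContinuousOn (fun θ => w θ i) (Icc 0 1))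
    (v : I → ℂ) : ContinuousOn (fun θ => qf (w θ) v) (Icc 0 1) := by
  unfold qf
  exact continuousOn_finsetSum _ fun i _ => (hw i).mul continuousOn_const

lemma mean_integral {T : (I → ℂ) →ₗ[ℂ] (J → ℂ)} {w : ℝ → I → ℝ} {w' : ℝ → J → ℝ}
    (hw : ∀ i, ContinuousOn (fun θ => w θ i) (Icc 0 1))
    (hw' : ∀ j, ContinuousOn (fun θ => w' θ j) (Icc 0 1))
    (h : ∀ θ ∈ Icc (0 : ℝ) 1, Dom T (w θ) (w' θ)) :
    Dom T (fun i => ∫ θ in (0 : ℝ)..1, w θ i) (fun j => ∫ θ in (0 : ℝ)..1, w' θ j) := by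
  intro v
  rw [mean_qf_integral hw, mean_qf_integral hw']
  exact intervalIntegral.integral_mono_on zero_le_one
    ((mean_qf_contOn hw' _).intervalIntegrable_of_Icc zero_le_one)
    ((mean_qf_contOn hw _).intervalIntegrable_of_Icc zero_le_one) fun θ hθ => h θ hθ v

/-- parallel integrals -/
lemma mean_par {T : (I → ℂ) →ₗ[ℂ] (J → ℂ)} {g : ℝ → I → ℝ} {g' : ℝ → J → ℝ}
    (hg : ∀ i, ContinuousOn (fun θ => g θ i) (Icc 0 1))
    (hg' : ∀ j, ContinuousOn (fun θ => g' θ j) (Icc 0 1))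
    (hp : ∀ θ ∈ Icc (0 : ℝ) 1, ∀ i, 0 < g θ i) (hp' : ∀ θ ∈ Icc (0 : ℝ) 1, ∀ j, 0 < g' θ j)
    (h : ∀ θ ∈ Icc (0 : ℝ) 1, Dom T (fun i => 1 / g θ i) (fun j => 1 / g' θ j)) :
    Dom T (fun i => 1 / ∫ θ in (0 : ℝ)..1, g θ i) (fun j => 1 / ∫ θ in (0 : ℝ)..1, g' θ j) := by
  obtain ⟨S, hS⟩ := mean_exists_adj T
  have h1 : ∀ θ ∈ Icc (0 : ℝ) 1, Dom S (g' θ) (g θ) := fun θ hθ =>
    mean_congr (mean_dual hS (fun i => one_div_pos.2 (hp θ hθ i))
      (fun j => one_div_pos.2 (hp' θ hθ j)) (h θ hθ)) (fun j => one_div_one_div _)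
      (fun i => one_div_one_div _)
  exact mean_dual hS.symm (fun j => mean_int_pos (hg' j) fun θ hθ => hp' θ hθ j)
    (fun i => mean_int_pos (hg i) fun θ hθ => hp θ hθ i) (mean_integral hg' hg h1)

end closure

/-! ### the perspectives of `1 / gseq m` -/

/-- the perspective `y / g (x / y)` is monotone for `Dom` -/
def MeanOM (g : ℝ → ℝ) : Prop :=
  ∀ (I J : Type) [Fintype I] [Fintype J] (T : (I → ℂ) →ₗ[ℂ] (J → ℂ)) (x y : I → ℝ)
    (x' y' : J → ℝ), (∀ i, 0 < x i) → (∀ i, 0 < y i) → (∀ j, 0 < x' j) → (∀ j, 0 < y' j) →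
    Dom T x x' → Dom T y y' →
    Dom T (fun i => y i / g (x i / y i)) (fun j => y' j / g (x' j / y' j))

lemma MeanOM.avg {g : ℝ → ℝ} (hg : MeanOM g) (hp : ∀ c, 0 < c → 0 < g c)
    (hc : ContinuousOn g (Ioi 0)) {I J : Type} [Fintype I] [Fintype J]
    {T : (I → ℂ) →ₗ[ℂ] (J → ℂ)} {x z y : I → ℝ} {x' z' y' : J → ℝ}
    (hx : ∀ i, 0 < x i) (hz : ∀ i, 0 < z i) (hy : ∀ i, 0 < y i)
    (hx' : ∀ j, 0 < x' j) (hz' : ∀ j, 0 < z' j) (hy' : ∀ j, 0 < y' j)
    (h1 : Dom T x x') (h2 : Dom T z z') (h3 : Dom T y y') :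
    Dom T (fun i => y i / ∫ θ in (0 : ℝ)..1, g (θ * (x i / y i) + (1 - θ) * (z i / y i)))
      (fun j => y' j / ∫ θ in (0 : ℝ)..1, g (θ * (x' j / y' j) + (1 - θ) * (z' j / y' j))) := by
  have key := mean_par (T := T)
    (g := fun θ i => g (θ * (x i / y i) + (1 - θ) * (z i / y i)) / y i)
    (g' := fun θ j => g (θ * (x' j / y' j) + (1 - θ) * (z' j / y' j)) / y' j)
    (fun i => (mean_contOn hc (div_pos (hx i) (hy i)) (div_pos (hz i) (hy i))).div_const _)
    (fun j => (mean_contOn hc (div_pos (hx' j) (hy' j)) (div_pos (hz' j) (hy' j))).div_const _)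
    (fun θ hθ i => div_pos (hp _ (mean_arg_pos (div_pos (hx i) (hy i)) (div_pos (hz i) (hy i))
      hθ.1 hθ.2)) (hy i))
    (fun θ hθ j => div_pos (hp _ (mean_arg_pos (div_pos (hx' j) (hy' j)) (div_pos (hz' j) (hy' j))
      hθ.1 hθ.2)) (hy' j))
    (fun θ hθ => by
      refine mean_congr (hg I J T (fun i => θ * x i + (1 - θ) * z i) y
        (fun j => θ * x' j + (1 - θ) * z' j) y' (fun i => mean_arg_pos (hx i) (hz i) hθ.1 hθ.2) hy
        (fun j => mean_arg_pos (hx' j) (hz' j) hθ.1 hθ.2) hy'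
        (mean_comb hθ.1 (sub_nonneg.2 hθ.2) h1 h2) h3) (fun i => ?_) (fun j => ?_)
      · rw [one_div_div]; congr 2; ring
      · rw [one_div_div]; congr 2; ring)
  refine mean_congr key (fun i => ?_) (fun j => ?_)
  · rw [intervalIntegral.integral_div, one_div_div]
  · rw [intervalIntegral.integral_div, one_div_div]

lemma meanOM_gseq (m : ℕ) : MeanOM (gseq m) := by
  induction m with
  | zero =>
    intro I J _ _ T x y x' y' hx hy hx' hy' h1 h2
    refine mean_congr (mean_comb (a := 2) (b := 0) (by norm_num) le_rfl h1 h2) (fun i => ?_)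
      (fun j => ?_)
    · have := (hy i).ne'
      simp only [gseq]
      field_simp
      ring
    · have := (hy' j).ne'
      simp only [gseq]
      field_simp
      ring
  | succ m ih =>
    intro I J _ _ T x y x' y' hx hy hx' hy' h1 h2
    obtain ⟨S, hS⟩ := mean_exists_adj T
    obtain ⟨hp, hc⟩ := gseq_pos_cont m
    have d1 := mean_dual hS hx hx' h1
    have d2 := mean_dual hS hy hy' h2
    have d3 := ih.avg hp hc (fun j => one_div_pos.2 (hy' j)) (fun j => one_div_pos.2 (hx' j))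
      (fun j => one_div_pos.2 (hx' j)) (fun i => one_div_pos.2 (hy i))
      (fun i => one_div_pos.2 (hx i)) (fun i => one_div_pos.2 (hx i)) d2 d1 d1
    have d4 := mean_comb (a := 1 / 2) (b := 1 / 2) (by norm_num) (by norm_num) d1 d3
    have e : ∀ a b : ℝ, 0 < a → 0 < b →
        1 / 2 * (1 / a) + 1 / 2 * (1 / a / ∫ θ in (0 : ℝ)..1,
          gseq m (θ * (1 / b / (1 / a)) + (1 - θ) * (1 / a / (1 / a)))) =
        gseq (m + 1) (a / b) / b := by
      intro a b ha hb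
      have e1 : (∫ θ in (0 : ℝ)..1, gseq m (θ * (1 / b / (1 / a)) + (1 - θ) * (1 / a / (1 / a)))) =
          ∫ θ in (0 : ℝ)..1, gseq m (1 - θ + θ * (a / b)) := by
        refine intervalIntegral.integral_congr fun θ _ => ?_
        have := ha.ne'
        have := hb.ne'
        congr 1
        field_simp
        ring
      rw [e1]
      simp only [gseq]
      have := ha.ne'
      have := hb.ne'
      generalize (∫ θ in (0 : ℝ)..1, gseq m (1 - θ + θ * (a / b))) = G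
      field_simp
    have d5 := mean_congr d4 (fun j => e _ _ (hx' j) (hy' j)) (fun i => e _ _ (hx i) (hy i))
    have hp1 := (gseq_pos_cont (m + 1)).1
    have d6 := mean_dual hS.symm
      (fun j => div_pos (hp1 _ (div_pos (hx' j) (hy' j))) (hy' j))
      (fun i => div_pos (hp1 _ (div_pos (hx i) (hy i))) (hy i)) d5
    exact mean_congr d6 (fun i => one_div_div _ _) (fun j => one_div_div _ _)

variable {I J : Type} [Fintype I] [Fintype J]

lemma mean_inv_contOn {a b : ℝ} (ha : 0 < a) (hb : 0 < b) :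
    ContinuousOn (fun s : ℝ => 1 / (s * a + (1 - s) * b)) (Icc 0 1) :=
  continuousOn_const.div (by fun_prop) fun s hs => (mean_arg_pos ha hb hs.1 hs.2).ne'

lemma dom_LM {T : (I → ℂ) →ₗ[ℂ] (J → ℂ)} {x y : I → ℝ} {x' y' : J → ℝ}
    (hx : ∀ i, 0 < x i) (hy : ∀ i, 0 < y i) (hx' : ∀ j, 0 < x' j) (hy' : ∀ j, 0 < y' j)
    (h1 : Dom T x x') (h2 : Dom T y y') :
    Dom T (fun i => LM (x i) (y i)) (fun j => LM (x' j) (y' j)) := by
  have key := mean_par (T := T) (g := fun s i => 1 / (s * x i + (1 - s) * y i))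
    (g' := fun s j => 1 / (s * x' j + (1 - s) * y' j))
    (fun i => mean_inv_contOn (hx i) (hy i)) (fun j => mean_inv_contOn (hx' j) (hy' j))
    (fun s hs i => one_div_pos.2 (mean_arg_pos (hx i) (hy i) hs.1 hs.2))
    (fun s hs j => one_div_pos.2 (mean_arg_pos (hx' j) (hy' j) hs.1 hs.2))
    (fun s hs => mean_congr (mean_comb hs.1 (sub_nonneg.2 hs.2) h1 h2)
      (fun i => (one_div_one_div _).symm) (fun j => (one_div_one_div _).symm))
  refine mean_congr key (fun i => ?_) (fun j => ?_)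
  · rw [← inv_LM_eq (hx i) (hy i), one_div_one_div]
  · rw [← inv_LM_eq (hx' j) (hy' j), one_div_one_div]

lemma mean_dualLM {a b : ℝ} (ha : 0 < a) (hb : 0 < b) :
    (∫ s in (0 : ℝ)..1, 1 / (s * (1 / b) + (1 - s) * (1 / a))) = a * b / LM a b := by
  rw [← mul_one_div (a * b), inv_LM_eq ha hb, ← intervalIntegral.integral_const_mul]
  refine intervalIntegral.integral_congr fun s hs => ?_
  rw [uIcc_of_le zero_le_one] at hs
  have h1 := (mean_arg_pos ha hb hs.1 hs.2).ne'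
  have h2 : s * (1 / b) + (1 - s) * (1 / a) = (s * a + (1 - s) * b) / (a * b) := by
    have := ha.ne'
    have := hb.ne'
    field_simp
  rw [h2, one_div_div, mul_one_div]

lemma mean_dom_dualLM {T : (I → ℂ) →ₗ[ℂ] (J → ℂ)} {x y : I → ℝ} {x' y' : J → ℝ}
    (hx : ∀ i, 0 < x i) (hy : ∀ i, 0 < y i) (hx' : ∀ j, 0 < x' j) (hy' : ∀ j, 0 < y' j)
    (h1 : Dom T x x') (h2 : Dom T y y') :
    Dom T (fun i => x i * y i / LM (x i) (y i)) (fun j => x' j * y' j / LM (x' j) (y' j)) := by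
  obtain ⟨S, hS⟩ := mean_exists_adj T
  have d1 := mean_dual hS hx hx' h1
  have d2 := mean_dual hS hy hy' h2
  have key := mean_integral (T := T)
    (w := fun s i => 1 / (s * (1 / y i) + (1 - s) * (1 / x i)))
    (w' := fun s j => 1 / (s * (1 / y' j) + (1 - s) * (1 / x' j)))
    (fun i => mean_inv_contOn (one_div_pos.2 (hy i)) (one_div_pos.2 (hx i)))
    (fun j => mean_inv_contOn (one_div_pos.2 (hy' j)) (one_div_pos.2 (hx' j)))
    (fun s hs => mean_dual hS.symm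
      (fun j => mean_arg_pos (one_div_pos.2 (hy' j)) (one_div_pos.2 (hx' j)) hs.1 hs.2)
      (fun i => mean_arg_pos (one_div_pos.2 (hy i)) (one_div_pos.2 (hx i)) hs.1 hs.2)
      (mean_comb hs.1 (sub_nonneg.2 hs.2) d2 d1))
  exact mean_congr key (fun i => mean_dualLM (hx i) (hy i)) (fun j => mean_dualLM (hx' j) (hy' j))

lemma dom_kapg (m : ℕ) {T : (I → ℂ) →ₗ[ℂ] (J → ℂ)} {x y c : I → ℝ} {x' y' c' : J → ℝ}
    (hx : ∀ i, 0 < x i) (hy : ∀ i, 0 < y i) (hc : ∀ i, 0 < c i)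
    (hx' : ∀ j, 0 < x' j) (hy' : ∀ j, 0 < y' j) (hc' : ∀ j, 0 < c' j)
    (h1 : Dom T x x') (h2 : Dom T y y')
    (h3 : Dom T (fun i => c i * LM (x i) (y i)) (fun j => c' j * LM (x' j) (y' j))) :
    Dom T (fun i => kapg m (x i) (y i) (c i)) (fun j => kapg m (x' j) (y' j) (c' j)) := by
  have hL := fun i => LM_pos (hx i) (hy i)
  have hL' := fun j => LM_pos (hx' j) (hy' j)
  have key := (meanOM_gseq m).avg (gseq_pos_cont m).1 (gseq_pos_cont m).2
    (fun i => div_pos (mul_pos (hx i) (hy i)) (hL i)) (fun i => mul_pos (hc i) (hL i)) hL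
    (fun j => div_pos (mul_pos (hx' j) (hy' j)) (hL' j)) (fun j => mul_pos (hc' j) (hL' j)) hL'
    (mean_dom_dualLM hx hy hx' hy' h1 h2) h3 (dom_LM hx hy hx' hy' h1 h2)
  have e : ∀ a b d : ℝ, 0 < a → 0 < b →
      LM a b / (∫ θ in (0 : ℝ)..1,
        gseq m (θ * (a * b / LM a b / LM a b) + (1 - θ) * (d * LM a b / LM a b))) =
      kapg m a b d := by
    intro a b d ha hb
    have := (LM_pos ha hb).ne'
    unfold kapg
    rw [mul_div_cancel_right₀ _ this, div_div, ← pow_two]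
  exact mean_congr key (fun i => e _ _ _ (hx i) (hy i)) (fun j => e _ _ _ (hx' j) (hy' j))

end Crest.Agent.R331
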