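import Crest.Agent.R331.NearAux

/-!
Row 331: a state that almost satisfies the thermal relations has almost thermal free energy
(task NEAR).  `q = t/(t+1)`, `w k = (1-q)^n q^(tot k)`, `log (w k) = -β tot k - n log (1+t)`, so
`ent ρ - β en ρ - n log(1+t) = ∑_k (f_k + ρ_kk log (w k))`, `f_k = (fc negMulLog ρ k k).re ≥ 0`.
Fix `R` (large), `L ≥ R`, `F = {k | ∀ j, k j ≤ R}`.
* `k ∉ F`: `tot k ≥ R+1`, so the terms sum to at least `-(β + n log(1+t)) M / (R+1)`.
* `δ_j (k, k+e_j) = √(k_j+1) ((t+1) ρ_{k+e,k+e} - t ρ_kk)`, so by induction on `tot k`,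
  `|ρ_kk - q^(tot k) ρ_00| ≤ (tot k) μ ≤ n R μ` on `F`.  Put `r = ρ_00 / w 0`:
  `1 ≥ ∑_F ρ_kk ≥ r (1 - q^(R+1))^n - (R+1)^n n R μ`.
* `cᴴ δ - δᴴ c = (t+1) [N_j, ρ]`, so for `k_j ≠ l_j`,
  `(k_j - l_j)² |ρ_kl|² ≤ 2 k_j |δ(k-e,l)|² + 2 l_j |δ(l-e,k)|²`, and `l_j ≤ (k_j+1)(k_j - l_j)²`; hence
  `∑_{l ≠ k} |ρ_kl|² ≤ n · 2 (2R+1) μ²` for `k ∈ F`.
* `diag_ent_ge`: for `k ∈ F`, `f_k + ρ_kk log w_k ≥ ρ_kk (1 - ρ_kk / w_k) - off_k / w_k
  ≥ -ρ_kk (max (r-1) 0 + n R μ / wmin) - off_k / wmin`, `wmin = (1-q)^n q^(nR)`; sum over `F`.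
Choose `R`, then `μ`.
-/

set_option autoImplicit false
set_option linter.unusedSectionVars false

open Matrix Set Filter Topology Crest.Agent.R342 Crest.Agent.R332 Crest.MathPhysics.Bosonic
open scoped ComplexOrder Kronecker Matrix.Norms.Frobenius

namespace Crest.Agent.R331

/-- the quantitative estimate for fixed `R` and `μ` -/
lemma nr_core {n L R : ℕ} {t M μ : ℝ} (ht : 0 < t) (hμ0 : 0 ≤ μ) (hR : R ≤ L)
    {ρ : Matrix (Box n L) (Box n L) ℂ} (hρ : Dens ρ)
    (hM : ex (fun k => (tot k : ℝ) ^ 2) ρ ≤ M) (hμ : ∀ j, ‖del t ρ (ann L j)‖ ≤ μ) :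
    n * Real.log (1 + t) - ((bet t + n * Real.log (1 + t)) * M / (R + 1) +
      ((1 + ((R : ℝ) + 1) ^ n * (n * R * μ)) / (1 - (t / (t + 1)) ^ (R + 1)) ^ n - 1 +
        n * R * μ / ((1 - t / (t + 1)) ^ n * (t / (t + 1)) ^ (n * R))) +
      n * ((4 * R + 4) * μ ^ 2) / ((1 - t / (t + 1)) ^ n * (t / (t + 1)) ^ (n * R))) ≤
      ent ρ - bet t * en ρ := by
  set q : ℝ := t / (t + 1) with hq
  have hq0 : 0 < q := by positivity
  have hq1 : q < 1 := by rw [hq, div_lt_one (by positivity)]; linarith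
  have h1q : 0 < 1 - q := by linarith
  set w : Box n L → ℝ := fun k => (1 - q) ^ n * q ^ tot k with hw
  have hw0 : ∀ k, 0 < w k := fun k => by positivity
  set Lg : ℝ := n * Real.log (1 + t) with hLg
  have hLg0 : 0 ≤ Lg := mul_nonneg (Nat.cast_nonneg _) (Real.log_nonneg (by linarith))
  have hb0 : 0 ≤ bet t := Real.log_nonneg (le_add_of_nonneg_right (by positivity))
  have hlog : ∀ k, Real.log (w k) = -(bet t * tot k) - Lg := fun k => by
    have e1 : Real.log (1 - q) = -Real.log (1 + t) := by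
      rw [← Real.log_inv]; congr 1; rw [hq]; field_simp; ring
    have e2 : Real.log q = -bet t := by
      unfold bet
      rw [← Real.log_inv]; congr 1; rw [hq]; field_simp
    simp only [hw]
    rw [Real.log_mul (by positivity) (by positivity), Real.log_pow, Real.log_pow, e1, e2, hLg]
    ring
  set p : Box n L → ℝ := fun k => (ρ k k).re with hp
  have hp0 : ∀ k, 0 ≤ p k := fun k => (nr_diag_re hρ.1 k).2
  have hp1 : ∑ k, p k = 1 := by
    have := congrArg Complex.re hρ.2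
    simpa [trace, hp] using this
  set f : Box n L → ℝ := fun k => (fc Real.negMulLog ρ k k).re with hf
  have hf0 : ∀ k, 0 ≤ f k := fun k => diag_ent_nonneg hρ k
  have hid : ent ρ - bet t * en ρ - Lg = ∑ k, (f k + p k * Real.log (w k)) := by
    rw [ent_eq_sum_diag]
    simp only [hlog, en, ex, Finset.sum_add_distrib, mul_sub, Finset.sum_sub_distrib,
      ← Finset.sum_mul, Finset.mul_sum]
    rw [hp1]
    have : ∑ k, p k * -(bet t * (tot k : ℝ)) = -∑ k, bet t * ((tot k : ℝ) * (ρ k k).re) := by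
      rw [← Finset.sum_neg_distrib]
      exact Finset.sum_congr rfl fun k _ => by simp only [hp]; ring
    rw [this]; ring
  set F := Finset.univ.filter (fun k : Box n L => ∀ j, (k j : ℕ) ≤ R) with hF
  set wm : ℝ := (1 - q) ^ n * q ^ (n * R) with hwm
  have hwm0 : 0 < wm := by positivity
  set W : ℝ := (1 - q ^ (R + 1)) ^ n with hW
  have hqR : 0 < 1 - q ^ (R + 1) := by
    have : q ^ (R + 1) < 1 := pow_lt_one₀ hq0.le hq1 (Nat.succ_ne_zero R)
    linarith
  have hW0 : 0 < W := by positivity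
  have hW1 : W ≤ 1 := pow_le_one₀ hqR.le (by have := pow_pos hq0 (R + 1); linarith)
  set ε : ℝ := n * R * μ with hε
  have hε0 : 0 ≤ ε := by positivity
  have htot : ∀ k ∈ F, tot k ≤ n * R := fun k hk => by
    have := Finset.sum_le_sum (s := Finset.univ) fun j _ => (Finset.mem_filter.mp hk).2 j
    simpa [tot] using this
  have hwk : ∀ k ∈ F, wm ≤ w k := fun k hk =>
    mul_le_mul_of_nonneg_left (pow_le_pow_of_le_one hq0.le hq1.le (htot k hk)) (by positivity)
  have hdiag : ∀ k ∈ F, |p k - q ^ tot k * p 0| ≤ ε := fun k hk => by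
    refine (nr_diag ht hρ.1 hμ (tot k) k rfl).trans ?_
    have : (tot k : ℝ) ≤ n * R := by exact_mod_cast htot k hk
    exact mul_le_mul_of_nonneg_right this hμ0
  set r : ℝ := p 0 / (1 - q) ^ n with hr
  have hrw : ∀ k, q ^ tot k * p 0 = r * w k := fun k => by
    simp only [hr, hw]; field_simp
  have hFp : ∑ k ∈ F, p k ≤ 1 := by
    rw [← hp1]
    exact Finset.sum_le_sum_of_subset_of_nonneg (Finset.subset_univ _) fun k _ _ => hp0 k
  have hrle : r ≤ (1 + ((R : ℝ) + 1) ^ n * ε) / W := by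
    rw [le_div_iff₀ hW0]
    have e1 : ∑ k ∈ F, w k = W := by
      simp only [hw]
      rw [← Finset.mul_sum]
      exact nr_geom q hR
    have e2 : ∑ k ∈ F, (r * w k - ε) ≤ ∑ k ∈ F, p k := Finset.sum_le_sum fun k hk => by
      have := (abs_le.mp (hdiag k hk)).1
      rw [hrw] at this
      linarith
    rw [Finset.sum_sub_distrib, ← Finset.mul_sum, e1, Finset.sum_const, nsmul_eq_mul] at e2
    have e3 := mul_le_mul_of_nonneg_right (nr_card (n := n) (L := L) R) hε0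
    linarith
  set θ : ℝ := (1 + ((R : ℝ) + 1) ^ n * ε) / W - 1 + ε / wm with hθ
  have hθ0 : 0 ≤ θ := by
    have : 1 ≤ (1 + ((R : ℝ) + 1) ^ n * ε) / W := by
      rw [le_div_iff₀ hW0]
      have : 0 ≤ ((R : ℝ) + 1) ^ n * ε := by positivity
      linarith
    have : 0 ≤ ε / wm := by positivity
    linarith
  have hin : ∀ k ∈ F, -(p k * θ) - (∑ l ∈ Finset.univ.erase k, ‖ρ k l‖ ^ 2) / wm ≤
      f k + p k * Real.log (w k) := fun k hk => by
    have h1 := diag_ent_ge hρ.1 (hw0 k) k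
    rw [← Finset.add_sum_erase _ _ (Finset.mem_univ k)] at h1
    have h2 : ‖ρ k k‖ = p k := by
      rw [(nr_diag_re hρ.1 k).1, Complex.norm_real, Real.norm_eq_abs, abs_of_nonneg (hp0 k)]
    rw [h2, add_div] at h1
    have h3 : (∑ l ∈ Finset.univ.erase k, ‖ρ k l‖ ^ 2) / w k ≤
        (∑ l ∈ Finset.univ.erase k, ‖ρ k l‖ ^ 2) / wm :=
      div_le_div_of_nonneg_left (by positivity) hwm0 (hwk k hk)
    have h4 : p k / w k ≤ 1 + θ := by
      have i1 := (abs_le.mp (hdiag k hk)).2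
      rw [hrw] at i1
      have i2 : p k / w k ≤ r + ε / w k := by
        rw [div_le_iff₀ (hw0 k), add_mul, div_mul_cancel₀ _ (hw0 k).ne']
        linarith
      have i3 : ε / w k ≤ ε / wm := div_le_div_of_nonneg_left hε0 hwm0 (hwk k hk)
      rw [hθ]; linarith
    have h5 : p k ^ 2 / w k ≤ p k * (1 + θ) := by
      rw [sq, mul_div_assoc]
      exact mul_le_mul_of_nonneg_left h4 (hp0 k)
    change (1 - Real.log (w k)) * p k - _ ≤ f k at h1
    nlinarith
  have hsumF : -θ - n * ((4 * R + 4) * μ ^ 2) / wm ≤ ∑ k ∈ F, (f k + p k * Real.log (w k)) := by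
    refine le_trans ?_ (Finset.sum_le_sum hin)
    rw [Finset.sum_sub_distrib, Finset.sum_neg_distrib, ← Finset.sum_mul, ← Finset.sum_div]
    have h1 := div_le_div_of_nonneg_right (nr_off_sum ht hρ.1.1 hμ R) hwm0.le
    have h2 := mul_le_of_le_one_left hθ0 hFp
    linarith
  have hR1 : (0 : ℝ) < R + 1 := by positivity
  have hsumC : -((bet t + Lg) * M / (R + 1)) ≤
      ∑ k ∈ Finset.univ.filter (fun k : Box n L => ¬ ∀ j, (k j : ℕ) ≤ R),
        (f k + p k * Real.log (w k)) := by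
    have h1 : ∀ k ∈ Finset.univ.filter (fun k : Box n L => ¬ ∀ j, (k j : ℕ) ≤ R),
        -((bet t + Lg) / (R + 1) * ((tot k : ℝ) ^ 2 * p k)) ≤ f k + p k * Real.log (w k) := by
      intro k hk
      have hk' := (Finset.mem_filter.mp hk).2
      push Not at hk'
      obtain ⟨j, hj⟩ := hk'
      have h2 : (k j : ℕ) ≤ tot k :=
        Finset.single_le_sum (f := fun j => (k j : ℕ)) (fun _ _ => Nat.zero_le _) (Finset.mem_univ j)
      have h3 : (R : ℝ) + 1 ≤ tot k := by exact_mod_cast (by omega : R + 1 ≤ tot k)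
      have h4 : bet t * tot k + Lg ≤ (bet t + Lg) / (R + 1) * (tot k : ℝ) ^ 2 := by
        rw [div_mul_eq_mul_div, le_div_iff₀ hR1]
        have hT : (1 : ℝ) ≤ tot k := by linarith [(Nat.cast_nonneg R : (0 : ℝ) ≤ R)]
        have i1 : (tot k : ℝ) * (R + 1) ≤ (tot k : ℝ) ^ 2 := by nlinarith
        have i2 : (R : ℝ) + 1 ≤ (tot k : ℝ) ^ 2 := by nlinarith
        nlinarith [mul_le_mul_of_nonneg_left i1 hb0, mul_le_mul_of_nonneg_left i2 hLg0]
      rw [hlog]
      have := mul_le_mul_of_nonneg_left h4 (hp0 k)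
      nlinarith [hf0 k]
    refine le_trans ?_ (Finset.sum_le_sum h1)
    rw [Finset.sum_neg_distrib, ← Finset.mul_sum, neg_le_neg_iff, mul_div_right_comm]
    refine mul_le_mul_of_nonneg_left (le_trans ?_ hM) (by positivity)
    exact Finset.sum_le_sum_of_subset_of_nonneg (Finset.subset_univ _)
      fun k _ _ => mul_nonneg (sq_nonneg _) (hp0 k)
  rw [← Finset.sum_filter_add_sum_filter_not Finset.univ (fun k : Box n L => ∀ j, (k j : ℕ) ≤ R)]
    at hid
  linarith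

theorem near_thermal (n : ℕ) {t δ : ℝ} (M : ℝ) (ht : 0 < t) (hδ : 0 < δ) :
    ∃ μ : ℝ, 0 < μ ∧ ∃ L0 : ℕ, ∀ L, L0 ≤ L → ∀ ρ : Matrix (Box n L) (Box n L) ℂ, Dens ρ →
      ex (fun k => (tot k : ℝ) ^ 2) ρ ≤ M → (∀ j, ‖del t ρ (ann L j)‖ ≤ μ) →
      n * Real.log (1 + t) - δ ≤ ent ρ - bet t * en ρ := by
  have hq0 : 0 < t / (t + 1) := by positivity
  have hq1 : t / (t + 1) < 1 := by rw [div_lt_one (by positivity)]; linarith
  have h1 : Tendsto (fun R : ℕ => (bet t + n * Real.log (1 + t)) * M / (R + 1) +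
      (1 / (1 - (t / (t + 1)) ^ (R + 1)) ^ n - 1)) atTop (𝓝 (0 + (1 / (1 - 0) ^ n - 1))) := by
    refine Tendsto.add ?_ (Tendsto.sub_const (Tendsto.div tendsto_const_nhds
      (Tendsto.pow (Tendsto.const_sub _ ?_) n) (by simp)) 1)
    · exact tendsto_const_nhds.div_atTop
        (tendsto_atTop_add_const_right _ _ tendsto_natCast_atTop_atTop)
    · exact (tendsto_pow_atTop_nhds_zero_of_lt_one hq0.le hq1).comp (tendsto_add_atTop_nat 1)
  simp only [sub_zero, one_pow, div_one, sub_self, add_zero] at h1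
  obtain ⟨R, hR⟩ := (h1.eventually (gt_mem_nhds hδ)).exists
  have h2 : Tendsto (fun μ : ℝ => (bet t + n * Real.log (1 + t)) * M / (R + 1) +
      ((1 + ((R : ℝ) + 1) ^ n * (n * R * μ)) / (1 - (t / (t + 1)) ^ (R + 1)) ^ n - 1 +
        n * R * μ / ((1 - t / (t + 1)) ^ n * (t / (t + 1)) ^ (n * R))) +
      n * ((4 * R + 4) * μ ^ 2) / ((1 - t / (t + 1)) ^ n * (t / (t + 1)) ^ (n * R)))
      (𝓝[>] 0) (𝓝 ((bet t + n * Real.log (1 + t)) * M / (R + 1) +
      (1 / (1 - (t / (t + 1)) ^ (R + 1)) ^ n - 1))) := by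
    refine Tendsto.mono_left ?_ nhdsWithin_le_nhds
    refine Continuous.tendsto' (by fun_prop) _ _ (by simp)
  obtain ⟨μ, hμ1, hμ0⟩ := ((h2.eventually (gt_mem_nhds hR)).and self_mem_nhdsWithin).exists
  refine ⟨μ, hμ0, R, fun L hL ρ hρ hM hμ => ?_⟩
  have := nr_core ht (le_of_lt hμ0) hL hρ hM hμ
  linarith

end Crest.Agent.R331
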