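import Crest.Agent.R331.CritBox
import Crest.Agent.R331.Near

/-! Row 331: the minimum of the regularised functional is almost thermal (task MIN). -/

set_option autoImplicit false
set_option linter.unusedSectionVars false

open Matrix Set Filter Topology Crest.Agent.R342 Crest.Agent.R332 Crest.MathPhysics.Bosonic
open scoped ComplexOrder Kronecker Matrix.Norms.Frobenius

namespace Crest.Agent.R331

lemma min_small (c : ℝ) {ε : ℝ} (hε : 0 < ε) :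
    ∃ g : ℝ, 0 < g ∧ ∀ x : ℝ, 0 ≤ x → x ≤ g → c * x ≤ ε := by
  refine ⟨ε / (|c| + 1), by positivity, fun x h0 h => ?_⟩
  have h1 : x * (|c| + 1) ≤ ε := (le_div_iff₀ (by positivity)).1 h
  have h2 := mul_le_mul_of_nonneg_right (le_abs_self c) h0
  linarith

lemma min_side {θ ν t L ε : ℝ} (C D : ℝ) (hθ : 0 < θ) (hν : 0 < ν) (ht : 0 < t) (hL : 0 < L)
    (hε : 0 < ε) : ∃ g : ℝ, 0 < g ∧ ∀ γ' : ℝ, 0 ≤ γ' → γ' ≤ g →
      ∀ (ι : Type) [Fintype ι] [DecidableEq ι] (ρ Z : Matrix ι ι ℂ), ρ.PosDef →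
        L * kf (gapk θ ν t) ρ Z ≤ γ' * D → L * kf (fun x y => 1 / Mk t x y) ρ Z ≤ C →
        √(kf (fun x y => 1 / (x + y)) ρ Z) ≤ ε := by
  have hq : 0 < ε ^ 2 * L / 2 := by positivity
  obtain ⟨σ, hσ, hσ'⟩ := min_small C hq
  obtain ⟨C', hC', hk⟩ := gapk_bound hθ hν ht hσ
  obtain ⟨g, hg, hg'⟩ := min_small (C' * D) hq
  refine ⟨g, hg, fun γ' h0 h1 ι _ _ ρ Z hρ hG hM => ?_⟩
  have e1 := kf_mono (k := fun x y => 1 / (x + y))
    (k' := fun x y => C' * gapk θ ν t x y + σ * (fun x y => 1 / Mk t x y) x y)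
    (fun i j => hk _ _ (ev_pos hρ i) (ev_pos hρ j)) Z
  rw [kf_lin] at e1
  have e2 := mul_le_mul_of_nonneg_left e1 hL.le
  have e3 := mul_le_mul_of_nonneg_left hG hC'
  have e4 := mul_le_mul_of_nonneg_left hM hσ.le
  have e5 := hσ' σ hσ.le le_rfl
  have e6 := hg' γ' h0 h1
  refine Real.sqrt_le_iff.2 ⟨hε.le, le_of_mul_le_mul_left ?_ hL⟩
  linear_combination e2 + e3 + e4 + e5 + e6

lemma min_ex_nonneg {n K : ℕ} {F : Box n K → ℝ} (hF : ∀ k, 0 ≤ F k)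
    {ρ : Matrix (Box n K) (Box n K) ℂ} (hρ : ρ.PosSemidef) : 0 ≤ ex F ρ :=
  Finset.sum_nonneg fun k _ => mul_nonneg (hF k) (ent_diag_re_nonneg hρ k)

/-- For each `j` (`h.crit`): all terms of `Crit.gap` but the last are `≥ 0` (`gapk_nonneg`), so with
`diss_ge`, `γ' (m²_A + m²_B - 2CW) ≤ γ'`, i.e. `m²_A + m²_B ≤ 2CW + 1`; `sq_out_le`, `therm_sq_le`,
`ex_mix`, `ex_tot_sq_le` give `M = n² (5CW + 2)`.  Also (`diss ≥ -CW`) the gap terms and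
`γβ(|α|²+|b|²)` are `≤ γ'(1 + 2CW)`.  `fis_le` + `Hm_mix_le` bound `fis' ≤ C₅`, so `Crit.fis_bound`
gives `λβ M⁻¹[δ0] ≤ C₅ + 1 + 2CW` (`γ' ≤ 1`).  `gapk_bound` with `kf_mono`, `kf_lin`:
`N_X ≤ C_σ γ'(1+2CW)/(λβ) + σ C₆/(λβ)`; choose `σ`, then `γ0`; finish with `Crit.del_norm`. -/
theorem crit_bounds (n : ℕ) {η tA tB γ T CW : ℝ} {W : ℕ → ℝ} (h0 : 0 < η) (h1 : η < 1)
    (hA : 0 < tA) (hB : 0 < tB) (hγ0 : 0 < γ) (hγ1 : γ < 1) (hW : GoodW W T CW)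
    (hTA : tA ≤ T) (hTB : tB ≤ T) :
    ∃ M : ℝ, ∀ μ : ℝ, 0 < μ → ∃ γ0 : ℝ, 0 < γ0 ∧ ∀ γ' : ℝ, 0 < γ' → γ' ≤ γ0 →
      ∀ (K : ℕ) (ρA ρB : Matrix (Box n K) (Box n K) ℂ), IsMinPair η tA tB γ γ' W ρA ρB →
        (∀ j : Fin n, bdry η tA tB (Rbd n K (tC η tA tB) γ) ρA (topP K j) ρB (topP K j) ≤ γ') →
        ex (fun k => (tot k : ℝ) ^ 2) (mixo η γ (tC η tA tB) ρA ρB) ≤ M ∧
        ∀ j : Fin n, ‖del (tC η tA tB) (mixo η γ (tC η tA tB) ρA ρB) (ann (2 * K) j)‖ ≤ μ ∧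
          ‖trace (ρA * ann K j)‖ ^ 2 + ‖trace (ρB * ann K j)‖ ^ 2 ≤ μ := by
  have htc := tC_pos h0.le h1.le hA hB
  have hTC : tC η tA tB ≤ T := by
    have e1 := mul_le_mul_of_nonneg_left hTA h0.le
    have e2 := mul_le_mul_of_nonneg_left hTB (sub_nonneg.2 h1.le)
    unfold tC
    linarith
  have hβ := bet_pos htc
  have h1' : 0 < 1 - η := sub_pos.2 h1
  have hcw := hW.cw
  have hLA : 0 < lamr η tA (tC η tA tB) γ * bet tA :=
    mul_pos (lamr_pos h0.le hA htc hγ0 hγ1) (bet_pos hA)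
  have hLB : 0 < lamr (1 - η) tB (tC η tA tB) γ * bet tB :=
    mul_pos (lamr_pos h1'.le hB htc hγ0 hγ1) (bet_pos hB)
  have hθA := thr_pos h0 hA htc hγ0 hγ1
  have hθB := thr_pos h1' hB htc hγ0 hγ1
  have hνA := sub_pos.2 (thr_lt h0 hA htc hγ0 hγ1)
  have hνB := sub_pos.2 (thr_lt h1' hB htc hγ0 hγ1)
  have hC0 : 0 ≤ n * Real.log (1 + tC η tA tB) - Real.log γ := by
    have e1 : 0 ≤ Real.log (1 + tC η tA tB) := Real.log_nonneg (by linarith)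
    have e2 : Real.log γ ≤ 0 := Real.log_nonpos hγ0.le hγ1.le
    have e3 : 0 ≤ (n : ℝ) * Real.log (1 + tC η tA tB) := by positivity
    linarith
  refine ⟨(n : ℝ) ^ 2 * (5 * CW + 2), fun μ hμ => ?_⟩
  set C5 := (4 * tC η tA tB + 4) * (bet (tC η tA tB) + (n * Real.log (1 + tC η tA tB) - Real.log γ))
    * (1 + (n : ℝ) ^ 2 * (5 * CW + 2)) with hC5
  have hμ' : 0 < μ / 10 := by positivity
  obtain ⟨gA, hgA, hA'⟩ := min_side (C5 + (1 + 2 * CW)) (1 + 2 * CW) hθA hνA hA hLA hμ'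
  obtain ⟨gB, hgB, hB'⟩ := min_side (C5 + (1 + 2 * CW)) (1 + 2 * CW) hθB hνB hB hLB hμ'
  have hq : 0 < γ * bet (tC η tA tB) * min μ ((μ / 5) ^ 2) := by positivity
  obtain ⟨g, hg, hg'⟩ := min_small (1 + 2 * CW) hq
  refine ⟨min (min gA gB) (min g (min 1 (μ / 5))), by positivity, ?_⟩
  intro γ' hγ' hle K ρA ρB h hb
  simp only [le_min_iff] at hle
  obtain ⟨⟨l1, l2⟩, l3, l4, l5⟩ := hle
  have hc := fun j => h.crit h0 h1 hA hB hγ0 hγ1 hγ'.le j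
  have hdA := fun j => diss_ge hW hA.le hTA h.dA j
  have hdB := fun j => diss_ge hW hB.le hTB h.dB j
  have hmA : ∀ j : Fin n, 0 ≤ ex (fun k => ((k j : ℕ) : ℝ) ^ 2) ρA := fun j =>
    min_ex_nonneg (fun k => sq_nonneg _) h.dA.1
  have hmB : ∀ j : Fin n, 0 ≤ ex (fun k => ((k j : ℕ) : ℝ) ^ 2) ρB := fun j =>
    min_ex_nonneg (fun k => sq_nonneg _) h.dB.1
  have hGA : ∀ j : Fin n, 0 ≤ lamr η tA (tC η tA tB) γ * bet tA *
      kf (gapk (thr η tA (tC η tA tB) γ) (1 - γ - thr η tA (tC η tA tB) γ) tA) ρA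
        (del0 tA ρA (ann K j)) := fun j =>
    mul_nonneg hLA.le (kf_nonneg (fun i i' => gapk_nonneg hθA hνA hA (ev_pos (hc j).dA.1 i)
      (ev_pos (hc j).dA.1 i')) _)
  have hGB : ∀ j : Fin n, 0 ≤ lamr (1 - η) tB (tC η tA tB) γ * bet tB *
      kf (gapk (thr (1 - η) tB (tC η tA tB) γ) (1 - γ - thr (1 - η) tB (tC η tA tB) γ) tB) ρB
        (del0 tB ρB (ann K j)) := fun j =>
    mul_nonneg hLB.le (kf_nonneg (fun i i' => gapk_nonneg hθB hνB hB (ev_pos (hc j).dB.1 i)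
      (ev_pos (hc j).dB.1 i')) _)
  have hP : ∀ j : Fin n, 0 ≤ γ * bet (tC η tA tB) *
      (‖trace (ρA * ann K j)‖ ^ 2 + ‖trace (ρB * ann K j)‖ ^ 2) := fun j => by positivity
  have hgap := fun j => (hc j).gap.trans (hb j)
  have dC := dens_out h0.le h1.le h.dA h.dB
  have dM : FDens (mixo η γ (tC η tA tB) ρA ρB) :=
    mix_fdens dC (fdens_therm htc n (2 * K)) hγ0 hγ1
  have hM : ex (fun k => (tot k : ℝ) ^ 2) (mixo η γ (tC η tA tB) ρA ρB) ≤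
      (n : ℝ) ^ 2 * (5 * CW + 2) := by
    refine ex_tot_sq_le dM.1.posSemidef fun j => ?_
    have e1 : (ip (comm (ann K j) (rdiag (wsum W))) (del tA ρA (ann K j))).re +
        (ip (comm (ann K j) (rdiag (wsum W))) (del tB ρB (ann K j))).re ≤ 1 := by
      refine le_of_mul_le_mul_left ?_ hγ'
      linear_combination hgap j + hGA j + hGB j + hP j
    have e2 := sq_out_le h0.le h1.le h.dA h.dB j
    have e3 := therm_sq_le (K := 2 * K) hW htc hTC j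
    have e4 : ex (fun p => ((p j : ℕ) : ℝ) ^ 2) (bsOutput η ρA ρB) ≤ 2 * (1 + 2 * CW) := by
      linear_combination e2 + 2 * e1 + 2 * hdA j + 2 * hdB j
    have e5 := mul_le_mul_of_nonneg_left e4 (sub_nonneg.2 hγ1.le)
    have e6 := mul_le_mul_of_nonneg_left e3 hγ0.le
    have e7 : 0 ≤ γ * (2 + 3 * CW) := by positivity
    rw [mixo, ex_mix]
    linear_combination e5 + e6 + e7 + hcw
  refine ⟨hM, fun j => ?_⟩
  have e1 : -(γ' * (2 * CW)) ≤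
      γ' * ((ip (comm (ann K j) (rdiag (wsum W))) (del tA ρA (ann K j))).re +
        (ip (comm (ann K j) (rdiag (wsum W))) (del tB ρB (ann K j))).re) := by
    rw [← mul_neg]
    refine mul_le_mul_of_nonneg_left ?_ hγ'.le
    linear_combination hdA j + hdB j + hmA j + hmB j
  have hF : fis (tC η tA tB) (mixo η γ (tC η tA tB) ρA ρB) (ann (2 * K) j) ≤ C5 := by
    refine (fis_le htc hC0 dM (Hm_mix_le htc hγ0 hγ1 dC) j).trans ?_
    rw [hC5]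
    exact mul_le_mul_of_nonneg_left (by linarith) (by positivity)
  have hMA : 0 ≤ lamr η tA (tC η tA tB) γ * bet tA *
      kf (fun x y => 1 / Mk tA x y) ρA (del0 tA ρA (ann K j)) :=
    mul_nonneg hLA.le (kf_nonneg (fun i i' => (one_div_pos.2 (Mk_pos hA (ev_pos (hc j).dA.1 i)
      (ev_pos (hc j).dA.1 i'))).le) _)
  have hMB : 0 ≤ lamr (1 - η) tB (tC η tA tB) γ * bet tB *
      kf (fun x y => 1 / Mk tB x y) ρB (del0 tB ρB (ann K j)) :=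
    mul_nonneg hLB.le (kf_nonneg (fun i i' => (one_div_pos.2 (Mk_pos hB (ev_pos (hc j).dB.1 i)
      (ev_pos (hc j).dB.1 i'))).le) _)
  have e2 : γ' * (1 + 2 * CW) ≤ 1 * (1 + 2 * CW) :=
    mul_le_mul_of_nonneg_right l4 (by positivity)
  have hfb := (hc j).fis_bound
  have sA := hA' γ' hγ'.le l1 _ ρA (del0 tA ρA (ann K j)) (hc j).dA.1
    (by linear_combination hgap j + hGB j + hP j + e1)
    (by linear_combination hfb + hb j + hF + hMB + e1 + e2)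
  have sB := hB' γ' hγ'.le l2 _ ρB (del0 tB ρB (ann K j)) (hc j).dB.1
    (by linear_combination hgap j + hGA j + hP j + e1)
    (by linear_combination hfb + hb j + hF + hMA + e1 + e2)
  have e3 : ‖trace (ρA * ann K j)‖ ^ 2 + ‖trace (ρB * ann K j)‖ ^ 2 ≤ min μ ((μ / 5) ^ 2) := by
    refine le_of_mul_le_mul_left ?_ (mul_pos hγ0 hβ)
    linear_combination hgap j + hGA j + hGB j + e1 + hg' γ' hγ'.le l3
  have e4 := e3.trans (min_le_right _ _)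
  have hμ5 : 0 ≤ μ / 5 := by positivity
  have e5 : ‖trace (ρA * ann K j)‖ ≤ μ / 5 :=
    le_of_sq_le_sq' (by linarith [sq_nonneg ‖trace (ρB * ann K j)‖]) hμ5
  have e6 : ‖trace (ρB * ann K j)‖ ≤ μ / 5 :=
    le_of_sq_le_sq' (by linarith [sq_nonneg ‖trace (ρA * ann K j)‖]) hμ5
  refine ⟨?_, e3.trans (min_le_left _ _)⟩
  linear_combination (hc j).del_norm + 2 * sA + 2 * sB + e5 + e6 + hb j + l5

/-- Take `M` from `crit_bounds`, `μ₁, L0` from `near_thermal` with `δ/2`, `μ = min μ₁ (δ/(2(β n + 1)))`.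
For large `K` take a minimiser (`exists_minPair`); if its value is `> Vgam` done; otherwise
`bdry_small` (with `V = Vgam`), `crit_bounds`, `near_thermal`, `Phi_ge`. -/
theorem min_bound (n : ℕ) {η tA tB γ T CW δ : ℝ} {W : ℕ → ℝ} (h0 : 0 < η) (h1 : η < 1)
    (hA : 0 < tA) (hB : 0 < tB) (hγ0 : 0 < γ) (hγ1 : γ < 1) (hW : GoodW W T CW)
    (hTA : tA ≤ T) (hTB : tB ≤ T) (hδ : 0 < δ) :
    ∃ γ0 : ℝ, 0 < γ0 ∧ ∀ γ' : ℝ, 0 < γ' → γ' ≤ γ0 → ∀ᶠ K : ℕ in atTop,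
      ∀ ρA ρB : Matrix (Box n K) (Box n K) ℂ, Dens ρA → Dens ρB →
        Vgam n η tA tB γ - δ ≤ Phi η tA tB γ γ' W ρA ρB := by
  have htc := tC_pos h0.le h1.le hA hB
  have hβ := bet_pos htc
  obtain ⟨M, hM⟩ := crit_bounds n h0 h1 hA hB hγ0 hγ1 hW hTA hTB
  obtain ⟨μ₁, hμ₁, L0, hL⟩ := near_thermal n M htc (half_pos hδ)
  obtain ⟨μ₂, hμ₂, hμ₂'⟩ := min_small (bet (tC η tA tB) * n) (half_pos hδ)
  obtain ⟨γ0, hγ0', hc⟩ := hM (min μ₁ μ₂) (lt_min hμ₁ hμ₂)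
  refine ⟨γ0, hγ0', fun γ' hγ' hle => ?_⟩
  filter_upwards [bdry_small n (Vgam n η tA tB γ) h0 h1 hA hB hγ0 hγ1 hγ' hW,
    eventually_ge_atTop L0] with K hK hK0 ρA ρB dA dB
  obtain ⟨σA, σB, h⟩ := exists_minPair n K γ' W h0.le h1.le hA hB hγ0 hγ1
  refine le_trans ?_ (h.min ρA ρB dA dB)
  rcases le_total (Phi η tA tB γ γ' W σA σB) (Vgam n η tA tB γ) with hV | hV
  · obtain ⟨e1, e2⟩ := hc γ' hγ' hle K σA σB h (hK σA σB h.dA h.dB hV)
    have dM : FDens (mixo η γ (tC η tA tB) σA σB) :=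
      mix_fdens (dens_out h0.le h1.le h.dA h.dB) (fdens_therm htc n (2 * K)) hγ0 hγ1
    have e3 := hL (2 * K) (by omega) _ dM.dens e1 fun j => (e2 j).1.trans (min_le_left _ _)
    have e4 := Phi_ge (γ' := γ') h.dA h.dB h0 h1 hA hB hγ0 hγ1 hγ'.le hW.nonneg
      fun j => (e2 j).2.trans (min_le_right _ _)
    have e5 := hμ₂' μ₂ hμ₂.le le_rfl
    unfold Vgam
    linear_combination e3 + e4 + e5
  · linarith

end Crest.Agent.R331
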