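import Crest.Agent.R331.Box

/-! Row 331: auxiliary lemmas for `near_thermal` (task NEAR). -/

set_option autoImplicit false
set_option linter.unusedSectionVars false

open Matrix Set Filter Topology Crest.Agent.R342 Crest.Agent.R332 Crest.MathPhysics.Bosonic
open scoped ComplexOrder Kronecker Matrix.Norms.Frobenius

namespace Crest.Agent.R331

variable {n L : ℕ}

/-- `k'` is `k` raised by one in mode `j` -/
def NrRel (j : Fin n) (k k' : Box n L) : Prop :=
  (k' j : ℕ) = k j + 1 ∧ ∀ i, i ≠ j → k' i = k i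

lemma nr_ann_apply (j : Fin n) (k k' : Box n L) :
    ann L j k k' = if ((k' j : ℕ) = k j + 1 ∧ ∀ i, i ≠ j → k' i = k i) then
      ((√((k' j : ℕ) : ℝ) : ℝ) : ℂ) else 0 := rfl

lemma nr_ann_mul {j : Fin n} {k k' : Box n L} (h : NrRel j k k')
    (ρ : Matrix (Box n L) (Box n L) ℂ) (l : Box n L) :
    (ann L j * ρ) k l = ((√((k' j : ℕ) : ℝ) : ℝ) : ℂ) * ρ k' l := by
  rw [mul_apply, Finset.sum_eq_single k']
  · rw [nr_ann_apply, if_pos ⟨h.1, h.2⟩]
  · intro m _ hm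
    rw [nr_ann_apply, if_neg, zero_mul]
    rintro ⟨h1, h2⟩
    apply hm
    funext i
    by_cases hi : i = j
    · subst hi; exact Fin.ext (h1.trans h.1.symm)
    · rw [h2 i hi, h.2 i hi]
  · simp

lemma nr_mul_ann {j : Fin n} {k k' : Box n L} (h : NrRel j k k')
    (ρ : Matrix (Box n L) (Box n L) ℂ) (l : Box n L) :
    (ρ * ann L j) l k' = ρ l k * ((√((k' j : ℕ) : ℝ) : ℝ) : ℂ) := by
  rw [mul_apply, Finset.sum_eq_single k]
  · rw [nr_ann_apply, if_pos ⟨h.1, h.2⟩]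
  · intro m _ hm
    rw [nr_ann_apply, if_neg, mul_zero]
    rintro ⟨h1, h2⟩
    apply hm
    funext i
    by_cases hi : i = j
    · subst hi
      have := h1.symm.trans h.1
      exact Fin.ext (by omega)
    · rw [← h2 i hi, h.2 i hi]
  · simp

lemma nr_diag_re {ρ : Matrix (Box n L) (Box n L) ℂ} (h : ρ.PosSemidef) (k : Box n L) :
    ρ k k = ((ρ k k).re : ℂ) ∧ 0 ≤ (ρ k k).re := by
  have h1 : 0 ≤ ρ k k := h.diag_nonneg
  rw [Complex.nonneg_iff] at h1
  refine ⟨Complex.ext (by simp) (by simp [← h1.2]), h1.1⟩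

lemma nr_step {t μ : ℝ} (ht : 0 < t) {ρ : Matrix (Box n L) (Box n L) ℂ} (hρ : ρ.PosSemidef)
    {j : Fin n} (hμ : ‖del t ρ (ann L j)‖ ≤ μ) {k k' : Box n L} (h : NrRel j k k') :
    |(ρ k' k').re - t / (t + 1) * (ρ k k).re| ≤ μ := by
  have h1 := (norm_entry_le (del t ρ (ann L j)) k k').trans hμ
  have h2 : del t ρ (ann L j) k k' =
      (((√((k' j : ℕ) : ℝ)) * ((t + 1) * (ρ k' k').re - t * (ρ k k).re) : ℝ) : ℂ) := by
    simp only [del, Matrix.sub_apply, Matrix.smul_apply]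
    rw [nr_ann_mul h, nr_mul_ann h, (nr_diag_re hρ k).1, (nr_diag_re hρ k').1]
    simp only [Complex.real_smul, Complex.ofReal_re]
    push_cast
    ring
  rw [h2, Complex.norm_real, Real.norm_eq_abs, abs_mul, abs_of_nonneg (Real.sqrt_nonneg _)] at h1
  have h3 : 1 ≤ √((k' j : ℕ) : ℝ) := by
    rw [Real.one_le_sqrt, h.1]; push_cast; linarith [(Nat.cast_nonneg (k j : ℕ) : (0 : ℝ) ≤ _)]
  have h4 : |(t + 1) * (ρ k' k').re - t * (ρ k k).re| ≤ μ :=
    (le_mul_of_one_le_left (abs_nonneg _) h3).trans h1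
  have h5 : (ρ k' k').re - t / (t + 1) * (ρ k k).re =
      (1 / (t + 1)) * ((t + 1) * (ρ k' k').re - t * (ρ k k).re) := by field_simp
  rw [h5, abs_mul, abs_of_pos (by positivity)]
  have h6 : 1 / (t + 1) ≤ 1 := by rw [div_le_one (by positivity)]; linarith
  exact (mul_le_of_le_one_left (abs_nonneg _) h6).trans h4

lemma nr_diag {t μ : ℝ} (ht : 0 < t) {ρ : Matrix (Box n L) (Box n L) ℂ} (hρ : ρ.PosSemidef)
    (hμ : ∀ j, ‖del t ρ (ann L j)‖ ≤ μ) (m : ℕ) :
    ∀ k : Box n L, tot k = m →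
      |(ρ k k).re - (t / (t + 1)) ^ m * (ρ 0 0).re| ≤ m * μ := by
  induction m with
  | zero =>
    intro k hk
    have : k = 0 := by
      funext j
      have := (Finset.sum_eq_zero_iff.mp hk) j (Finset.mem_univ _)
      exact Fin.ext this
    simp [this]
  | succ m ih =>
    intro k hk
    obtain ⟨j, hj⟩ : ∃ j, (k j : ℕ) ≠ 0 := by
      by_contra hc
      push Not at hc
      have : tot k = 0 := Finset.sum_eq_zero fun j _ => hc j
      omega
    set k0 : Box n L := Function.update k j ⟨(k j : ℕ) - 1, by have := (k j).2; omega⟩ with hk0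
    have hrel : NrRel j k0 k := by
      refine ⟨?_, fun i hi => ?_⟩
      · simp only [hk0, Function.update_self]; omega
      · simp only [hk0, Function.update_of_ne hi]
    have htot : tot k0 = m := by
      have e1 : tot k = (k j : ℕ) + ∑ i ∈ Finset.univ.erase j, (k i : ℕ) :=
        (Finset.add_sum_erase _ _ (Finset.mem_univ j)).symm
      have e2 : tot k0 = (k0 j : ℕ) + ∑ i ∈ Finset.univ.erase j, (k0 i : ℕ) :=
        (Finset.add_sum_erase _ _ (Finset.mem_univ j)).symm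
      have e3 : ∑ i ∈ Finset.univ.erase j, (k0 i : ℕ) = ∑ i ∈ Finset.univ.erase j, (k i : ℕ) :=
        Finset.sum_congr rfl fun i hi => by rw [hrel.2 i (Finset.ne_of_mem_erase hi)]
      have := hrel.1
      omega
    have h1 := ih k0 htot
    have h2 := nr_step ht hρ (hμ j) hrel
    have hq0 : 0 ≤ t / (t + 1) := by positivity
    have hq1 : t / (t + 1) ≤ 1 := by rw [div_le_one (by positivity)]; linarith
    have e : (ρ k k).re - (t / (t + 1)) ^ (m + 1) * (ρ 0 0).re =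
        ((ρ k k).re - t / (t + 1) * (ρ k0 k0).re) +
          t / (t + 1) * ((ρ k0 k0).re - (t / (t + 1)) ^ m * (ρ 0 0).re) := by ring
    rw [e]
    refine (abs_add_le _ _).trans ?_
    rw [abs_mul, abs_of_nonneg hq0]
    have h3 := mul_le_of_le_one_left (abs_nonneg ((ρ k0 k0).re - (t / (t + 1)) ^ m * (ρ 0 0).re)) hq1
    push_cast
    linarith

/-- the shift partial isometry -/
noncomputable def nrE (L : ℕ) (j : Fin n) : Matrix (Box n L) (Box n L) ℂ :=
  ann L j * rdiag fun k => (√((k j : ℕ) : ℝ))⁻¹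

lemma nrE_opLe (j : Fin n) : OpLe (nrE L j) 1 := by
  rw [opLe_iff_psd zero_le_one]
  have : (nrE L j)ᴴ * nrE L j =
      rdiag fun k : Box n L => (√((k j : ℕ) : ℝ))⁻¹ * ((k j : ℕ) : ℝ) * (√((k j : ℕ) : ℝ))⁻¹ := by
    unfold nrE
    rw [conjTranspose_mul, rdiag_ct, Matrix.mul_assoc, ← Matrix.mul_assoc (ann L j)ᴴ, ann_ct_mul,
      rdiag_mul, rdiag_mul]
    congr 1; funext k; ring
  rw [this, ← rdiag_const, rdiag_sub, rdiag_psd_iff]
  intro k
  rcases Nat.eq_zero_or_pos (k j : ℕ) with h | h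
  · simp [h]
  · have h1 : (0 : ℝ) < ((k j : ℕ) : ℝ) := by exact_mod_cast h
    have h2 : 0 < √((k j : ℕ) : ℝ) := Real.sqrt_pos.mpr h1
    have h3 := Real.mul_self_sqrt h1.le
    have : (√((k j : ℕ) : ℝ))⁻¹ * ((k j : ℕ) : ℝ) * (√((k j : ℕ) : ℝ))⁻¹ = 1 := by
      field_simp; nlinarith
    rw [this]; norm_num

lemma nr_ann_eq (j : Fin n) :
    ann L j = nrE L j * rdiag fun k : Box n L => √((k j : ℕ) : ℝ) := by
  unfold nrE
  rw [Matrix.mul_assoc, rdiag_mul]
  ext k k'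
  simp only [rdiag, mul_diagonal, nr_ann_apply]
  split_ifs with h
  · have h1 : (0 : ℝ) < ((k' j : ℕ) : ℝ) := by rw [h.1]; positivity
    have h2 : 0 < √((k' j : ℕ) : ℝ) := Real.sqrt_pos.mpr h1
    rw [inv_mul_cancel₀ h2.ne']; simp
  · simp

lemma nr_comm {t : ℝ} {ρ : Matrix (Box n L) (Box n L) ℂ} (hρ : ρ.IsHermitian) (j : Fin n)
    (k l : Box n L) :
    (((t + 1) * (((k j : ℕ) : ℝ) - ((l j : ℕ) : ℝ)) : ℝ) : ℂ) * ρ k l =
      ((√((k j : ℕ) : ℝ) : ℝ) : ℂ) * ((nrE L j)ᴴ * del t ρ (ann L j)) k l -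
        star (((nrE L j)ᴴ * del t ρ (ann L j)) l k) * ((√((l j : ℕ) : ℝ) : ℝ) : ℂ) := by
  have e1 : (ann L j)ᴴ * del t ρ (ann L j) - (del t ρ (ann L j))ᴴ * ann L j =
      (t + 1) • ((rdiag fun k : Box n L => ((k j : ℕ) : ℝ)) * ρ -
        ρ * rdiag fun k : Box n L => ((k j : ℕ) : ℝ)) := by
    rw [← ann_ct_mul]
    simp only [del, conjTranspose_sub, conjTranspose_smul, conjTranspose_mul, hρ.eq, star_trivial,
      Matrix.mul_sub, Matrix.sub_mul, Matrix.mul_smul, Matrix.smul_mul, Matrix.mul_assoc, smul_sub]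
    abel
  have e2 : (ann L j)ᴴ * del t ρ (ann L j) =
      (rdiag fun k : Box n L => √((k j : ℕ) : ℝ)) * ((nrE L j)ᴴ * del t ρ (ann L j)) := by
    conv_lhs => rw [nr_ann_eq j, conjTranspose_mul, rdiag_ct]
    rw [← nr_ann_eq, Matrix.mul_assoc]
  have e3 : (del t ρ (ann L j))ᴴ * ann L j =
      ((nrE L j)ᴴ * del t ρ (ann L j))ᴴ * rdiag fun k : Box n L => √((k j : ℕ) : ℝ) := by
    rw [conjTranspose_mul, conjTranspose_conjTranspose, Matrix.mul_assoc, ← nr_ann_eq]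
  rw [e2, e3] at e1
  have := congrFun (congrFun e1 k) l
  simp only [rdiag, Matrix.sub_apply, Matrix.smul_apply, diagonal_mul, mul_diagonal,
    conjTranspose_apply, Complex.real_smul] at this
  rw [this]
  push_cast
  ring

lemma nr_off_entry {t : ℝ} (ht : 0 < t) {ρ : Matrix (Box n L) (Box n L) ℂ} (hρ : ρ.IsHermitian)
    {R : ℕ} {k l : Box n L} (hk : ∀ j, (k j : ℕ) ≤ R) (hkl : l ≠ k) :
    ‖ρ k l‖ ^ 2 ≤ ∑ j, (2 * R + 2) * (‖((nrE L j)ᴴ * del t ρ (ann L j)) k l‖ ^ 2 +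
      ‖((nrE L j)ᴴ * del t ρ (ann L j)) l k‖ ^ 2) := by
  obtain ⟨j, hj⟩ : ∃ j, l j ≠ k j := by
    by_contra hc
    push Not at hc
    exact hkl (funext hc)
  refine le_trans ?_ (Finset.single_le_sum (f := fun j => (2 * (R : ℝ) + 2) *
    (‖((nrE L j)ᴴ * del t ρ (ann L j)) k l‖ ^ 2 + ‖((nrE L j)ᴴ * del t ρ (ann L j)) l k‖ ^ 2))
    (fun j _ => by positivity) (Finset.mem_univ j))
  have h := congrArg norm (nr_comm (t := t) hρ j k l)
  set x := ‖((nrE L j)ᴴ * del t ρ (ann L j)) k l‖ with hx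
  set y := ‖((nrE L j)ᴴ * del t ρ (ann L j)) l k‖ with hy
  have hx0 : 0 ≤ x := norm_nonneg _
  have hy0 : 0 ≤ y := norm_nonneg _
  set a : ℝ := ((k j : ℕ) : ℝ) with ha
  set b : ℝ := ((l j : ℕ) : ℝ) with hb
  have ha0 : 0 ≤ a := Nat.cast_nonneg _
  have hb0 : 0 ≤ b := Nat.cast_nonneg _
  have haR : a ≤ R := by rw [ha]; exact_mod_cast hk j
  have h1 : (t + 1) * |a - b| * ‖ρ k l‖ ≤ √a * x + y * √b := by
    rw [norm_mul, Complex.norm_real, Real.norm_eq_abs, abs_mul, abs_of_pos (by positivity)] at h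
    rw [h]
    refine (norm_sub_le _ _).trans (le_of_eq ?_)
    rw [norm_mul, norm_mul, norm_star, Complex.norm_real, Complex.norm_real, Real.norm_eq_abs,
      Real.norm_eq_abs, abs_of_nonneg (Real.sqrt_nonneg _), abs_of_nonneg (Real.sqrt_nonneg _)]
  have h2 : |a - b| * ‖ρ k l‖ ≤ √a * x + y * √b := by
    refine le_trans ?_ h1
    have : 0 ≤ |a - b| * ‖ρ k l‖ := by positivity
    nlinarith
  have h3 : (a - b) ^ 2 * ‖ρ k l‖ ^ 2 ≤ 2 * a * x ^ 2 + 2 * b * y ^ 2 := by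
    have := pow_le_pow_left₀ (by positivity) h2 2
    rw [mul_pow, sq_abs] at this
    have ea := Real.sq_sqrt ha0
    have eb := Real.sq_sqrt hb0
    nlinarith [sq_nonneg (√a * x - y * √b)]
  have hne : (k j : ℕ) ≠ l j := fun e => hj (Fin.ext e.symm)
  have h4 : 1 ≤ (a - b) ^ 2 ∧ b ≤ (a + 1) * (a - b) ^ 2 := by
    rcases lt_or_gt_of_ne hne with h' | h'
    · have : a + 1 ≤ b := by rw [ha, hb]; exact_mod_cast h'
      constructor
      · nlinarith
      · obtain ⟨d, hd⟩ : ∃ d, b = a + 1 + d := ⟨b - a - 1, by ring⟩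
        have hd0 : 0 ≤ d := by linarith
        rw [hd]
        nlinarith [mul_nonneg ha0 hd0, mul_nonneg ha0 (sq_nonneg d), sq_nonneg d]
    · have : b + 1 ≤ a := by rw [ha, hb]; exact_mod_cast h'
      have h5 : 1 ≤ (a - b) ^ 2 := by nlinarith
      exact ⟨h5, by nlinarith⟩
  have h5 : (a - b) ^ 2 * ‖ρ k l‖ ^ 2 ≤ (a - b) ^ 2 * ((2 * R + 2) * (x ^ 2 + y ^ 2)) := by
    have i1 : 2 * a * x ^ 2 ≤ (a - b) ^ 2 * ((2 * R + 2) * x ^ 2) := by
      have : 2 * a ≤ (a - b) ^ 2 * (2 * R + 2) := by nlinarith [h4.1]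
      nlinarith [sq_nonneg x]
    have i2 : 2 * b * y ^ 2 ≤ (a - b) ^ 2 * ((2 * R + 2) * y ^ 2) := by
      have : 2 * b ≤ (a - b) ^ 2 * (2 * R + 2) := by nlinarith [h4.1, h4.2]
      nlinarith [sq_nonneg y]
    nlinarith
  exact le_of_mul_le_mul_left h5 (by linarith [h4.1])

lemma nr_off_sum {t μ : ℝ} (ht : 0 < t) {ρ : Matrix (Box n L) (Box n L) ℂ} (hρ : ρ.IsHermitian)
    (hμ : ∀ j, ‖del t ρ (ann L j)‖ ≤ μ) (R : ℕ) :
    ∑ k ∈ Finset.univ.filter (fun k : Box n L => ∀ j, (k j : ℕ) ≤ R),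
      ∑ l ∈ Finset.univ.erase k, ‖ρ k l‖ ^ 2 ≤ n * ((4 * R + 4) * μ ^ 2) := by
  set X : Fin n → Matrix (Box n L) (Box n L) ℂ := fun j => (nrE L j)ᴴ * del t ρ (ann L j) with hX
  have hXn : ∀ j, ‖X j‖ ^ 2 ≤ μ ^ 2 := fun j => by
    have : ‖X j‖ ≤ μ := ((nrE_opLe (L := L) j).ct.norm_mul_le (del t ρ (ann L j))).trans
      (by rw [one_mul]; exact hμ j)
    exact pow_le_pow_left₀ (norm_nonneg _) this 2
  calc _ ≤ ∑ k : Box n L, ∑ l : Box n L, ∑ j, (2 * (R : ℝ) + 2) * (‖X j k l‖ ^ 2 + ‖X j l k‖ ^ 2) := by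
        refine le_trans (Finset.sum_le_sum fun k hk => ?_)
          (Finset.sum_le_sum_of_subset_of_nonneg (Finset.subset_univ _) fun k _ _ => by positivity)
        refine le_trans (Finset.sum_le_sum fun l hl => ?_)
          (Finset.sum_le_sum_of_subset_of_nonneg (Finset.subset_univ (Finset.univ.erase k))
            fun l _ _ => by positivity)
        exact nr_off_entry ht hρ (Finset.mem_filter.mp hk).2 (Finset.ne_of_mem_erase hl)
    _ = ∑ j, (2 * (R : ℝ) + 2) * (‖X j‖ ^ 2 + ‖X j‖ ^ 2) := by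
        rw [Finset.sum_congr rfl fun k _ => Finset.sum_comm, Finset.sum_comm]
        refine Finset.sum_congr rfl fun j _ => ?_
        simp only [← Finset.mul_sum, Finset.sum_add_distrib]
        rw [norm_sq_eq_sum, Finset.sum_comm (f := fun k l => ‖X j l k‖ ^ 2)]
    _ ≤ ∑ _j : Fin n, (4 * (R : ℝ) + 4) * μ ^ 2 := Finset.sum_le_sum fun j _ => by
        have := hXn j
        nlinarith [(Nat.cast_nonneg R : (0 : ℝ) ≤ R)]
    _ = _ := by simp

lemma nr_geom (q : ℝ) {R : ℕ} (hR : R ≤ L) :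
    (1 - q) ^ n * ∑ k ∈ Finset.univ.filter (fun k : Box n L => ∀ j, (k j : ℕ) ≤ R), q ^ tot k =
      (1 - q ^ (R + 1)) ^ n := by
  have e1 : Finset.univ.filter (fun k : Box n L => ∀ j, (k j : ℕ) ≤ R) =
      Fintype.piFinset fun _ : Fin n => Finset.univ.filter fun i : Fin (L + 1) => (i : ℕ) ≤ R := by
    ext k; simp
  have e2 : ∑ i ∈ Finset.univ.filter (fun i : Fin (L + 1) => (i : ℕ) ≤ R), q ^ (i : ℕ) =
      ∑ i ∈ Finset.range (R + 1), q ^ i := by
    rw [Finset.sum_filter, Fin.sum_univ_eq_sum_range (fun i => if i ≤ R then q ^ i else 0) (L + 1),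
      ← Finset.sum_filter]
    congr 1
    ext i; simp; omega
  rw [e1]
  simp only [tot, ← Finset.prod_pow_eq_pow_sum]
  rw [← Finset.prod_univ_sum (fun _ : Fin n => Finset.univ.filter fun i : Fin (L + 1) => (i : ℕ) ≤ R)
    (fun _ i => q ^ (i : ℕ)), e2, Finset.prod_const, Finset.card_univ, Fintype.card_fin, ← mul_pow,
    mul_neg_geom_sum]

lemma nr_card (R : ℕ) :
    ((Finset.univ.filter (fun k : Box n L => ∀ j, (k j : ℕ) ≤ R)).card : ℝ) ≤ ((R : ℝ) + 1) ^ n := by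
  have e1 : Finset.univ.filter (fun k : Box n L => ∀ j, (k j : ℕ) ≤ R) =
      Fintype.piFinset fun _ : Fin n => Finset.univ.filter fun i : Fin (L + 1) => (i : ℕ) ≤ R := by
    ext k; simp
  have e2 : (Finset.univ.filter fun i : Fin (L + 1) => (i : ℕ) ≤ R).card ≤ R + 1 := by
    have := Finset.card_le_card_of_injOn (s := Finset.univ.filter fun i : Fin (L + 1) => (i : ℕ) ≤ R)
      (t := Finset.range (R + 1)) (fun i => (i : ℕ))
      (fun i hi => by simp at hi ⊢; omega) (fun i _ i' _ h => Fin.ext h)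
    simpa using this
  rw [e1, Fintype.card_piFinset, Finset.prod_const, Finset.card_univ, Fintype.card_fin]
  exact_mod_cast Nat.pow_le_pow_left e2 n

end Crest.Agent.R331
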