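import Crest.Agent.R331.Hoeff
import Crest.Agent.R331.Ent

/-!
Row 331: the two beam-splitter pairings with boundary errors (task PAIR).
Write `σ = ρA ⊗ ρB`, `â = a ⊗ 1`, `b̂ = 1 ⊗ b`, `ĉ = √η â + √(1-η) b̂`, `Q = Qa ⊗ 1`,
`⟪X⟫ = trace (σ * X)`, `D_a(Y) = √η Θ[c,Y] - [â, ΘY]`; `h2a` says `D_a(Y) = Q D_a(Y)`, and
`OpLe Y r → OpLe (D_a Y) (4 R r)`.
(The A/B symmetry can be used through `Matrix.submatrix _ Prod.swap Prod.swap`, or do both by hand.)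
-/

set_option autoImplicit false
set_option linter.unusedSectionVars false

open Matrix Set Filter Topology Crest.Agent.R342 Crest.Agent.R332 Crest.MathPhysics.Bosonic
open scoped ComplexOrder Kronecker Matrix.Norms.Frobenius

namespace Crest.Agent.R331

variable {ι ι' κ : Type} [Fintype ι] [DecidableEq ι] [Fintype ι'] [DecidableEq ι']
  [Fintype κ] [DecidableEq κ]

lemma pair_ip_del (W ρ x : Matrix ι ι ℂ) (t : ℝ) :
    ip W (del t ρ x) = trace (ρ * (Wᴴ * x)) - t * trace (ρ * comm x Wᴴ) := by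
  have h1 : trace (Wᴴ * (x * ρ)) = trace (ρ * (Wᴴ * x)) := by
    rw [← Matrix.mul_assoc, trace_mul_comm]
  have h2 : trace (Wᴴ * (ρ * x)) = trace (ρ * (x * Wᴴ)) := by
    rw [trace_mul_comm, Matrix.mul_assoc]
  simp only [ip, del, R332.comm, Matrix.mul_sub, Matrix.mul_smul, trace_sub, trace_smul, h1, h2,
    Complex.real_smul]
  push_cast
  ring

lemma pair_ip_rsmul_left (s : ℝ) (X Y : Matrix ι ι ℂ) : ip (s • X) Y = s * ip X Y := by
  simp [ip, conjTranspose_smul]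

lemma pair_ip_rsmul_right (s : ℝ) (X Y : Matrix ι ι ℂ) : ip X (s • Y) = s * ip X Y := by
  simp [ip]

lemma pair_ip_sub_left (X X' Y : Matrix ι ι ℂ) : ip (X - X') Y = ip X Y - ip X' Y := by
  simp [ip, conjTranspose_sub, Matrix.sub_mul]

lemma pair_ip_one (s : ℂ) (Y : Matrix ι ι ℂ) :
    ip (s • (1 : Matrix ι ι ℂ)) Y = star s * trace Y := by
  simp [ip, conjTranspose_smul]

lemma pair_opLe_comm {x Y : Matrix ι ι ℂ} {R r : ℝ} (hx : OpLe x R) (hY : OpLe Y r) :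
    OpLe (comm x Y) (2 * R * r) :=
  ((hx.mul hY).sub (hY.mul hx)).mono (le_of_eq (by ring))

/-- the data of one of the two tensor factors -/
structure pair_Side (σ ah Qh : Matrix κ κ ℂ) (P : Matrix κ κ ℂ →ₗ[ℂ] Matrix ι ι ℂ)
    (ρ a Q : Matrix ι ι ℂ) (R : ℝ) : Prop where
  la : ∀ Y, P (ah * Y) = a * P Y
  ra : ∀ Y, P (Y * ah) = P Y * a
  lq : ∀ Y, P (Qh * Y) = Q * P Y
  rq : ∀ Y, P (Y * Qh) = P Y * Q
  ct : ∀ Y, P Yᴴ = (P Y)ᴴ
  tr : ∀ Y, trace (ρ * P Y) = trace (σ * Y)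
  op : OpLe ah R
  herm : Qhᴴ = Qh
  idem : Qh * Qh = Qh
  req : rtr (σ * Qh) = rtr (ρ * Q)
  dens : Dens σ
  herm' : Qᴴ = Q
  mul' : Q * a = 0

lemma pair_sideA {ρA a Qa : Matrix ι ι ℂ} {ρB : Matrix ι' ι' ℂ} {R : ℝ} (hA : Dens ρA)
    (hB : Dens ρB) (ha : OpLe a R) (h1 : Qaᴴ = Qa) (h2 : Qa * Qa = Qa) (h3 : Qa * a = 0) :
    pair_Side (ρA ⊗ₖ ρB) (a ⊗ₖ (1 : Matrix ι' ι' ℂ)) (Qa ⊗ₖ (1 : Matrix ι' ι' ℂ)) (pAL ρB)
      ρA a Qa R where
  la := pA_left ρB a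
  ra := pA_right ρB a
  lq := pA_left ρB Qa
  rq := pA_right ρB Qa
  ct := pA_ct hB.1.isHermitian
  tr := trace_pA ρA ρB
  op := opLe_kron_left ha
  herm := by rw [conjTranspose_kronecker, h1, conjTranspose_one]
  idem := by rw [← mul_kronecker_mul, h2, Matrix.mul_one]
  req := by
    unfold rtr
    rw [← mul_kronecker_mul, Matrix.mul_one, trace_kronecker, hB.2, mul_one]
  dens := dens_kron hA hB
  herm' := h1
  mul' := h3

lemma pair_sideB {ρA : Matrix ι ι ℂ} {ρB b Qb : Matrix ι' ι' ℂ} {R : ℝ} (hA : Dens ρA)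
    (hB : Dens ρB) (hb : OpLe b R) (h1 : Qbᴴ = Qb) (h2 : Qb * Qb = Qb) (h3 : Qb * b = 0) :
    pair_Side (ρA ⊗ₖ ρB) ((1 : Matrix ι ι ℂ) ⊗ₖ b) ((1 : Matrix ι ι ℂ) ⊗ₖ Qb) (pBL ρA)
      ρB b Qb R where
  la := pB_left ρA b
  ra := pB_right ρA b
  lq := pB_left ρA Qb
  rq := pB_right ρA Qb
  ct := pB_ct hA.1.isHermitian
  tr := trace_pB ρA ρB
  op := opLe_kron_right hb
  herm := by rw [conjTranspose_kronecker, h1, conjTranspose_one]
  idem := by rw [← mul_kronecker_mul, h2, Matrix.mul_one]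
  req := by
    unfold rtr
    rw [← mul_kronecker_mul, Matrix.mul_one, trace_kronecker, hA.2, one_mul]
  dens := dens_kron hA hB
  herm' := h1
  mul' := h3

section side
variable {σ ah Qh : Matrix κ κ ℂ} {P : Matrix κ κ ℂ →ₗ[ℂ] Matrix ι ι ℂ} {ρ a Q : Matrix ι ι ℂ}
  {R : ℝ}

lemma pair_Side.comm_eq (h : pair_Side σ ah Qh P ρ a Q R) (Y : Matrix κ κ ℂ) :
    P (comm ah Y) = comm a (P Y) := by
  simp only [R332.comm, map_sub, h.la, h.ra]

lemma pair_Side.ip_eq (h : pair_Side σ ah Qh P ρ a Q R) (t : ℝ) (X : Matrix κ κ ℂ) :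
    ip (P X) (del t ρ a) = trace (σ * (Xᴴ * ah)) - t * trace (σ * comm ah Xᴴ) := by
  rw [pair_ip_del, ← h.ct, ← h.ra, ← h.comm_eq, h.tr, h.tr]

lemma pair_Side.err (h : pair_Side σ ah Qh P ρ a Q R) {W V : Matrix κ κ ℂ} {e r : ℝ}
    (he : e ≤ 1) (hW : OpLe W r) (hV : OpLe V (2 * R * r))
    (h0 : (1 - Qh) * (comm ah W - √e • V) = 0) :
    ∃ E, comm ah W = √e • V + Qh * E ∧ OpLe E (4 * R * r) := by
  refine ⟨comm ah W - √e • V, ?_, ?_⟩
  · rw [Matrix.sub_mul, Matrix.one_mul, sub_eq_zero] at h0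
    rw [← h0]
    abel
  · refine ((pair_opLe_comm h.op hW).sub (hV.smul √e)).mono ?_
    have h1 : |√e| ≤ 1 := by
      rw [abs_of_nonneg (Real.sqrt_nonneg e)]
      exact Real.sqrt_le_one.2 he
    have h2 := mul_le_mul_of_nonneg_right h1 hV.1
    linarith

lemma pair_Side.ip_err (h : pair_Side σ ah Qh P ρ a Q R) {t : ℝ} (ht : 0 ≤ t)
    {E : Matrix κ κ ℂ} {r : ℝ} (hE : OpLe E r) :
    ‖ip (Q * P E) (del t ρ a)‖ ≤ t * (√(rtr (ρ * Q)) * (R * r)) := by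
  have h1 : (Q * P E)ᴴ * a = 0 := by
    rw [conjTranspose_mul, h.herm', Matrix.mul_assoc, h.mul', Matrix.mul_zero]
  have h2 : a * (Q * P E)ᴴ = P (ah * Eᴴ * Qh) := by
    rw [h.rq, h.la, h.ct, conjTranspose_mul, h.herm', Matrix.mul_assoc]
  rw [pair_ip_del, R332.comm, h1, h2, sub_zero, h.tr, Matrix.mul_zero, trace_zero, zero_sub, norm_neg,
    norm_mul, Complex.norm_real, Real.norm_of_nonneg ht, ← h.req]
  exact mul_le_mul_of_nonneg_left (bd_right h.dens h.herm h.idem (h.op.mul hE.ct)) ht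

/-- the expansion of one side at a critical point -/
lemma pair_Side.expand (h : pair_Side σ ah Qh P ρ a Q R) {t e β γ γ' lam s r : ℝ} (ht : 0 < t)
    (he0 : 0 ≤ e) (he : e ≤ 1) {W V C : Matrix κ κ ℂ} {Y : Matrix ι ι ℂ} {m : ℂ}
    (hW : OpLe W r) (hV : OpLe V (2 * R * r)) (h0 : (1 - Qh) * (comm ah W - √e • V) = 0)
    (hC : P C = √e • a + s • (m • (1 : Matrix ι ι ℂ)))
    (hl : lam * bet t = 2 * γ * β + (1 - γ) * e * β)
    (el : lam • comm a (Hm ρ) = (1 - γ) • comm a (P W) + (2 * γ * β) • a + γ' • Y) :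
    ∃ x : ℝ, |x| ≤ t * (√(rtr (ρ * Q)) * (R * (4 * R * r))) ∧
      (1 - γ) * (√e * (ip (P (V - β • C)) (del t ρ a)).re) =
        -(lam * fis t ρ a) - γ' * (ip Y (del t ρ a)).re
          - (1 - γ) * β * (√e * s) * (star m * trace (ρ * a)).re - (1 - γ) * x := by
  obtain ⟨E, hE, hE'⟩ := h.err he hW hV h0
  refine ⟨(ip (Q * P E) (del t ρ a)).re,
    (Complex.abs_re_le_norm _).trans (h.ip_err ht.le hE'), ?_⟩
  have h1 : √e • P V = comm a (P W) - Q * P E := by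
    rw [← h.comm_eq, hE, map_add, h.lq, LinearMap.map_smul_of_tower]
    abel
  have h2 : (1 - γ) • comm a (P W) = lam • comm a (Hm ρ) - (2 * γ * β) • a - γ' • Y := by
    rw [el]; abel
  have hee : √e * √e = e := Real.mul_self_sqrt he0
  have h3 : ((1 - γ) * √e) • P (V - β • C) = lam • zed t ρ a - γ' • Y
      - ((1 - γ) * β * (√e * s)) • (m • (1 : Matrix ι ι ℂ)) - (1 - γ) • (Q * P E) := by
    have h4 : ((1 - γ) * √e) • P (V - β • C) =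
        (1 - γ) • (√e • P V) - ((1 - γ) * √e * β) • P C := by
      rw [map_sub, LinearMap.map_smul_of_tower, smul_sub, smul_smul, smul_smul]
    have h5 : lam • zed t ρ a = lam • comm a (Hm ρ) - (2 * γ * β + (1 - γ) * e * β) • a := by
      rw [zed, smul_sub, smul_smul, hl]
    have h6 : ((1 - γ) * √e * β) • (√e • a) = ((1 - γ) * e * β) • a := by
      rw [smul_smul]
      congr 1
      linear_combination (1 - γ) * β * hee
    rw [h4, h1, smul_sub, h2, hC, h5, smul_add, h6]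
    module
  have h7 := congrArg (fun X => (ip X (del t ρ a)).re) h3
  simp only [pair_ip_sub_left, pair_ip_rsmul_left, pair_ip_one, trace_del, Complex.sub_re,
    Complex.re_ofReal_mul] at h7
  unfold fis
  linear_combination h7

end side

/-- With `Y = Zᴴ`: `ip Z δC = (tc+1) ⟪Θ(Y c)⟫ - tc ⟪Θ(c Y)⟫ = ⟪Θ(Y) ĉ⟫ - tc ⟪Θ[c,Y]⟫`, and
`√η ip (pA ρB (ΘZ)) δA = √η ⟪Θ(Y) â⟫ - √η tA ⟪[â,ΘY]⟫ = √η ⟪Θ(Y) â⟫ - η tA ⟪Θ[c,Y]⟫ + √η tA ⟪Q D_a(Y)⟫`;
same for `B`; add, use `tc = η tA + (1-η) tB` and `bd_left`. -/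
theorem pair_del {η tA tB R r : ℝ} {Θ : Matrix κ κ ℂ →ₗ[ℂ] Matrix (ι × ι') (ι × ι') ℂ}
    {ρA a Qa : Matrix ι ι ℂ} {ρB b Qb : Matrix ι' ι' ℂ} {ρC c : Matrix κ κ ℂ}
    (hη0 : 0 ≤ η) (hη1 : η ≤ 1) (htA : 0 ≤ tA) (htB : 0 ≤ tB) (hΘ : Chan Θ)
    (hm : Mode η Θ a Qa b Qb c) (hA : Dens ρA) (hB : Dens ρB)
    (hC : ∀ Z, trace (ρC * Z) = trace ((ρA ⊗ₖ ρB) * Θ Z))
    (ha : OpLe a R) (hb : OpLe b R) (hc : OpLe c R) {Z : Matrix κ κ ℂ} (hZ : OpLe Z r) :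
    ‖ip Z (del (tC η tA tB) ρC c) - (√η : ℝ) * ip (pA ρB (Θ Z)) (del tA ρA a)
      - (√(1 - η) : ℝ) * ip (pB ρA (Θ Z)) (del tB ρB b)‖ ≤
      4 * R * r * (tA * √(rtr (ρA * Qa)) + tB * √(rtr (ρB * Qb))) := by
  have sA := pair_sideA hA hB ha hm.qa_herm hm.qa_idem hm.qa_mul
  have sB := pair_sideB hA hB hb hm.qb_herm hm.qb_idem hm.qb_mul
  have hW : OpLe (Θ Zᴴ) r := hΘ.opLe hZ.ct
  have hV : OpLe (Θ (comm c Zᴴ)) (2 * R * r) := hΘ.opLe (pair_opLe_comm hc hZ.ct)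
  obtain ⟨Ea, hEa, hEa'⟩ := sA.err hη1 hW hV (hm.h2a Zᴴ)
  obtain ⟨Eb, hEb, hEb'⟩ := sB.err (by linarith) hW hV (hm.h2b Zᴴ)
  have eA := sA.ip_eq tA (Θ Z)
  have eB := sB.ip_eq tB (Θ Z)
  have bA := bd_left sA.dens sA.herm sA.idem hEa'
  have bB := bd_left sB.dens sB.herm sB.idem hEb'
  rw [sA.req] at bA
  rw [sB.req] at bB
  rw [pAL_apply, ← hΘ.star, hEa] at eA
  rw [pBL_apply, ← hΘ.star, hEb] at eB
  have eC := pair_ip_del Z ρC c (tC η tA tB)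
  rw [hC, hC, hm.h1] at eC
  simp only [Matrix.mul_add, Matrix.mul_smul, trace_add, trace_smul, Complex.real_smul]
    at eA eB eC
  have h1 : ((√η : ℝ) : ℂ) * (√η : ℝ) = η := by
    rw [← Complex.ofReal_mul, Real.mul_self_sqrt hη0]
  have h2 : ((√(1 - η) : ℝ) : ℂ) * (√(1 - η) : ℝ) = 1 - η := by
    rw [← Complex.ofReal_mul, Real.mul_self_sqrt (by linarith)]
    push_cast; ring
  have h3 : ((tC η tA tB : ℝ) : ℂ) = η * tA + (1 - η) * tB := by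
    unfold tC; push_cast; ring
  set xa := trace (ρA ⊗ₖ ρB * (Qa ⊗ₖ (1 : Matrix ι' ι' ℂ) * Ea)) with hxa
  set xb := trace (ρA ⊗ₖ ρB * ((1 : Matrix ι ι ℂ) ⊗ₖ Qb * Eb)) with hxb
  have key : ip Z (del (tC η tA tB) ρC c) - (√η : ℝ) * ip (pA ρB (Θ Z)) (del tA ρA a)
      - (√(1 - η) : ℝ) * ip (pB ρA (Θ Z)) (del tB ρB b) =
      (√η : ℝ) * (tA * xa) + (√(1 - η) : ℝ) * (tB * xb) := by
    rw [eA, eB, eC, h3]
    linear_combination (tA * trace (ρA ⊗ₖ ρB * Θ (comm c Zᴴ))) * h1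
      + (tB * trace (ρA ⊗ₖ ρB * Θ (comm c Zᴴ))) * h2
  rw [key]
  have n1 : ‖((√η : ℝ) : ℂ)‖ ≤ 1 := by
    rw [Complex.norm_real, Real.norm_of_nonneg (Real.sqrt_nonneg _)]
    exact Real.sqrt_le_one.2 hη1
  have n2 : ‖((√(1 - η) : ℝ) : ℂ)‖ ≤ 1 := by
    rw [Complex.norm_real, Real.norm_of_nonneg (Real.sqrt_nonneg _)]
    exact Real.sqrt_le_one.2 (by linarith)
  have m1 : ‖((√η : ℝ) : ℂ) * (tA * xa)‖ ≤ tA * (√(rtr (ρA * Qa)) * (4 * R * r)) := by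
    rw [norm_mul]
    refine (mul_le_of_le_one_left (norm_nonneg _) n1).trans ?_
    rw [norm_mul, Complex.norm_real, Real.norm_of_nonneg htA]
    exact mul_le_mul_of_nonneg_left bA htA
  have m2 : ‖((√(1 - η) : ℝ) : ℂ) * (tB * xb)‖ ≤ tB * (√(rtr (ρB * Qb)) * (4 * R * r)) := by
    rw [norm_mul]
    refine (mul_le_of_le_one_left (norm_nonneg _) n2).trans ?_
    rw [norm_mul, Complex.norm_real, Real.norm_of_nonneg htB]
    exact mul_le_mul_of_nonneg_left bB htB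
  refine (norm_add_le _ _).trans ?_
  linarith

section crit
variable {η tA tB γ γ' R : ℝ} {Θ : Matrix κ κ ℂ →ₗ[ℂ] Matrix (ι × ι') (ι × ι') ℂ}
  {ρA a Qa YA : Matrix ι ι ℂ} {ρB b Qb YB : Matrix ι' ι' ℂ} {ρC ω ρ' c : Matrix κ κ ℂ}

lemma Crit.fdens (h : Crit η tA tB γ γ' R Θ ρA a Qa YA ρB b Qb YB ρC ω ρ' c) : FDens ρ' := by
  rw [h.mix]; exact mix_fdens h.dC h.dω h.γ0 h.γ1

lemma Crit.del_mix (h : Crit η tA tB γ γ' R Θ ρA a Qa YA ρB b Qb YB ρC ω ρ' c) :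
    del (tC η tA tB) ρ' c = (1 - γ) • del (tC η tA tB) ρC c := by
  have h1 : del (tC η tA tB) ρ' c =
      (1 - γ) • del (tC η tA tB) ρC c + γ • del (tC η tA tB) ω c := by
    rw [h.mix]
    simp only [del, Matrix.mul_add, Matrix.add_mul, Matrix.mul_smul, Matrix.smul_mul]
    module
  rw [h1, h.delω, smul_zero, add_zero]

lemma Crit.opLe_zed (h : Crit η tA tB γ γ' R Θ ρA a Qa YA ρB b Qb YB ρC ω ρ' c) :
    OpLe (zed (tC η tA tB) ρ' c) ((2 + bet (tC η tA tB)) * R ^ 2) := by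
  have hβ := bet_pos (tC_pos h.η0.le h.η1.le h.tA0 h.tB0)
  refine ((pair_opLe_comm h.Rc h.RH).sub (h.Rc.smul (bet (tC η tA tB)))).mono ?_
  rw [abs_of_pos hβ]
  have h1 := h.R1
  have h2 : R ≤ R ^ 2 := by nlinarith
  nlinarith [mul_le_mul_of_nonneg_left h2 hβ.le]

/-- `Z' = zed tc ρ' c = [c,H'] - β c`.  `pA ρB (Θ c) = √η a + √(1-η) b̄` (`h1` at `Z = 1`), and
`√η pA ρB (Θ [c,H']) = [a, pA ρB (Θ H')] + Qa * pA ρB (D_a H')`; with `elA` and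
`λ_A β_A = 2γβ + (1-γ) η β`:
`(1-γ) √η pA ρB (Θ Z') = λ_A Z_A - γ' YA - (1-γ) β √η √(1-η) b̄ • 1 + (1-γ) Qa * pA ρB (D_a H')`.
Pair with `δA`: `ip Z_A δA = -fis` (real part), `ip (b̄ • 1) δA = conj b̄ * α` (`trace_del`), and as
`Qa * a = 0`, `ip (Qa * pA D) δA = -tA ⟪â Dᴴ Q⟫`, bounded by `bd_right` (`4 R³ tA √pA`).
Same for `B`; combine with `pair_del` at `Z'` (`4 R (2+β) R²`) and `del_mix`. -/
theorem Crit.fis_expand (h : Crit η tA tB γ γ' R Θ ρA a Qa YA ρB b Qb YB ρC ω ρ' c) :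
    |fis (tC η tA tB) ρ' c - (lamr η tA (tC η tA tB) γ * fis tA ρA a
      + lamr (1 - η) tB (tC η tA tB) γ * fis tB ρB b
      + γ' * ((ip YA (del tA ρA a)).re + (ip YB (del tB ρB b)).re)
      + (1 - γ) * bet (tC η tA tB) * (2 * √η * √(1 - η) *
          (star (trace (ρA * a)) * trace (ρB * b)).re))| ≤
      (12 + 4 * bet (tC η tA tB)) * R ^ 3 * (tA * √(rtr (ρA * Qa)) + tB * √(rtr (ρB * Qb))) := by
  have hA := h.dA.dens
  have hB := h.dB.dens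
  have hm := h.mode
  have hβ := bet_pos (tC_pos h.η0.le h.η1.le h.tA0 h.tB0)
  have sA := pair_sideA hA hB h.Ra hm.qa_herm hm.qa_idem hm.qa_mul
  have sB := pair_sideB hA hB h.Rb hm.qb_herm hm.qb_idem hm.qb_mul
  have hW : OpLe (Θ (Hm ρ')) R := h.chan.opLe h.RH
  have hV : OpLe (Θ (comm c (Hm ρ'))) (2 * R * R) := h.chan.opLe (pair_opLe_comm h.Rc h.RH)
  have hc : Θ c = √η • (a ⊗ₖ (1 : Matrix ι' ι' ℂ)) + √(1 - η) • ((1 : Matrix ι ι ℂ) ⊗ₖ b) := by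
    have := hm.h1 1
    rwa [Matrix.one_mul, h.chan.unital, Matrix.one_mul] at this
  have cA : pAL ρB (Θ c) = √η • a + √(1 - η) • (trace (ρB * b) • (1 : Matrix ι ι ℂ)) := by
    rw [hc, map_add, LinearMap.map_smul_of_tower, LinearMap.map_smul_of_tower, pAL_apply,
      pAL_apply, pA_kron, pA_kron, Matrix.mul_one, hB.2, one_smul]
  have cB : pBL ρA (Θ c) = √(1 - η) • b + √η • (trace (ρA * a) • (1 : Matrix ι' ι' ℂ)) := by
    rw [hc, map_add, LinearMap.map_smul_of_tower, LinearMap.map_smul_of_tower, pBL_apply,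
      pBL_apply, pB_kron, pB_kron, Matrix.mul_one, hA.2, one_smul, add_comm]
  have lA : lamr η tA (tC η tA tB) γ * bet tA =
      2 * γ * bet (tC η tA tB) + (1 - γ) * η * bet (tC η tA tB) :=
    div_mul_cancel₀ _ (bet_pos h.tA0).ne'
  have lB : lamr (1 - η) tB (tC η tA tB) γ * bet tB =
      2 * γ * bet (tC η tA tB) + (1 - γ) * (1 - η) * bet (tC η tA tB) :=
    div_mul_cancel₀ _ (bet_pos h.tB0).ne'
  obtain ⟨xa, hxa, eA⟩ := sA.expand h.tA0 h.η0.le h.η1.le hW hV (hm.h2a _) cA lA h.elA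
  obtain ⟨xb, hxb, eB⟩ := sB.expand h.tB0 (by linarith [h.η1]) (by linarith [h.η0]) hW hV
    (hm.h2b _) cB lB h.elB
  have hz : Θ (comm c (Hm ρ')) - bet (tC η tA tB) • Θ c = Θ (zed (tC η tA tB) ρ' c) := by
    rw [zed, map_sub, LinearMap.map_smul_of_tower]
  rw [hz, pAL_apply] at eA
  rw [hz, pBL_apply] at eB
  have hp := (Complex.abs_re_le_norm _).trans (pair_del h.η0.le h.η1.le h.tA0.le h.tB0.le h.chan hm
    hA hB h.out h.Ra h.Rb h.Rc h.opLe_zed)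
  simp only [Complex.sub_re, Complex.re_ofReal_mul] at hp
  have hf : fis (tC η tA tB) ρ' c =
      -((1 - γ) * (ip (zed (tC η tA tB) ρ' c) (del (tC η tA tB) ρC c)).re) := by
    rw [fis, h.del_mix, pair_ip_rsmul_right, Complex.re_ofReal_mul]
  have hs : (star (trace (ρB * b)) * trace (ρA * a)).re =
      (star (trace (ρA * a)) * trace (ρB * b)).re := by
    simp [Complex.mul_re, mul_comm]
  rw [hs] at eA
  set x0 := (ip (zed (tC η tA tB) ρ' c) (del (tC η tA tB) ρC c)).re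
      - √η * (ip (pA ρB (Θ (zed (tC η tA tB) ρ' c))) (del tA ρA a)).re
      - √(1 - η) * (ip (pB ρA (Θ (zed (tC η tA tB) ρ' c))) (del tB ρB b)).re with hx0
  have key : fis (tC η tA tB) ρ' c - (lamr η tA (tC η tA tB) γ * fis tA ρA a
      + lamr (1 - η) tB (tC η tA tB) γ * fis tB ρB b
      + γ' * ((ip YA (del tA ρA a)).re + (ip YB (del tB ρB b)).re)
      + (1 - γ) * bet (tC η tA tB) * (2 * √η * √(1 - η) *
          (star (trace (ρA * a)) * trace (ρB * b)).re)) = (1 - γ) * (xa + xb - x0) := by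
    rw [hf, hx0]
    linear_combination -eA - eB
  rw [key, abs_mul, abs_of_pos (by linarith [h.γ1] : 0 < 1 - γ)]
  refine (mul_le_of_le_one_left (abs_nonneg _) (by linarith [h.γ0])).trans ?_
  have h1 : |xa + xb - x0| ≤ |xa| + |xb| + |x0| :=
    (abs_sub _ _).trans (add_le_add_left (abs_add_le _ _) _)
  linarith

end crit

end Crest.Agent.R331
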