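/-!
Row 331 (entropy photon-number inequality): plan of the proof.

`β(t) = log (1 + 1/t)`, `t_C = η t_A + (1-η) t_B`, `λ⁰_X = η_X β_C / β_X ≤ 1`.
1. (Final) It suffices to prove the linear form `S_C - λ⁰_A S_A - λ⁰_B S_B ≥ thermal value` for all
   `t_A, t_B > 0`; by truncation (InfState, InfCfc, InfSemi, InfOut, InfOut2) for matrices (Lin).
2. (Lin, Min) Regularise: mix the output with the thermal state (`γ`), add `2γβ_C (E_A + E_B)` and a
   penalty `γ' ⟨W⟩`, minimise over states on the box `[0,K]^n`.
3. (Var, CritBox) At a minimiser: Euler–Lagrange `λ_A H_A = (1-γ) E_B H' + penalty`, and the second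
   variation gives `(1-γ)² K_A[ξ_A Z] ≤ λ_A K'[Z]` for the logarithmic-mean form `K`.
4. (Pair) `δ = (t+1) x ρ - t ρ x` intertwines with the beam splitter; pairing with the EL equation gives
   `I' = λ_A I_A + λ_B I_B + ...` for the relative Fisher informations `I = β ⟨δ, M⁻¹ δ⟩`,
   `M(x,y) = β L(t x, (t+1) y)`.
5. (KeyW, KeyM) Key inequality `M'[Z] ≥ θ_A M_A[ξ_A] + θ_B M_B[ξ_B] + slack`.  `M` is the value of a
   three-edge network built from `x + β(t+1) L`, `y + β t L` and a coupling `κ`; `κ` is a parallel
   integral of `L k((θ Λ + (1-θ) C_β L)/L)` where `k` is an operator monotone function obtained as the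
   limit of the contraction `k ↦ 2c / (1 + k̄)` (Mean, Conv).
6. (OneMode, Min) Dualising 5 and comparing with 4 forces `δ_A, δ_B, δ'` to be small; (Near) then the
   output has almost thermal free energy, which gives the lower bound for the minimum.
-/
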