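import Crest.Agent.R331.Ent

/-!
Row 331: second-order expansion of the relative entropy (task REL).

Let `A = τ + s X`, `g x = x log x`, `g' x = log x + 1`.  `klein_eq g g'` and `tr X = 0` give
`D(s) := rtr (A Hm τ) - ent A = ∑ ovl A τ i j (g a_i - g b_j - g' b_j (a_i - b_j))`.
Put `k(a,b) = (g a - g b - g' b (a-b)) / (a-b)²` for `a ≠ b`, `k(b,b) = 1/(2b)`; for fixed `b > 0`
it is continuous in `a` at every `a > 0` (at `a = b`: `log (1+x) = x - x²/2 + O(x³)`).  Since
`(a_i - b_j) ((eU A)ᴴ eU τ) i j = ((eU A)ᴴ (A - τ) eU τ) i j = s ((eU A)ᴴ X eU τ) i j`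
(`mul_eU`, `eU_ct_mul`), `D(s)/s² = ∑_j ∑_i k(a_i,b_j) ‖((eU A)ᴴ X eU τ) i j‖²
= ∑_j Re ((X eU τ)ᴴ fc (k · b_j) A (X eU τ)) j j`, which tends (`tendsto_fc`) to
`∑_{ij} k(b_i,b_j) ‖co τ X i j‖²`.  Symmetrise with `‖co τ X i j‖ = ‖co τ X j i‖` and
`k(a,b) + k(b,a) = 1 / LM a b`.
-/

set_option autoImplicit false
set_option linter.unusedSectionVars false

open Matrix Set Filter Topology Crest.Agent.R342 Crest.Agent.R332 Crest.MathPhysics.Bosonic
open scoped ComplexOrder Kronecker Matrix.Norms.Frobenius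

namespace Crest.Agent.R331

variable {ι ι' κ : Type} [Fintype ι] [DecidableEq ι] [Fintype ι'] [DecidableEq ι']
  [Fintype κ] [DecidableEq κ]

/-- the second-order kernel of the relative entropy -/
noncomputable def relK (b a : ℝ) : ℝ :=
  if a = b then 1 / (2 * b) else (a * Real.log a - a * Real.log b - a + b) / (a - b) ^ 2

lemma relK_mul (b a : ℝ) :
    relK b a * (a - b) ^ 2 = a * Real.log a - a * Real.log b - a + b := by
  unfold relK
  split_ifs with h
  · subst h; ring
  · have : (a - b) ^ 2 ≠ 0 := pow_ne_zero _ (sub_ne_zero.2 h)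
    field_simp

lemma relK_add (a b : ℝ) : relK b a + relK a b = 1 / LM a b := by
  unfold relK LM
  by_cases h : a = b
  · subst h
    simp only [if_true]
    by_cases ha : a = 0
    · simp [ha]
    · field_simp; ring
  · have h' : b ≠ a := fun e => h e.symm
    have h1 : a - b ≠ 0 := sub_ne_zero.2 h
    have h2 : b - a ≠ 0 := sub_ne_zero.2 h'
    rw [if_neg h, if_neg h', if_neg h, one_div_div]
    have e : (b - a) ^ 2 = (a - b) ^ 2 := by ring
    rw [e]
    field_simp
    ring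

lemma relK_tendsto_diag {b : ℝ} (hb : 0 < b) :
    Tendsto (fun a => (a * Real.log a - a * Real.log b - a + b) / (a - b) ^ 2) (𝓝[≠] b)
      (𝓝 (1 / (2 * b))) := by
  have hpos : ∀ᶠ a in 𝓝[≠] b, 0 < a :=
    eventually_nhdsWithin_of_eventually_nhds (lt_mem_nhds hb)
  refine HasDerivAt.lhopital_zero_nhdsNE (f' := fun a => Real.log a - Real.log b)
    (g' := fun a => 2 * (a - b)) ?_ ?_ ?_ ?_ ?_ ?_
  · filter_upwards [hpos] with a ha
    have h1 := (((hasDerivAt_id a).mul (Real.hasDerivAt_log ha.ne')).sub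
      ((hasDerivAt_id a).mul_const (Real.log b))).sub (hasDerivAt_id a) |>.add_const b
    refine h1.congr_deriv ?_
    simp only [id]
    field_simp
    ring
  · refine Eventually.of_forall fun a => ?_
    have h1 := ((hasDerivAt_id a).sub_const b).pow 2
    refine h1.congr_deriv ?_
    simp
  · filter_upwards [self_mem_nhdsWithin] with a ha
    exact mul_ne_zero two_ne_zero (sub_ne_zero.2 ha)
  · refine tendsto_nhdsWithin_of_tendsto_nhds ?_
    have hc : ContinuousAt (fun a => a * Real.log a - a * Real.log b - a + b) b :=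
      (((continuousAt_id.mul (Real.continuousAt_log hb.ne')).sub
        (continuousAt_id.mul continuousAt_const)).sub continuousAt_id).add continuousAt_const
    have := hc.tendsto
    simpa using this
  · refine tendsto_nhdsWithin_of_tendsto_nhds ?_
    have hc : ContinuousAt (fun a : ℝ => (a - b) ^ 2) b := by fun_prop
    simpa using hc.tendsto
  · have h1 := (hasDerivAt_iff_tendsto_slope.1 (Real.hasDerivAt_log hb.ne')).const_mul (1 / 2)
    have e : (1 / 2 : ℝ) * b⁻¹ = 1 / (2 * b) := by field_simp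
    rw [e] at h1
    refine h1.congr' ?_
    filter_upwards [self_mem_nhdsWithin] with a ha
    have : a - b ≠ 0 := sub_ne_zero.2 ha
    rw [slope_def_field]
    field_simp

lemma relK_continuousAt {b a : ℝ} (hb : 0 < b) (ha : 0 < a) : ContinuousAt (relK b) a := by
  by_cases h : a = b
  · subst h
    rw [← continuousWithinAt_compl_self]
    have h1 : relK a a = 1 / (2 * a) := by simp [relK]
    unfold ContinuousWithinAt
    rw [h1]
    refine (relK_tendsto_diag hb).congr' ?_
    filter_upwards [self_mem_nhdsWithin] with x hx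
    have : x ≠ a := hx
    simp [relK, this]
  · have hc : ContinuousAt
        (fun a => (a * Real.log a - a * Real.log b - a + b) / (a - b) ^ 2) a := by
      refine ContinuousAt.div ?_ (by fun_prop) (pow_ne_zero _ (sub_ne_zero.2 h))
      exact (((continuousAt_id.mul (Real.continuousAt_log ha.ne')).sub
        (continuousAt_id.mul continuousAt_const)).sub continuousAt_id).add continuousAt_const
    refine hc.congr ?_
    filter_upwards [isOpen_ne.mem_nhds h] with x hx
    have : x ≠ b := hx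
    simp [relK, this]

lemma rel_diag_fc (f : ℝ → ℝ) (A Y : Matrix ι ι ℂ) (j : ι) :
    ((Yᴴ * fc f A * Y) j j).re = ∑ i, f (ev A i) * ‖((eU A)ᴴ * Y) i j‖ ^ 2 := by
  have e : Yᴴ * fc f A * Y =
      ((eU A)ᴴ * Y)ᴴ * (rdiag (fun i => f (ev A i)) * ((eU A)ᴴ * Y)) := by
    rw [fc_eq]
    simp only [conjTranspose_mul, conjTranspose_conjTranspose, Matrix.mul_assoc]
  rw [e, mul_apply, Complex.re_sum]
  refine Finset.sum_congr rfl fun i _ => ?_
  simp only [rdiag, diagonal_mul, conjTranspose_apply, Complex.star_def]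
  rw [mul_left_comm, Complex.conj_mul', ← Complex.ofReal_pow, ← Complex.ofReal_mul,
    Complex.ofReal_re]

lemma rel_herm {τ X : Matrix ι ι ℂ} (hτ : τ.IsHermitian) (hX : X.IsHermitian) (s : ℝ) :
    (τ + s • X).IsHermitian := by
  refine hτ.add ?_
  unfold Matrix.IsHermitian
  rw [conjTranspose_smul, hX.eq]
  simp

lemma rel_ovl {τ X : Matrix ι ι ℂ} (hτ : τ.IsHermitian) (hX : X.IsHermitian) (s : ℝ) (i j : ι) :
    ovl (τ + s • X) τ i j * (ev (τ + s • X) i - ev τ j) ^ 2 =
      s ^ 2 * ‖((eU (τ + s • X))ᴴ * (X * eU τ)) i j‖ ^ 2 := by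
  set A := τ + s • X with hA
  have hAh : A.IsHermitian := rel_herm hτ hX s
  have e : rdiag (ev A) * ((eU A)ᴴ * eU τ) - ((eU A)ᴴ * eU τ) * rdiag (ev τ) =
      s • ((eU A)ᴴ * (X * eU τ)) := by
    rw [← Matrix.mul_assoc, ← eU_ct_mul hAh, Matrix.mul_assoc ((eU A)ᴴ) (eU τ), ← mul_eU hτ,
      Matrix.mul_assoc, ← Matrix.mul_sub, ← Matrix.sub_mul, hA, add_sub_cancel_left,
      Matrix.smul_mul, Matrix.mul_smul]
  have h1 := congrFun (congrFun e i) j
  simp only [rdiag, Matrix.sub_apply, diagonal_mul, mul_diagonal, Matrix.smul_apply] at h1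
  have h2 : ((ev A i - ev τ j : ℝ) : ℂ) * ((eU A)ᴴ * eU τ) i j =
      s • ((eU A)ᴴ * (X * eU τ)) i j := by
    rw [← h1]; push_cast; ring
  have h3 := congrArg (fun z : ℂ => ‖z‖ ^ 2) h2
  simp only [norm_mul, norm_smul, mul_pow, Complex.norm_real, Real.norm_eq_abs, sq_abs] at h3
  unfold ovl
  rw [← h3]; ring

lemma rel_expand {τ X : Matrix ι ι ℂ} (hτ : τ.IsHermitian) (hX : X.IsHermitian)
    (h0 : trace X = 0) (s : ℝ) :
    rtr ((τ + s • X) * Hm τ) - ent (τ + s • X) =
      s ^ 2 * ∑ j, (((X * eU τ)ᴴ * fc (relK (ev τ j)) (τ + s • X) * (X * eU τ)) j j).re := by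
  set A := τ + s • X with hA
  have hAh : A.IsHermitian := rel_herm hτ hX s
  have e1 : rtr (A * Hm τ) = ∑ i, ∑ j, ovl A τ i j * (ev A i * -Real.log (ev τ j)) := by
    have := rtr_fc_mul_fc (fun x => x) (fun x => -Real.log x) A τ
    rwa [fc_id hAh] at this
  have e2 : ent A = ∑ i, ∑ j, ovl A τ i j * Real.negMulLog (ev A i) := trf_eq_left _ A τ
  have e3 : rtr A = ∑ i, ∑ j, ovl A τ i j * ev A i := by
    rw [rtr_eq_trf hAh]; exact trf_eq_left _ A τ
  have e4 : rtr τ = ∑ i, ∑ j, ovl A τ i j * ev τ j := by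
    rw [rtr_eq_trf hτ]; exact trf_eq_right _ A τ
  have e5 : rtr A = rtr τ := by
    rw [hA, rtr_add, rtr_smul]
    simp [rtr, h0]
  have e6 : rtr (A * Hm τ) - ent A = rtr (A * Hm τ) - ent A - rtr A + rtr τ := by
    rw [e5]; ring
  rw [e6, e1, e2, e3, e4]
  simp only [rel_diag_fc, Finset.mul_sum, ← Finset.sum_sub_distrib, ← Finset.sum_add_distrib]
  rw [Finset.sum_comm]
  refine Finset.sum_congr rfl fun j _ => Finset.sum_congr rfl fun i _ => ?_
  have h1 := rel_ovl hτ hX s i j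
  have h2 := relK_mul (ev τ j) (ev A i)
  rw [← hA] at h1
  rw [Real.negMulLog]
  linear_combination (relK (ev τ j) (ev A i)) * h1 - (ovl A τ i j) * h2

theorem relent_limit {τ X : Matrix ι ι ℂ} (hτ : τ.PosDef) (hX : X.IsHermitian)
    (h0 : trace X = 0) :
    Tendsto (fun s : ℝ => (rtr ((τ + s • X) * Hm τ) - ent (τ + s • X)) / s ^ 2) (𝓝[≠] 0)
      (𝓝 (kf (fun x y => 1 / LM x y) τ X / 2)) := by
  have hτh : τ.IsHermitian := hτ.isHermitian
  have hA : Tendsto (fun s : ℝ => τ + s • X) (𝓝[≠] 0) (𝓝 τ) := by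
    refine tendsto_nhdsWithin_of_tendsto_nhds ?_
    have hc : Continuous fun s : ℝ => τ + s • X := by fun_prop
    simpa using hc.tendsto 0
  have hj : ∀ j, Tendsto (fun s : ℝ =>
      (((X * eU τ)ᴴ * fc (relK (ev τ j)) (τ + s • X) * (X * eU τ)) j j).re) (𝓝[≠] 0)
      (𝓝 (((X * eU τ)ᴴ * fc (relK (ev τ j)) τ * (X * eU τ)) j j).re) := by
    intro j
    have h1 : Tendsto (fun s : ℝ => fc (relK (ev τ j)) (τ + s • X)) (𝓝[≠] 0)
        (𝓝 (fc (relK (ev τ j)) τ)) :=
      tendsto_fc (f := fun _ => relK (ev τ j)) hA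
        (Eventually.of_forall fun s => rel_herm hτh hX s) hτh fun i =>
        (relK_continuousAt (ev_pos hτ j) (ev_pos hτ i)).tendsto.comp tendsto_snd
    have hc : Continuous fun M : Matrix ι ι ℂ => (((X * eU τ)ᴴ * M * (X * eU τ)) j j).re := by
      refine Complex.continuous_re.comp ?_
      exact ((continuous_const.matrix_mul continuous_id).matrix_mul continuous_const).matrix_elem j j
    exact (hc.tendsto _).comp h1
  have hs := tendsto_finsetSum Finset.univ fun j _ => hj j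
  have hsym : ∀ i j, ‖co τ X i j‖ = ‖co τ X j i‖ := by
    intro i j
    have : (co τ X)ᴴ = co τ X := by
      unfold co
      simp only [conjTranspose_mul, conjTranspose_conjTranspose, hX.eq, Matrix.mul_assoc]
    rw [← this, conjTranspose_apply, this, norm_star]
  have hval : ∑ j, (((X * eU τ)ᴴ * fc (relK (ev τ j)) τ * (X * eU τ)) j j).re =
      kf (fun x y => 1 / LM x y) τ X / 2 := by
    have a1 : ∑ j, (((X * eU τ)ᴴ * fc (relK (ev τ j)) τ * (X * eU τ)) j j).re =
        ∑ j, ∑ i, relK (ev τ j) (ev τ i) * ‖co τ X i j‖ ^ 2 := by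
      simp only [rel_diag_fc]
      simp only [co, Matrix.mul_assoc]
    have a2 : ∑ j, ∑ i, relK (ev τ j) (ev τ i) * ‖co τ X i j‖ ^ 2 =
        ∑ i, ∑ j, relK (ev τ j) (ev τ i) * ‖co τ X i j‖ ^ 2 := Finset.sum_comm
    have a3 : ∑ j, ∑ i, relK (ev τ j) (ev τ i) * ‖co τ X i j‖ ^ 2 =
        ∑ i, ∑ j, relK (ev τ i) (ev τ j) * ‖co τ X i j‖ ^ 2 :=
      Finset.sum_congr rfl fun i _ => Finset.sum_congr rfl fun j _ => by rw [hsym]
    have a4 : kf (fun x y => 1 / LM x y) τ X =
        ∑ i, ∑ j, relK (ev τ j) (ev τ i) * ‖co τ X i j‖ ^ 2 +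
          ∑ i, ∑ j, relK (ev τ i) (ev τ j) * ‖co τ X i j‖ ^ 2 := by
      unfold kf
      simp only [← Finset.sum_add_distrib, ← add_mul, relK_add]
    rw [a1, a4, ← a2, ← a3]
    ring
  rw [hval] at hs
  refine hs.congr' ?_
  filter_upwards [self_mem_nhdsWithin] with s hs0
  have : s ≠ 0 := hs0
  rw [rel_expand hτh hX h0 s]
  field_simp

/-- small Hermitian perturbations of a positive definite matrix are psd -/
lemma eventually_psd {τ X : Matrix ι ι ℂ} (hτ : τ.PosDef) (hX : X.IsHermitian) :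
    ∀ᶠ s : ℝ in 𝓝 0, (τ + s • X).PosSemidef := by
  obtain ⟨m, hm, hle⟩ : ∃ m : ℝ, 0 < m ∧ ∀ i, m ≤ ev τ i := by
    rcases isEmpty_or_nonempty ι with hn | hn
    · exact ⟨1, one_pos, fun j => isEmptyElim j⟩
    · obtain ⟨j, -, hj⟩ := Finset.exists_min_image Finset.univ (ev τ) Finset.univ_nonempty
      exact ⟨ev τ j, ev_pos hτ j, fun j' => hj j' (Finset.mem_univ _)⟩
  have h1 := (le_ev_iff hτ.isHermitian m).1 hle
  have hc : Tendsto (fun s : ℝ => |s| * ‖X‖) (𝓝 0) (𝓝 0) := by
    have : Continuous fun s : ℝ => |s| * ‖X‖ := by fun_prop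
    simpa using this.tendsto 0
  filter_upwards [hc.eventually (gt_mem_nhds hm)] with s hs
  have hsh : (s • X).IsHermitian := by
    have := rel_herm (isHermitian_zero (α := ℂ) (n := ι)) hX s
    rwa [zero_add] at this
  have h2 := (((opLe_norm X).smul s).mono hs.le).psd_add hsh
  convert h1.add h2 using 1
  abel

end Crest.Agent.R331
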