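import Crest.Agent.R331.Defs

/-! Row 331: elementary scalar facts (task SCAL). -/

set_option autoImplicit false
set_option linter.unusedSectionVars false

open Matrix Set Filter Topology Crest.Agent.R342 Crest.Agent.R332 Crest.MathPhysics.Bosonic
open scoped ComplexOrder Kronecker Matrix.Norms.Frobenius

namespace Crest.Agent.R331

lemma bet_pos {t : ℝ} (ht : 0 < t) : 0 < bet t := by
  exact Real.log_pos (lt_add_of_pos_right _ (by positivity))

lemma scal_bet_eq {t : ℝ} (ht : 0 < t) : bet t = Real.log (t + 1) - Real.log t := by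
  rw [bet, ← Real.log_div (by positivity) ht.ne']
  congr 1
  field_simp

/-- `exp (-β) = t / (t+1)` -/
lemma log_ratio {t : ℝ} (ht : 0 < t) : Real.log (t / (t + 1)) = -bet t := by
  rw [scal_bet_eq ht, Real.log_div ht.ne' (by positivity)]
  ring

lemma gBose_eq {t : ℝ} (ht : 0 < t) : gBose t = bet t * t + Real.log (1 + t) := by
  rw [scal_bet_eq ht, gBose, add_comm 1 t]
  ring

lemma continuous_gBose : Continuous gBose := by
  exact (Real.continuous_mul_log.comp (continuous_id.add continuous_const)).sub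
    Real.continuous_mul_log

/-- for every `s > 0` there is `t > 0` with `β(t) = s` (`t = 1/(e^s - 1)`) -/
lemma exists_bet_eq {s : ℝ} (hs : 0 < s) : ∃ t : ℝ, 0 < t ∧ bet t = s := by
  have h : 0 < Real.exp s - 1 := by linarith [Real.add_one_lt_exp hs.ne']
  refine ⟨1 / (Real.exp s - 1), by positivity, ?_⟩
  rw [bet, one_div_one_div, add_sub_cancel, Real.log_exp]

lemma LM_pos {u v : ℝ} (hu : 0 < u) (hv : 0 < v) : 0 < LM u v := by
  unfold LM
  split_ifs with h
  · exact hu
  · rcases lt_or_gt_of_ne h with h | h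
    · exact div_pos_of_neg_of_neg (by linarith) (by linarith [Real.log_lt_log hu h])
    · exact div_pos (by linarith) (by linarith [Real.log_lt_log hv h])

lemma LM_self (u : ℝ) : LM u u = u := by simp [LM]

lemma LM_symm (u v : ℝ) : LM u v = LM v u := by
  unfold LM
  by_cases h : u = v
  · simp [h]
  · rw [if_neg h, if_neg (Ne.symm h), ← neg_div_neg_eq, neg_sub, neg_sub]

lemma LM_smul {c u v : ℝ} (hc : 0 < c) (hu : 0 < u) (hv : 0 < v) :
    LM (c * u) (c * v) = c * LM u v := by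
  unfold LM
  by_cases h : u = v
  · simp [h]
  · rw [if_neg h, if_neg (fun h' => h (mul_left_cancel₀ hc.ne' h')), Real.log_mul hc.ne' hu.ne',
      Real.log_mul hc.ne' hv.ne', ← mul_sub, add_sub_add_left_eq_sub, mul_div_assoc]

lemma LM_mul_log {u v : ℝ} (hu : 0 < u) (hv : 0 < v) :
    LM u v * (Real.log u - Real.log v) = u - v := by
  unfold LM
  by_cases h : u = v
  · simp [h]
  · rw [if_neg h, div_mul_cancel₀]
    exact sub_ne_zero.2 fun h' => h (Real.log_injOn_pos hu hv h')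

lemma LM_le_add {u v : ℝ} (hu : 0 < u) (hv : 0 < v) : LM u v ≤ u + v := by
  have key : ∀ u v : ℝ, 0 < u → 0 < v → v < u → LM u v ≤ u := by
    intro u v hu hv h
    unfold LM
    rw [if_neg h.ne', div_le_iff₀ (by linarith [Real.log_lt_log hv h])]
    have h1 := Real.log_le_sub_one_of_pos (div_pos hv hu)
    rw [Real.log_div hv.ne' hu.ne'] at h1
    have h2 := mul_le_mul_of_nonneg_left h1 hu.le
    have h3 : u * (v / u - 1) = v - u := by field_simp
    nlinarith
  rcases lt_trichotomy u v with h | h | h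
  · rw [LM_symm]
    linarith [key v u hv hu h]
  · rw [h, LM_self]
    linarith
  · linarith [key u v hu hv h]

/-- `1 / L(u,v) = ∫₀¹ ds / (s u + (1-s) v)` -/
lemma inv_LM_eq {u v : ℝ} (hu : 0 < u) (hv : 0 < v) :
    1 / LM u v = ∫ s in (0 : ℝ)..1, 1 / (s * u + (1 - s) * v) := by
  by_cases h : u = v
  · subst h
    have : ∀ s : ℝ, s * u + (1 - s) * u = u := fun s => by ring
    simp [this, LM_self]
  · have huv : u - v ≠ 0 := sub_ne_zero.2 h
    have hpos : ∀ s ∈ uIcc (0 : ℝ) 1, 0 < s * u + (1 - s) * v := by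
      intro s hs
      rw [uIcc_of_le zero_le_one] at hs
      obtain ⟨h0, h1⟩ := hs
      rcases le_total u v with h | h <;> nlinarith
    rw [intervalIntegral.integral_eq_sub_of_hasDerivAt
      (f := fun s => Real.log (s * u + (1 - s) * v) / (u - v))]
    · simp only [one_mul, sub_self, zero_mul, add_zero, sub_zero, zero_add]
      rw [LM, if_neg h, one_div_div, sub_div]
    · intro s hs
      have h1 : HasDerivAt (fun s : ℝ => s * u + (1 - s) * v) (u - v) s := by
        refine (((hasDerivAt_id' s).mul_const u).fun_add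
          (((hasDerivAt_id' s).const_sub 1).mul_const v)).congr_deriv ?_
        ring
      refine ((h1.log (hpos s hs).ne').div_const (u - v)).congr_deriv ?_
      have := (hpos s hs).ne'
      field_simp
    · refine ContinuousOn.intervalIntegrable ?_
      exact continuousOn_const.div (by fun_prop) fun s hs => (hpos s hs).ne'

lemma Mk_pos {t x y : ℝ} (ht : 0 < t) (hx : 0 < x) (hy : 0 < y) : 0 < Mk t x y := by
  exact mul_pos (bet_pos ht) (LM_pos (by positivity) (by positivity))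

lemma Mk_self {t x : ℝ} (ht : 0 < t) (hx : 0 < x) : Mk t x x = x := by
  have h := LM_mul_log (u := t * x) (v := (t + 1) * x) (by positivity) (by positivity)
  rw [Real.log_mul ht.ne' hx.ne', Real.log_mul (by positivity) hx.ne'] at h
  rw [Mk, scal_bet_eq ht]
  linarith

lemma hk_pos {x y : ℝ} (hx : 0 < x) (hy : 0 < y) : 0 < hk x y := by
  unfold hk
  positivity

lemma Cb_pos {t : ℝ} (ht : 0 < t) : 0 < Cb t := by
  have := bet_pos ht
  unfold Cb
  positivity

lemma kapg_smul (m : ℕ) {s x y : ℝ} (c : ℝ) (hs : 0 < s) (hx : 0 < x) (hy : 0 < y) :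
    kapg m (s * x) (s * y) c = s * kapg m x y c := by
  have hL := (LM_pos hx hy).ne'
  have e : s * x * (s * y) / (s * LM x y) ^ 2 = x * y / LM x y ^ 2 := by field_simp
  unfold kapg
  rw [LM_smul hs hx hy, e, mul_div_assoc]

lemma scal_hasDerivAt_bet {t : ℝ} (ht : 0 < t) : HasDerivAt bet (-(1 / (t * (t + 1)))) t := by
  have h1 : HasDerivAt (fun t : ℝ => Real.log (t + 1) - Real.log t) (1 / (t + 1) - t⁻¹) t :=
    (((hasDerivAt_id t).add_const 1).log (by simp only [id]; positivity)).sub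
      (Real.hasDerivAt_log ht.ne')
  have h2 : bet =ᶠ[𝓝 t] fun t : ℝ => Real.log (t + 1) - Real.log t := by
    filter_upwards [Ioi_mem_nhds ht] with x hx
    exact scal_bet_eq hx
  refine (h1.congr_of_eventuallyEq h2).congr_deriv ?_
  field_simp
  ring

lemma scal_bet_le {t : ℝ} (ht : 0 < t) : 2 * bet t ≤ 1 / t + 1 / (t + 1) := by
  have h1 := Real.self_le_sinh_iff.2 (bet_pos ht).le
  rw [bet, Real.sinh_log (by positivity)] at h1
  have h2 : (1 + 1 / t - (1 + 1 / t)⁻¹) = 1 / t + 1 / (t + 1) := by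
    field_simp
    ring
  rw [h2] at h1
  rw [bet]
  linarith

lemma scal_concave : ConcaveOn ℝ (Ioi 0) (fun t : ℝ => t * (t + 1) * bet t) := by
  have d1 : ∀ t : ℝ, 0 < t →
      HasDerivAt (fun t : ℝ => t * (t + 1) * bet t) ((2 * t + 1) * bet t - 1) t := by
    intro t ht
    refine ((((hasDerivAt_id' t).fun_mul ((hasDerivAt_id' t).add_const 1))).fun_mul
      (scal_hasDerivAt_bet ht)).congr_deriv ?_
    field_simp
    ring
  have d2 : ∀ t : ℝ, 0 < t →
      HasDerivAt (fun t : ℝ => (2 * t + 1) * bet t - 1) (2 * bet t - (1 / t + 1 / (t + 1))) t := by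
    intro t ht
    refine ((((((hasDerivAt_id' t).const_mul 2).add_const 1)).fun_mul
      (scal_hasDerivAt_bet ht)).sub_const 1).congr_deriv ?_
    field_simp
    ring
  refine concaveOn_of_hasDerivWithinAt2_nonpos (convex_Ioi 0)
    (f' := fun t => (2 * t + 1) * bet t - 1) (f'' := fun t => 2 * bet t - (1 / t + 1 / (t + 1)))
    (fun t ht => (d1 t ht).continuousAt.continuousWithinAt) (fun t ht => ?_) (fun t ht => ?_)
    (fun t ht => ?_)
  · rw [interior_Ioi] at ht
    exact (d1 t ht).hasDerivWithinAt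
  · rw [interior_Ioi] at ht
    exact (d2 t ht).hasDerivWithinAt
  · rw [interior_Ioi] at ht
    linarith [scal_bet_le ht]

lemma scal_tC_pos {η tA tB : ℝ} (h0 : 0 ≤ η) (h1 : η ≤ 1) (hA : 0 < tA) (hB : 0 < tB) :
    0 < tC η tA tB := by
  unfold tC
  rcases le_total tA tB with h | h <;> nlinarith

/-- `u(t) = t (t+1) log (1 + 1/t)` is concave on `(0,∞)` (`u'' = 2β - 1/t - 1/(t+1) ≤ 0`), hence
`λ⁰_A C_A + λ⁰_B C_B = β_C (η u(t_A) + (1-η) u(t_B)) ≤ β_C u(t_C) = C_C`. -/
lemma Cb_concave {η tA tB : ℝ} (h0 : 0 ≤ η) (h1 : η ≤ 1) (hA : 0 < tA) (hB : 0 < tB) :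
    lam0 η tA (tC η tA tB) * Cb tA + lam0 (1 - η) tB (tC η tA tB) * Cb tB ≤ Cb (tC η tA tB) := by
  have hC := scal_tC_pos h0 h1 hA hB
  have h := scal_concave.2 (x := tA) hA (y := tB) hB h0 (sub_nonneg.2 h1) (by ring)
  simp only [smul_eq_mul] at h
  change _ ≤ tC η tA tB * (tC η tA tB + 1) * bet (tC η tA tB) at h
  have hbA := (bet_pos hA).ne'
  have hbB := (bet_pos hB).ne'
  have h2 := mul_le_mul_of_nonneg_left h (bet_pos hC).le
  have e1 : lam0 η tA (tC η tA tB) * Cb tA = bet (tC η tA tB) * (η * (tA * (tA + 1) * bet tA)) := by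
    unfold lam0 Cb
    field_simp
  have e2 : lam0 (1 - η) tB (tC η tA tB) * Cb tB =
      bet (tC η tA tB) * ((1 - η) * (tB * (tB + 1) * bet tB)) := by
    unfold lam0 Cb
    field_simp
  rw [e1, e2, Cb]
  nlinarith

lemma tC_pos {η tA tB : ℝ} (h0 : 0 ≤ η) (h1 : η ≤ 1) (hA : 0 < tA) (hB : 0 < tB) :
    0 < tC η tA tB := by
  exact scal_tC_pos h0 h1 hA hB

lemma tC_swap (η tA tB : ℝ) : tC (1 - η) tB tA = tC η tA tB := by
  unfold tC; ring

/-- `e log (1 + 1/tc) ≤ e log (1 + 1/(e t)) ≤ log (1 + 1/t)` (Bernoulli: `(1 + x/e)^e ≤ 1 + x`). -/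
lemma lam0_le_one {e t tc : ℝ} (h0 : 0 ≤ e) (h1 : e ≤ 1) (ht : 0 < t) (htc : 0 < tc)
    (h : e * t ≤ tc) : lam0 e t tc ≤ 1 := by
  unfold lam0
  rw [div_le_one (bet_pos ht), bet, bet, ← Real.log_rpow (by positivity)]
  refine Real.log_le_log (by positivity) ?_
  refine (rpow_one_add_le_one_add_mul_self (le_trans (by norm_num) (by positivity : 0 ≤ 1 / tc))
    h0 h1).trans ?_
  rw [add_le_add_iff_left, mul_one_div, div_le_div_iff₀ htc ht]
  linarith

lemma lam0_nonneg {e t tc : ℝ} (h0 : 0 ≤ e) (ht : 0 < t) (htc : 0 < tc) : 0 ≤ lam0 e t tc := by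
  have := bet_pos ht
  have := bet_pos htc
  unfold lam0
  positivity

lemma lamr_pos {e t tc γ : ℝ} (h0 : 0 ≤ e) (ht : 0 < t) (htc : 0 < tc) (hγ : 0 < γ)
    (hγ1 : γ < 1) : 0 < lamr e t tc γ := by
  have := bet_pos ht
  have := bet_pos htc
  have : 0 < 1 - γ := sub_pos.2 hγ1
  unfold lamr
  positivity

lemma thr_pos {e t tc γ : ℝ} (h0 : 0 < e) (ht : 0 < t) (htc : 0 < tc) (hγ : 0 < γ)
    (hγ1 : γ < 1) : 0 < thr e t tc γ := by
  have := bet_pos ht
  have := bet_pos htc
  have : 0 < 1 - γ := sub_pos.2 hγ1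
  unfold thr lam0 lamr
  positivity

lemma thr_lt {e t tc γ : ℝ} (h0 : 0 < e) (ht : 0 < t) (htc : 0 < tc) (hγ : 0 < γ)
    (hγ1 : γ < 1) : thr e t tc γ < 1 - γ := by
  have h1 := bet_pos ht
  have h2 := bet_pos htc
  have h3 : 0 < 1 - γ := sub_pos.2 hγ1
  unfold thr
  rw [div_lt_iff₀ (lamr_pos h0.le ht htc hγ hγ1)]
  have e : (1 - γ) * lamr e t tc γ = (1 - γ) ^ 2 * lam0 e t tc + (1 - γ) * (2 * γ * bet tc / bet t) := by
    unfold lamr lam0
    field_simp
    ring
  rw [e]
  exact lt_add_of_pos_right _ (by positivity)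

lemma gapk_nonneg {θ ν t x y : ℝ} (hθ : 0 < θ) (hν : 0 < ν) (ht : 0 < t) (hx : 0 < x)
    (hy : 0 < y) : 0 ≤ gapk θ ν t x y := by
  have h1 := Mk_pos ht hx hy
  have h2 := hk_pos hx hy
  unfold gapk
  rw [sub_nonneg, div_le_div_iff₀ (by positivity) h1]
  nlinarith [mul_pos hν h2]

/-- Put `M = Mk t x y`, `h = hk x y`; `gapk = ν h / (M (θ M + ν h))`.  If `M ≤ σ (x+y)` the
second term suffices.  Otherwise, as `M |log(t x) - log((t+1) y)| = β |t x - (t+1) y| ≤ β (t+1)(x+y)`,
`|log (x/y)| ≤ r := β + β (t+1)/σ`, so `h / (x+y) = 1/(x/y + 2 + y/x) ≥ e := 1/(2 + 2 e^r)`, while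
`M ≤ c (x+y)`, `c = β (t+1)`·2 and `h ≤ x + y`; take `C = c (θ c + ν) / (ν e)`. -/
lemma gapk_bound {θ ν t σ : ℝ} (hθ : 0 < θ) (hν : 0 < ν) (ht : 0 < t) (hσ : 0 < σ) :
    ∃ C : ℝ, 0 ≤ C ∧ ∀ x y : ℝ, 0 < x → 0 < y →
      1 / (x + y) ≤ C * gapk θ ν t x y + σ * (1 / Mk t x y) := by
  have hb := bet_pos ht
  set c : ℝ := bet t * (t + 1) with hc
  have hc0 : 0 < c := by positivity
  set r : ℝ := bet t + c / σ with hr
  set E : ℝ := 2 + 2 * Real.exp r with hE
  have hE0 : 0 < E := by positivity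
  refine ⟨c * (θ * c + ν) * E / ν, by positivity, fun x y hx hy => ?_⟩
  have hM := Mk_pos ht hx hy
  have hh := hk_pos hx hy
  have hg := gapk_nonneg hθ hν ht hx hy
  have hxy : 0 < x + y := by positivity
  by_cases hcase : Mk t x y ≤ σ * (x + y)
  · have h1 : 1 / (x + y) ≤ σ * (1 / Mk t x y) := by
      rw [mul_one_div, div_le_div_iff₀ hxy hM]
      linarith
    have h2 : 0 ≤ c * (θ * c + ν) * E / ν * gapk θ ν t x y := by positivity
    linarith
  · replace hcase := not_le.1 hcase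
    have h1 := LM_mul_log (u := t * x) (v := (t + 1) * y) (by positivity) (by positivity)
    rw [Real.log_mul ht.ne' hx.ne', Real.log_mul (by positivity) hy.ne'] at h1
    have h2 : Mk t x y * (Real.log x - Real.log y - bet t) = bet t * (t * x - (t + 1) * y) := by
      rw [← h1, Mk, scal_bet_eq ht]
      ring
    have h3 : |Real.log x - Real.log y - bet t| ≤ c / σ := by
      rw [le_div_iff₀ hσ]
      have h4 : Mk t x y * |Real.log x - Real.log y - bet t| ≤ c * (x + y) := by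
        rw [← abs_of_pos hM, ← abs_mul, h2, abs_mul, abs_of_pos hb, hc, mul_assoc]
        refine mul_le_mul_of_nonneg_left (abs_le.2 ⟨?_, ?_⟩) hb.le <;> nlinarith
      have h5 := mul_le_mul_of_nonneg_right hcase.le (abs_nonneg (Real.log x - Real.log y - bet t))
      have h6 : (|Real.log x - Real.log y - bet t| * σ) * (x + y) ≤ c * (x + y) := by nlinarith
      exact le_of_mul_le_mul_right h6 hxy
    obtain ⟨h4, h5⟩ := abs_le.1 h3
    have h6 : x ≤ Real.exp r * y := by
      rw [← Real.exp_log hx, ← Real.exp_log hy, ← Real.exp_add, Real.exp_le_exp]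
      linarith
    have h7 : y ≤ Real.exp r * x := by
      rw [← Real.exp_log hx, ← Real.exp_log hy, ← Real.exp_add, Real.exp_le_exp]
      linarith
    have h8 : x + y ≤ E * hk x y := by
      rw [hk, ← mul_div_assoc, le_div_iff₀ hxy]
      nlinarith [mul_le_mul_of_nonneg_left h6 hx.le, mul_le_mul_of_nonneg_left h7 hy.le]
    have h9 : Mk t x y ≤ c * (x + y) := by
      rw [Mk, hc, mul_assoc]
      refine mul_le_mul_of_nonneg_left ((LM_le_add (by positivity) (by positivity)).trans ?_) hb.le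
      nlinarith
    have h10 : hk x y ≤ x + y := by
      rw [hk, div_le_iff₀ hxy]
      nlinarith
    have h11 : gapk θ ν t x y = ν * hk x y / (Mk t x y * (θ * Mk t x y + ν * hk x y)) := by
      unfold gapk
      field_simp
      ring
    have h12 : θ * Mk t x y + ν * hk x y ≤ (θ * c + ν) * (x + y) := by
      nlinarith [mul_le_mul_of_nonneg_left h9 hθ.le, mul_le_mul_of_nonneg_left h10 hν.le]
    have h13 : Mk t x y * (θ * Mk t x y + ν * hk x y) ≤ c * (x + y) * ((θ * c + ν) * (x + y)) :=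
      mul_le_mul h9 h12 (by positivity) (by positivity)
    have h14 : 1 / (x + y) ≤ c * (θ * c + ν) * E / ν * gapk θ ν t x y := by
      rw [h11, ← mul_div_assoc, div_le_div_iff₀ hxy (by positivity)]
      have e : c * (θ * c + ν) * E / ν * (ν * hk x y) * (x + y) =
          c * (x + y) * ((θ * c + ν) * (E * hk x y)) := by
        field_simp
      rw [e, one_mul]
      refine h13.trans (mul_le_mul_of_nonneg_left (mul_le_mul_of_nonneg_left h8 ?_) ?_) <;>
        positivity
    have h15 : 0 ≤ σ * (1 / Mk t x y) := by positivity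
    linarith

/-- `W m = q ^ m`, `q = 1 + 1/(2(T+1))`: for `m ≥ 1` the drift is
`(q-1) q^(m-1) ((t + 1 - t q) m - t q) ≥ (q-1) q^(m-1) (m/2 - (T+1))`, which beats `m²`. -/
lemma exists_goodW {T : ℝ} (hT : 0 ≤ T) : ∃ (W : ℕ → ℝ) (CW : ℝ), GoodW W T CW := by
  set a : ℝ := 1 / (2 * (T + 1)) with ha
  have ha0 : 0 < a := by positivity
  have haT : a * (T + 1) = 1 / 2 := by rw [ha]; field_simp
  have hq : 1 < 1 + a := by linarith
  have hgr : ∀ r : ℕ, Tendsto (fun K : ℕ => ((K : ℝ) + 1) ^ r / (1 + a) ^ K) atTop (𝓝 0) := by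
    intro r
    have h1 := ((tendsto_pow_const_div_const_pow_of_one_lt r hq).comp
      (tendsto_add_atTop_nat 1)).const_mul (1 + a)
    rw [mul_zero] at h1
    refine h1.congr fun K => ?_
    simp only [Function.comp, Nat.cast_add, Nat.cast_one, pow_succ (1 + a)]
    field_simp
  set f : ℕ → ℝ := fun k => ((k : ℝ) + 1) ^ 2 - a * (1 + a) ^ k * ((k + 1) / 2 - (T + 1)) with hf
  have hev : ∀ᶠ k : ℕ in atTop, f k ≤ 0 := by
    filter_upwards [(hgr 2).eventually (gt_mem_nhds ha0),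
      tendsto_natCast_atTop_atTop.eventually_ge_atTop (2 * (T + 2))] with k h1 h2
    have hp : 0 < (1 + a) ^ k := by positivity
    rw [div_lt_iff₀ hp] at h1
    have h3 : (1 : ℝ) ≤ (k + 1) / 2 - (T + 1) := by linarith
    have h4 := mul_le_mul_of_nonneg_left h3 (mul_pos ha0 hp).le
    simp only [hf]
    linarith
  obtain ⟨N, hN⟩ := eventually_atTop.1 hev
  have hS : 0 ≤ ∑ k ∈ Finset.range N, |f k| := Finset.sum_nonneg fun k _ => abs_nonneg _
  have hfb : ∀ k, f k ≤ ∑ k ∈ Finset.range N, |f k| := by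
    intro k
    rcases lt_or_ge k N with h | h
    · exact (le_abs_self _).trans (Finset.single_le_sum (f := fun k => |f k|)
        (fun k _ => abs_nonneg _) (Finset.mem_range.2 h))
    · exact (hN k h).trans hS
  refine ⟨fun m => (1 + a) ^ m, (∑ k ∈ Finset.range N, |f k|) + 1,
    fun m => by positivity, fun m n h => pow_le_pow_right₀ hq.le h, hgr, fun m => by positivity,
    by positivity, fun t ht0 ht m => ?_⟩
  have hta : a * t ≤ 1 / 2 := by nlinarith
  rcases m with _ | k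
  · simp only [Nat.cast_zero, zero_add, pow_one, pow_zero]
    nlinarith
  · have h1 := hfb k
    simp only [hf] at h1
    simp only [Nat.add_sub_cancel, Nat.cast_add, Nat.cast_one]
    have hp : 0 < a * (1 + a) ^ k := by positivity
    have hk0 : (0 : ℝ) ≤ k := Nat.cast_nonneg k
    have e : (t + 1) * (k + 1) * ((1 + a) ^ (k + 1) - (1 + a) ^ k) -
        t * (k + 1 + 1) * ((1 + a) ^ (k + 1 + 1) - (1 + a) ^ (k + 1)) =
        a * (1 + a) ^ k * ((k + 1) * (1 - a * t) - (t + a * t)) := by ring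
    rw [e]
    have h2 : ((k : ℝ) + 1) / 2 - (T + 1) ≤ (k + 1) * (1 - a * t) - (t + a * t) := by nlinarith
    have h3 := mul_le_mul_of_nonneg_left h2 hp.le
    linarith

/-- value of the network at the optimal splitting -/
lemma netv_attained {D1 D2 k : ℝ} (h1 : 0 < D1) (h2 : 0 < D2) (hk : 0 < k) :
    ∃ u : ℝ, D1 * u ^ 2 + D2 * (1 - u) ^ 2 + k / 2 * (2 * u - 1) ^ 2 = netv D1 D2 k := by
  refine ⟨(D2 + k) / (D1 + D2 + 2 * k), ?_⟩
  unfold netv
  field_simp
  ring

lemma scal_netv_le {D1 D2 k : ℝ} (h1 : 0 < D1) (h2 : 0 < D2) (hk : 0 < k) (a b : ℝ) :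
    netv D1 D2 k * (a + b) ^ 2 ≤ D1 * a ^ 2 + D2 * b ^ 2 + k / 2 * (a - b) ^ 2 := by
  unfold netv
  rw [div_mul_eq_mul_div, div_le_iff₀ (by positivity)]
  nlinarith [sq_nonneg ((D1 + k) * a - (D2 + k) * b)]

lemma scal_hk_le {x y : ℝ} (hx : 0 < x) (hy : 0 < y) (a b : ℝ) :
    hk x y * (a + b) ^ 2 ≤ x * a ^ 2 + y * b ^ 2 := by
  unfold hk
  rw [div_mul_eq_mul_div, div_le_iff₀ (by positivity)]
  nlinarith [sq_nonneg (x * a - y * b)]

lemma scal_norm_sq (z : ℂ) : ‖z‖ ^ 2 = z.re ^ 2 + z.im ^ 2 := by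
  rw [← Complex.normSq_eq_norm_sq, Complex.normSq_apply]
  ring

/-- the network value is the minimum over all (complex) splittings -/
lemma netv_le {D1 D2 k : ℝ} (h1 : 0 < D1) (h2 : 0 < D2) (hk : 0 < k) (U V : ℂ) :
    netv D1 D2 k * ‖U + V‖ ^ 2 ≤ D1 * ‖U‖ ^ 2 + D2 * ‖V‖ ^ 2 + k / 2 * ‖U - V‖ ^ 2 := by
  have a := scal_netv_le h1 h2 hk U.re V.re
  have b := scal_netv_le h1 h2 hk U.im V.im
  simp only [scal_norm_sq, Complex.add_re, Complex.add_im, Complex.sub_re, Complex.sub_im]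
  linarith

lemma hk_le {x y : ℝ} (hx : 0 < x) (hy : 0 < y) (U V : ℂ) :
    hk x y * ‖U + V‖ ^ 2 ≤ x * ‖U‖ ^ 2 + y * ‖V‖ ^ 2 := by
  have a := scal_hk_le hx hy U.re V.re
  have b := scal_hk_le hx hy U.im V.im
  simp only [scal_norm_sq, Complex.add_re, Complex.add_im]
  linarith

end Crest.Agent.R331
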